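import Vale.Agent.P148.R2.H219.End4

/-!
# The final limit theorem

Three arc functions, crossing estimates, and the two identities
`(c - a) ∫ ∂̄χ V → 0`, `(c + a) ∫ ∂χ V → 0` with an unknown number `c = c i`.
-/

open Set Metric Filter Topology Bornology MeasureTheory
open scoped ComplexConjugate

namespace Vale.Agent.P148.R2.H219

open _root_.P148 _root_.P148.Half Vale.Agent.P153.R2.R1

variable {ι : Type*}

/-- `c i * ∫ k F i` tends to zero (up to uniformly small changes of `F i`). -/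
def WeakSmallC (l : Filter ι) (c : ι → ℂ) (F : ι → ℂ → ℂ) (k : ℂ → ℂ) : Prop :=
  ∀ η > 0, ∀ᶠ i in l, ∃ G : ℂ → ℂ, Integrable (fun z => k z * G z) ∧
    (∀ z ∈ tsupport k, ‖G z - F i z‖ ≤ η) ∧ ‖c i * ∫ z, k z * G z‖ ≤ η

theorem WeakSmallC.weakSmall {l : Filter ι} {c : ι → ℂ} {F : ι → ℂ → ℂ} {k : ℂ → ℂ}
    (h : WeakSmallC l c F k) {m : ℝ} (hm : 0 < m) (hc : ∀ᶠ i in l, m ≤ ‖c i‖) :
    WeakSmall l F k := by
  intro η hη
  filter_upwards [h (min η (η * m)) (lt_min hη (by positivity)), hc] with i hi hci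
  obtain ⟨G, h1, h2, h3⟩ := hi
  refine ⟨G, h1, fun z hz => (h2 z hz).trans (min_le_left _ _), ?_⟩
  have h4 := h3.trans (min_le_right _ _)
  rw [norm_mul] at h4
  have h5 : m * ‖∫ z, k z * G z‖ ≤ η * m :=
    (mul_le_mul_of_nonneg_right hci (norm_nonneg _)).trans h4
  rw [mul_comm η] at h5
  exact le_of_mul_le_mul_left h5 hm

theorem WeakSmallC.mono {l l' : Filter ι} (h : l' ≤ l) {c : ι → ℂ} {F : ι → ℂ → ℂ} {k : ℂ → ℂ}
    (hF : WeakSmallC l c F k) : WeakSmallC l' c F k := fun η hη => (hF η hη).filter_mono h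

/-- A measurable version: no change of the functions is needed. -/
theorem WeakSmall.of_tendsto {l : Filter ι} {F : ι → ℂ → ℂ} {k : ℂ → ℂ}
    (hi : ∀ᶠ i in l, Integrable fun z => k z * F i z)
    (h : Tendsto (fun i => ∫ z, k z * F i z) l (𝓝 0)) : WeakSmall l F k := by
  intro η hη
  have h1 : ∀ᶠ i in l, ‖∫ z, k z * F i z‖ < η := by
    have := (tendsto_zero_iff_norm_tendsto_zero.1 h).eventually_lt_const hη
    exact this
  filter_upwards [hi, h1] with i h2 h3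
  exact ⟨F i, h2, fun z _ => by rw [sub_self, norm_zero]; exact hη.le, h3.le⟩

/-- A measurable version: no change of the functions is needed. -/
theorem WeakSmallC.of_tendsto {l : Filter ι} {c : ι → ℂ} {F : ι → ℂ → ℂ} {k : ℂ → ℂ}
    (hi : ∀ᶠ i in l, Integrable fun z => k z * F i z)
    (h : Tendsto (fun i => c i * ∫ z, k z * F i z) l (𝓝 0)) : WeakSmallC l c F k := by
  intro η hη
  have h1 : ∀ᶠ i in l, ‖c i * ∫ z, k z * F i z‖ < η := by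
    have := (tendsto_zero_iff_norm_tendsto_zero.1 h).eventually_lt_const hη
    exact this
  filter_upwards [hi, h1] with i h2 h3
  exact ⟨F i, h2, fun z _ => by rw [sub_self, norm_zero]; exact hη.le, h3.le⟩

/-- **Main limit theorem of the module E, general form.** -/
theorem three_arc_limit {Q : Quad} {φ : ℂ → ℂ} {x : ℝ} (h : Q.IsUniformizer φ x) {l : Filter ι}
    {H : ι → Fin 3 → ℂ → ℝ}
    (hbdd : ∀ᶠ i in l, ∀ j, ∀ z ∈ Q.D, 0 ≤ H i j z ∧ H i j z ≤ 1)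
    (hequi : ∀ j, ∀ p ∈ closure Q.D, ∀ η > 0, ∃ δ > 0, ∀ᶠ i in l, ∀ z ∈ Q.D, ∀ w ∈ Q.D,
      dist z p < δ → dist w p < δ → |H i j z - H i j w| ≤ η)
    (hbd0 : ∀ b ∈ Q.arc 0 ∪ Q.arc 1, ∀ η > 0, ∃ δ > 0, ∀ᶠ i in l, ∀ z ∈ Q.D, dist z b < δ →
      H i 0 z ≤ η)
    (hbd1 : ∀ b ∈ Q.arc 2, ∀ η > 0, ∃ δ > 0, ∀ᶠ i in l, ∀ z ∈ Q.D, dist z b < δ → H i 1 z ≤ η)
    (hbd2 : ∀ b ∈ Q.arc 3, ∀ η > 0, ∃ δ > 0, ∀ᶠ i in l, ∀ z ∈ Q.D, dist z b < δ → H i 2 z ≤ η)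
    {a : ℂ} (ha : a ∈ closure Q.D)
    (hca : ∀ η > 0, ∃ δ > 0, ∀ᶠ i in l, ∀ z ∈ Q.D, dist z a < δ →
      |H i 0 z + H i 1 z + H i 2 z - 1| ≤ η)
    (hw0 : ∀ χ : ℂ → ℝ, IsTest Q.D χ → WeakSmall l (fun i => sum3 (H i)) (dbar χ))
    {c : ι → ℂ} {s : ℂ} (hs : s ≠ 0)
    (hw1 : ∀ χ : ℂ → ℝ, IsTest Q.D χ →
      WeakSmallC l (fun i => c i - s) (fun i => vec (H i)) (dbar χ))
    (hw2 : ∀ χ : ℂ → ℝ, IsTest Q.D χ →
      WeakSmallC l (fun i => c i + s) (fun i => vec (H i)) (ddd χ)) :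
    (∀ p ∈ closure Q.D, LimAt l Q.D (fun i => tri (H i)) (cmap Q φ) p) ∧
    ∀ η > 0, ∃ δ > 0, ∀ᶠ i in l, ∀ z ∈ Q.D, dist z (Q.mark 1) < δ →
      |H i 2 z - cardy x| ≤ η := by
  have hH : ArcLimit Q l H := ⟨hbdd, hequi, hbd0, hbd1, hbd2, tot_limit hbdd hequi hw0 ha hca⟩
  have hs0 : 0 < ‖s‖ := norm_pos_iff.2 hs
  set A : Set ι := {i | ‖s‖ ≤ ‖c i - s‖} with hA
  have h1 : ∀ᶠ i in l ⊓ 𝓟 A, ‖s‖ ≤ ‖c i - s‖ :=
    (eventually_principal.2 fun i hi => hi).filter_mono inf_le_right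
  have h2 : ∀ᶠ i in l ⊓ 𝓟 Aᶜ, ‖s‖ ≤ ‖c i + s‖ := by
    refine Filter.Eventually.filter_mono inf_le_right (eventually_principal.2 fun i hi => ?_)
    have hi' : ‖c i - s‖ < ‖s‖ := not_le.1 hi
    have e : s + s = (c i + s) - (c i - s) := by ring
    have h3 : ‖s + s‖ = ‖s‖ + ‖s‖ := by rw [← two_mul, norm_mul]; simp [two_mul]
    have h4 := norm_sub_le (c i + s) (c i - s)
    rw [← e, h3] at h4
    linarith
  have hA' : ∀ χ : ℂ → ℝ, IsTest Q.D χ →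
      WeakSmall (l ⊓ 𝓟 A) (fun i => vec (H i)) (dbar χ) := fun χ hχ =>
    ((hw1 χ hχ).mono inf_le_left).weakSmall hs0 h1
  have hB' : ∀ χ : ℂ → ℝ, IsTest Q.D χ →
      WeakSmall (l ⊓ 𝓟 Aᶜ) (fun i => vec (H i)) (ddd χ) := fun χ hχ =>
    ((hw2 χ hχ).mono inf_le_left).weakSmall hs0 h2
  exact ⟨hH.limit_tri h hA' hB', hH.limit_cardy h hA' hB'⟩

/-- **Main limit theorem, simple form**: `V` is asymptotically holomorphic. -/
theorem three_arc_limit' {Q : Quad} {φ : ℂ → ℂ} {x : ℝ} (h : Q.IsUniformizer φ x) {l : Filter ι}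
    {H : ι → Fin 3 → ℂ → ℝ} (hH : ArcLimit Q l H)
    (hw : ∀ χ : ℂ → ℝ, IsTest Q.D χ → WeakSmall l (fun i => vec (H i)) (dbar χ)) :
    (∀ p ∈ closure Q.D, LimAt l Q.D (fun i => tri (H i)) (cmap Q φ) p) ∧
    ∀ η > 0, ∃ δ > 0, ∀ᶠ i in l, ∀ z ∈ Q.D, dist z (Q.mark 1) < δ →
      |H i 2 z - cardy x| ≤ η := by
  have hA : ∀ χ : ℂ → ℝ, IsTest Q.D χ →
      WeakSmall (l ⊓ 𝓟 (univ : Set ι)) (fun i => vec (H i)) (dbar χ) := fun χ hχ =>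
    (hw χ hχ).mono inf_le_left
  have hB : ∀ χ : ℂ → ℝ, IsTest Q.D χ →
      WeakSmall (l ⊓ 𝓟 (univ : Set ι)ᶜ) (fun i => vec (H i)) (ddd χ) := by
    intro χ _ η _
    rw [compl_univ, principal_empty, inf_bot_eq]
    exact eventually_bot
  exact ⟨hH.limit_tri h hA hB, hH.limit_cardy h hA hB⟩

end Vale.Agent.P148.R2.H219
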