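import Vale.Agent.P148.R2.H219.St9

/-!
# Stokes' formula with general face weights
-/

open Set Metric Filter Topology MeasureTheory Function
open scoped ComplexConjugate

namespace Vale.Agent.P148.R2.H219

open Vale.Agent.P148.R2.H592 Vale.Agent.P148.R2.H258

namespace Cfg

variable {S : Cfg}

/-- The weighted contour sums, general face weights. -/
theorem Fine.sum_w_id {K : Set ℂ} {C η : ℝ} (hF : S.Fine K C η) {τ : ℂ}
    (hτ : τ ^ 2 + τ + 1 = 0) {w : Fc S.X S.b → ℝ} (hw : ∀ t, ¬ Near K t → w t = 0) :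
    (τ - τ ^ 2) * ∑ t, (w t : ℂ) * ∑ j, S.T.MM τ S.o (t, j) *
      (head (t, j) - tail (t, j)) = 3 * S.T.EE S.o (fun d => (w d.1 : ℂ) * PA (τ ^ 2) d) := by
  have hc := Tri.conj_tau hτ
  have hx : ∀ d, (fun d : Fc S.X S.b × ZMod 3 => w d.1) (S.T.nxt d) =
      (fun d : Fc S.X S.b × ZMod 3 => w d.1) d := fun d => rfl
  have hwo : (fun d : Fc S.X S.b × ZMod 3 => w d.1) S.o = 0 := hw _ fun h => hF.out _ h rfl
  have key := S.T.weighted_MM S.planar hτ S.good (χ := fun d : Fc S.X S.b × ZMod 3 => w d.1)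
    hx hwo (S.pos K)
  have hdx : ∀ d : Fc S.X S.b × ZMod 3, (w d.1 : ℂ) * (S.pos K (S.T.tgt d) - S.pos K (S.T.src d)) =
      (w d.1 : ℂ) * (head d - tail d) := by
    intro d
    by_cases h : Near K d.1
    · have e1 : head d = vc d.1 (d.2 + 2) := rfl
      have e2 : tail d = vc d.1 (d.2 + 1) := rfl
      rw [T_src, T_tgt, e1, e2, hF.pos_eq h, hF.pos_eq h]
    · rw [hw _ h]; simp
  have hPW : ∀ d : Fc S.X S.b × ZMod 3, (w d.1 : ℂ) * S.T.PW (τ ^ 2) (S.pos K) d =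
      (w d.1 : ℂ) * PA (τ ^ 2) d := by
    intro d
    by_cases h : Near K d.1
    · unfold Tri.PW PA
      rw [T_src, T_tgt, T_apex, hF.pos_eq h]
      have e1 : head d = vc d.1 (d.2 + 2) := rfl
      have e2 : tail d = vc d.1 (d.2 + 1) := rfl
      rw [e1, e2, hF.pos_eq h, hF.pos_eq h]
    · rw [hw _ h]; simp
  have e1 : ∑ t, (w t : ℂ) * ∑ j, S.T.MM τ S.o (t, j) * (head (t, j) - tail (t, j)) =
      ∑ d : Fc S.X S.b × ZMod 3, (w d.1 : ℂ) * S.T.MM τ S.o d *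
        (S.pos K (S.T.tgt d) - S.pos K (S.T.src d)) := by
    rw [Fintype.sum_prod_type]
    refine Finset.sum_congr rfl fun t _ => ?_
    rw [Finset.mul_sum]
    refine Finset.sum_congr rfl fun j _ => ?_
    have := hdx (t, j)
    linear_combination (-S.T.MM τ S.o (t, j)) * this
  rw [e1, key, S.T.conj_EE]
  congr 2
  funext d
  rw [← hPW d, map_mul, Complex.conj_ofReal]
  congr 1
  unfold Tri.PW
  simp only [map_add, map_mul, map_pow, hc, Complex.conj_conj]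

/-- The mean weight in terms of the class probabilities. -/
theorem EE_w {τ : ℂ} (hτ : τ ^ 2 + τ + 1 = 0) {w : Fc S.X S.b → ℝ} (hw : w S.o.1 = 0) :
    S.T.EE S.o (fun d => (w d.1 : ℂ) * PA τ d) =
      ∑ t, (w t : ℂ) * PA τ ((t, 0) : Fc S.X S.b × ZMod 3) *
        S.T.UU (τ ^ 2) S.o ((t, 0) : Fc S.X S.b × ZMod 3) := by
  classical
  have h3 := Tri.tau_pow_three hτ
  have hτ' : (τ ^ 2) ^ 2 + τ ^ 2 + 1 = 0 := by linear_combination (τ ^ 2 - τ + 1) * hτ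
  set Θ : Fc S.X S.b × ZMod 3 → ℂ := fun d => (w d.1 : ℂ) * PA τ d with hΘd
  have hΘ : ∀ d, Θ (S.T.nxt d) = τ ^ 2 * Θ d := by
    intro d
    have e : S.T.nxt d = (d.1, d.2 + 1) := rfl
    simp only [hΘd]
    rw [e, PA_nxt hτ]; ring
  have hΘo : Θ S.o = 0 := by simp only [hΘd]; rw [hw]; simp
  obtain ⟨h1, h2⟩ := S.T.EE_rot' S.planar hτ hΘ hΘo
  have e1 : 3 * S.T.EE S.o Θ = ∑ d, Θ d * S.T.UU (τ ^ 2) S.o d := by
    have e2 : ∑ d, Θ d * S.T.UU (τ ^ 2) S.o d =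
        S.T.EE S.o Θ + τ ^ 2 * S.T.EE (S.T.nxt S.o) Θ +
          (τ ^ 2) ^ 2 * S.T.EE (S.T.nxt (S.T.nxt S.o)) Θ := by
      unfold Tri.EE Tri.UU
      rw [Finset.mul_sum, Finset.mul_sum, ← Finset.sum_add_distrib, ← Finset.sum_add_distrib]
      exact Finset.sum_congr rfl fun d _ => by ring
    rw [e2, h1, h2]
    linear_combination (-(τ ^ 3 + 2) * S.T.EE S.o Θ) * h3
  have e3 : ∑ d, Θ d * S.T.UU (τ ^ 2) S.o d =
      3 * ∑ t, (w t : ℂ) * PA τ ((t, 0) : Fc S.X S.b × ZMod 3) *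
        S.T.UU (τ ^ 2) S.o ((t, 0) : Fc S.X S.b × ZMod 3) := by
    rw [Fintype.sum_prod_type, Finset.mul_sum]
    refine Finset.sum_congr rfl fun t _ => ?_
    by_cases hto : t = S.o.1
    · rw [hto]
      simp only [hΘd]
      rw [hw]; simp
    · have hU : ∀ j : ZMod 3, S.T.UU (τ ^ 2) S.o (t, j + 1) =
          (τ ^ 2) ^ 2 * S.T.UU (τ ^ 2) S.o (t, j) := by
        intro j
        have hne : ∀ i : ZMod 3, ((t, j) : Fc S.X S.b × ZMod 3) ≠ (S.o.1, i) := fun i he =>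
          hto (congrArg Prod.fst he)
        have := S.T.UU_nxt S.planar hτ' (e := (t, j)) (o := S.o) (hne S.o.2) (hne (S.o.2 + 1))
          (hne (S.o.2 + 1 + 1))
        exact this
      have hf : ∀ j : ZMod 3, Θ (t, j + 1) * S.T.UU (τ ^ 2) S.o (t, j + 1) =
          Θ (t, j) * S.T.UU (τ ^ 2) S.o (t, j) := by
        intro j
        have hΘ' : Θ (t, j + 1) = τ ^ 2 * Θ (t, j) := hΘ (t, j)
        rw [hU, hΘ']
        linear_combination (Θ (t, j) * S.T.UU (τ ^ 2) S.o (t, j) * (τ ^ 3 + 1)) * h3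
      have f0 := hf 0
      have f1 := hf 1
      rw [zero_add] at f0
      have a1 : (1 : ZMod 3) + 1 = 2 := by decide
      rw [a1] at f1
      rw [HT.sum_z3, f1, f0]
      ring
  rw [e3] at e1
  exact mul_left_cancel₀ (by norm_num) e1

/-- **Stokes' formula for one configuration**, general face weights. -/
theorem Fine.stokes_w {D : Set ℂ} {χ : ℂ → ℝ} (hχ : IsTest D χ) {K : ℝ} (hK : TB χ K) {C η : ℝ}
    (hη : 0 ≤ η) (hF : S.Fine (tsupport χ) C η) {τ : ℂ} (hτ : τ ^ 2 + τ + 1 = 0) (Φ : Form χ)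
    {w : Fc S.X S.b → ℝ} (hw : ∀ t, ¬ Near (tsupport χ) t → w t = 0)
    (hw1 : ∀ t, Near (tsupport χ) t → ∀ j, |w t - χ (mid (t, j))| ≤ K * dm t)
    {G : Type*} [Fintype G] {Q : G → Set ℂ} (hQm : ∀ g, MeasurableSet (Q g))
    (hQd : Pairwise fun g g' => Disjoint (Q g) (Q g')) (hQf : ∀ g, volume (Q g) ≠ ⊤)
    (hQc : ∀ z, dbar χ z ≠ 0 → ∃ g, z ∈ Q g) {hg : G → ℂ} {osc : G → ℝ}
    (hosc : ∀ g, ∀ t : Fc S.X S.b, Near (tsupport χ) t → (TF t ∩ Q g).Nonempty → ∀ j,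
      ‖S.T.MM τ S.o (t, j) - hg g‖ ≤ osc g)
    (hosc0 : ∀ g, 0 ≤ osc g) :
    ‖(∑ t, (w t : ℂ) * ∑ j, S.T.MM τ S.o (t, j) *
        Φ.ℓ (head (t, j) - tail (t, j))) + ∑ g, hg g * (Φ.cI * ∫ z in Q g, Φ.k z)‖ ≤
      12 * K * (η * C) + 3 * K * √(η ^ 2 * C) +
        K * ∑ g, osc g * (volume (Q g)).toReal := by
  classical
  set N : Finset (Fc S.X S.b) := Finset.univ.filter fun t => Near (tsupport χ) t with hN
  have hNm : ∀ t, t ∈ N ↔ Near (tsupport χ) t := fun t => by simp [hN]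
  have hK0 := hK.nonneg
  have hz : ∀ w, w ∉ tsupport χ → χ w = 0 := fun w hw => image_eq_zero_of_notMem_tsupport hw
  have hlo : ∀ t ∈ N, ∀ j, S.π (tail (t, j)) ≠ S.π (head (t, j)) := by
    intro t ht j he
    have h1 := hF.inj t t ((hNm t).1 ht) ((hNm t).1 ht) (j + 1) (j + 2) he
    exact (S.h.nbr_th (t, j)).2.2.1 h1
  have key := HT.stokes_MM S.h S.π S.hπ hτ S.ho hK hχ.compact hχ.continuous_dbar Φ hF.hull_sub N
    (fun t ht => ((hNm t).1 ht).1) (fun t ht => hF.out t ((hNm t).1 ht)) hlo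
    (χ' := w) (δ := dm) (fun t _ => sideLe_dm t)
    (fun t ht j => hw1 t ((hNm t).1 ht) j)
    (fun t ht => hw t fun h => ht ((hNm t).2 h))
    (fun t ht j => hz _ ((hF.far fun h => ht ((hNm t).2 h)).2 j))
    (fun t hi ht w hw => dbar_eq_zero fun hh => ht ((hNm t).2 ⟨hi, w, hw, hh⟩))
    hQm hQd hQf hQc (hg := hg) (osc := osc) (fun g t ht => hosc g t ((hNm t).1 ht)) hosc0
  refine key.trans ?_
  have hE := hF.energy N fun t ht => (hNm t).1 ht
  have hS2 : ∑ t ∈ N, dm t ^ 2 ≤ C := (Finset.sum_le_sum fun t _ => dm_sq_le t).trans hE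
  have hdη : ∀ t ∈ N, dm t ≤ η := fun t ht => dm_le (hF.mesh t ((hNm t).1 ht))
  have hS3 : ∑ t ∈ N, dm t ^ 3 ≤ η * C := by
    calc ∑ t ∈ N, dm t ^ 3 ≤ ∑ t ∈ N, η * dm t ^ 2 := Finset.sum_le_sum fun t ht => by
          have h0 := dm_nonneg t
          have h1 := hdη t ht
          have e : dm t ^ 3 = dm t * dm t ^ 2 := by ring
          rw [e]
          exact mul_le_mul_of_nonneg_right h1 (by positivity)
      _ = η * ∑ t ∈ N, dm t ^ 2 := by rw [Finset.mul_sum]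
      _ ≤ η * C := mul_le_mul_of_nonneg_left hS2 hη
  have hS4 : ∑ t ∈ N, dm t ^ 4 ≤ η ^ 2 * C := by
    calc ∑ t ∈ N, dm t ^ 4 ≤ ∑ t ∈ N, η ^ 2 * dm t ^ 2 := Finset.sum_le_sum fun t ht => by
          have h0 := dm_nonneg t
          have h1 := hdη t ht
          have e : dm t ^ 4 = dm t ^ 2 * dm t ^ 2 := by ring
          rw [e]
          exact mul_le_mul_of_nonneg_right (pow_le_pow_left₀ h0 h1 2) (by positivity)
      _ = η ^ 2 * ∑ t ∈ N, dm t ^ 2 := by rw [Finset.mul_sum]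
      _ ≤ η ^ 2 * C := mul_le_mul_of_nonneg_left hS2 (by positivity)
  have hr := Real.sqrt_le_sqrt hS4
  have m1 := mul_le_mul_of_nonneg_left hS3 (show 0 ≤ 12 * K by positivity)
  have m2 := mul_le_mul_of_nonneg_left hr (show 0 ≤ 3 * K by positivity)
  linarith

end Cfg

end Vale.Agent.P148.R2.H219
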