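import Vale.Agent.P148.R2.H219.St4

/-!
# Stokes' formula for one configuration, in terms of the mean weight of the class of `o`
(P148, module S)
-/

open Set Metric Filter Topology MeasureTheory Function
open scoped ComplexConjugate

namespace Vale.Agent.P148.R2.H219

open Vale.Agent.P148.R2.H592 Vale.Agent.P148.R2.H258

/-- One configuration: a contraction of a Delaunay triangulation with an outer dart. -/
structure Cfg where
  X : Set ℂ
  b : ZMod 3 → ℂ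
  h : HullTri X b
  V : Type
  fV : Fintype V
  π : ℂ → V
  hπ : Fib X π
  o : Fc X b × ZMod 3
  ho : (h.tri258 π hπ).Good o

/-- The weight of a dart, with the actual positions. -/
noncomputable def PA {X : Set ℂ} {b : ZMod 3 → ℂ} (τ : ℂ) (d : Fc X b × ZMod 3) : ℂ :=
  head d + τ * vc d.1 d.2 + τ ^ 2 * tail d

/-- The inner faces which meet `K`. -/
def Near {X : Set ℂ} {b : ZMod 3 → ℂ} (K : Set ℂ) (t : Fc X b) : Prop :=
  Inner t ∧ (TF t ∩ K).Nonempty

/-- The longest side of a face. -/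
noncomputable def dm {X : Set ℂ} {b : ZMod 3 → ℂ} (t : Fc X b) : ℝ :=
  max ‖head (t, (0 : ZMod 3)) - tail (t, (0 : ZMod 3))‖
    (max ‖head (t, (1 : ZMod 3)) - tail (t, (1 : ZMod 3))‖
      ‖head (t, (2 : ZMod 3)) - tail (t, (2 : ZMod 3))‖)

theorem sideLe_dm {X : Set ℂ} {b : ZMod 3 → ℂ} (t : Fc X b) : SideLe t (dm t) := by
  intro j
  rcases z3_all j with rfl | rfl | rfl
  · exact le_max_left _ _
  · exact (le_max_left _ _).trans (le_max_right _ _)
  · exact (le_max_right _ _).trans (le_max_right _ _)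

theorem dm_nonneg {X : Set ℂ} {b : ZMod 3 → ℂ} (t : Fc X b) : 0 ≤ dm t :=
  (norm_nonneg _).trans (sideLe_dm t 0)

theorem dm_le {X : Set ℂ} {b : ZMod 3 → ℂ} {t : Fc X b} {η : ℝ}
    (h : ∀ j : ZMod 3, ‖head (t, j) - tail (t, j)‖ ≤ η) : dm t ≤ η :=
  max_le (h 0) (max_le (h 1) (h 2))

theorem dm_sq_le {X : Set ℂ} {b : ZMod 3 → ℂ} (t : Fc X b) :
    dm t ^ 2 ≤ ∑ j : ZMod 3, ‖head (t, j) - tail (t, j)‖ ^ 2 := by
  rw [HT.sum_z3]
  have h0 := sq_nonneg ‖head (t, (0 : ZMod 3)) - tail (t, (0 : ZMod 3))‖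
  have h1 := sq_nonneg ‖head (t, (1 : ZMod 3)) - tail (t, (1 : ZMod 3))‖
  have h2 := sq_nonneg ‖head (t, (2 : ZMod 3)) - tail (t, (2 : ZMod 3))‖
  unfold dm
  rcases max_choice ‖head (t, (0 : ZMod 3)) - tail (t, (0 : ZMod 3))‖
    (max ‖head (t, (1 : ZMod 3)) - tail (t, (1 : ZMod 3))‖
      ‖head (t, (2 : ZMod 3)) - tail (t, (2 : ZMod 3))‖) with h | h
  · rw [h]; linarith
  · rw [h]
    rcases max_choice ‖head (t, (1 : ZMod 3)) - tail (t, (1 : ZMod 3))‖
      ‖head (t, (2 : ZMod 3)) - tail (t, (2 : ZMod 3))‖ with h' | h'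
    · rw [h']; linarith
    · rw [h']; linarith

/-- The corners belong to the closed triangle. -/
theorem vc_mem_TF {X : Set ℂ} {b : ZMod 3 → ℂ} {t : Fc X b} (ht : Inner t) (j : ZMod 3) :
    vc t j ∈ TF t := by
  rw [← (inner_rot ht j).2, mem_Tr]
  exact ⟨0, 0, le_rfl, le_rfl, by norm_num, by simp⟩

theorem mid_mem_TF {X : Set ℂ} {b : ZMod 3 → ℂ} {t : Fc X b} (ht : Inner t) (j : ZMod 3) :
    mid (t, j) ∈ TF t := by
  rw [← (inner_rot ht (j + 1)).2, mem_Tr]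
  refine ⟨1 / 2, 0, by norm_num, le_rfl, by norm_num, ?_⟩
  simp only [mid, head, tail]
  have e : j + 1 + 1 = j + 2 := by
    rw [add_assoc]; congr 1
  rw [e]
  push_cast
  ring

theorem TF_near {X : Set ℂ} {b : ZMod 3 → ℂ} {t : Fc X b} {δ : ℝ} (ht : Inner t)
    (hδ : SideLe t δ) (j : ZMod 3) {w : ℂ} (hw : w ∈ TF t) : ‖w - vc t j‖ ≤ δ := by
  have e1 : j + 1 + 1 = j + 2 := by rw [add_assoc]; congr 1
  have e2 : j + 1 + 2 = j := by rw [add_assoc]; exact add_eq_left.2 (by decide)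
  have e3 : j + 2 + 1 = j := by rw [add_assoc]; exact add_eq_left.2 (by decide)
  have e4 : j + 2 + 2 = j + 1 := by rw [add_assoc]; congr 1
  have s2 := hδ (j + 2)
  have s1 := hδ (j + 1)
  simp only [head, tail, e3, e4] at s2
  simp only [head, tail, e1, e2] at s1
  have := Tr_subset (a := vc t j) (b := vc t (j + 1)) (c := vc t (j + 2)) (δ := δ) s2
    (by rw [← norm_neg, neg_sub]; exact s1)
  rw [(inner_rot ht j).2] at this
  have h := this hw
  rwa [mem_closedBall, dist_eq_norm] at h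

namespace Cfg

variable (S : Cfg)

noncomputable instance : Fintype S.V := S.fV

noncomputable instance : Fintype (Fc S.X S.b) := by
  have := S.h.finite_Fc
  exact Fintype.ofFinite _

/-- The combinatorial triangulation. -/
noncomputable def T : H258.Tri S.V (Fc S.X S.b × ZMod 3) := S.h.tri258 S.π S.hπ

theorem good : S.T.Good S.o := S.ho

theorem planar : S.T.Planar := S.h.planar258 S.π S.hπ

/-- The triangulation is fine near `K`. -/
structure Fine (K : Set ℂ) (C η : ℝ) : Prop where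
  hull : ∀ w ∈ K, ∀ j, 0 < cr (S.b j) (S.b (j + 1)) w
  out : ∀ t : Fc S.X S.b, Near K t → t ≠ S.o.1
  inj : ∀ t t' : Fc S.X S.b, Near K t → Near K t' → ∀ j j', S.π (vc t j) = S.π (vc t' j') →
    vc t j = vc t' j'
  mesh : ∀ t : Fc S.X S.b, Near K t → ∀ j, ‖head (t, j) - tail (t, j)‖ ≤ η
  energy : ∀ N : Finset (Fc S.X S.b), (∀ t ∈ N, Near K t) →
    ∑ t ∈ N, ∑ j, ‖head (t, j) - tail (t, j)‖ ^ 2 ≤ C

variable {S}

theorem Fine.hull_sub {K : Set ℂ} {C η : ℝ} (hF : S.Fine K C η) :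
    K ⊆ Tr (S.b 0) (S.b 1) (S.b 2) := by
  intro w hw
  have a1 : (1 : ZMod 3) + 1 = 2 := by decide
  have a3 : (2 : ZMod 3) + 1 = 0 := by decide
  have h0 := hF.hull w hw 0
  have h1 := hF.hull w hw 1
  have h2 := hF.hull w hw 2
  rw [zero_add] at h0
  rw [a1] at h1
  rw [a3] at h2
  rw [mem_Tr_iff S.h.ccw]
  exact ⟨h0.le, h1.le, h2.le⟩

theorem not_inner {t : Fc S.X S.b} (ht : ¬ Inner t) : ∃ j, vc t 0 = S.b (j + 1) ∧ vc t 1 = S.b j ∧
    vc t 2 = S.b (j + 2) := by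
  have h := vc_Tl t 0
  rcases h with h | ⟨j, h0, h1, h2⟩
  · exact absurd h ht
  · exact ⟨j, h0, h1, h2⟩

theorem cr_mid (u v : ℂ) : cr u v ((u + v) / 2) = 0 := by
  unfold cr
  simp only [Complex.div_re, Complex.div_im, Complex.add_re, Complex.add_im, Complex.normSq_apply]
  simp
  ring

theorem cr_mid' (u v : ℂ) : cr u v ((v + u) / 2) = 0 := by rw [add_comm]; exact cr_mid u v

theorem cr_left (u v : ℂ) : cr u v u = 0 := by unfold cr; ring

theorem Fine.far {K : Set ℂ} {C η : ℝ} (hF : S.Fine K C η) {t : Fc S.X S.b} (ht : ¬ Near K t) :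
    (∀ j, vc t j ∉ K) ∧ ∀ j, mid (t, j) ∉ K := by
  by_cases hi : Inner t
  · refine ⟨fun j hj => ht ⟨hi, _, vc_mem_TF hi j, hj⟩, fun j hj => ht ⟨hi, _, mid_mem_TF hi j, hj⟩⟩
  · obtain ⟨j0, h0, h1, h2⟩ := not_inner hi
    have key : ∀ i, S.b i ∉ K := fun i hi' => by
      have := hF.hull _ hi' i
      rw [cr_left] at this
      exact lt_irrefl _ this
    have key2 : ∀ i, (S.b i + S.b (i + 1)) / 2 ∉ K := fun i hi' => by
      have := hF.hull _ hi' i
      rw [cr_mid] at this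
      exact lt_irrefl _ this
    have e1 : j0 + 1 + 1 = j0 + 2 := by rw [add_assoc]; congr 1
    have e3 : j0 + 2 + 1 = j0 := by rw [add_assoc]; exact add_eq_left.2 (by decide)
    have k0 := key2 j0
    have k1 := key2 (j0 + 1)
    have k2 := key2 (j0 + 2)
    rw [e1] at k1
    rw [e3] at k2
    have a1 : (1 : ZMod 3) + 1 = 2 := by decide
    have a2 : (1 : ZMod 3) + 2 = 0 := by decide
    have a3 : (2 : ZMod 3) + 1 = 0 := by decide
    have a4 : (2 : ZMod 3) + 2 = 1 := by decide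
    refine ⟨fun j => ?_, fun j => ?_⟩
    · rcases z3_all j with rfl | rfl | rfl
      · rw [h0]; exact key _
      · rw [h1]; exact key _
      · rw [h2]; exact key _
    · rcases z3_all j with rfl | rfl | rfl
      · simp only [mid, head, tail, zero_add]
        rw [h1, h2, add_comm]; exact k2
      · simp only [mid, head, tail, a1, a2]
        rw [h2, h0, add_comm]; exact k1
      · simp only [mid, head, tail, a3, a4]
        rw [h0, h1, add_comm]; exact k0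

variable (S) in
open Classical in
/-- The position of a vertex near `K`. -/
noncomputable def pos (K : Set ℂ) (v : S.V) : ℂ :=
  if h : ∃ u, (∃ t : Fc S.X S.b, Near K t ∧ ∃ j, vc t j = u) ∧ S.π u = v then h.choose else 0

theorem Fine.pos_eq {K : Set ℂ} {C η : ℝ} (hF : S.Fine K C η) {t : Fc S.X S.b} (ht : Near K t)
    (j : ZMod 3) : S.pos K (S.π (vc t j)) = vc t j := by
  have h : ∃ u, (∃ t : Fc S.X S.b, Near K t ∧ ∃ j, vc t j = u) ∧ S.π u = S.π (vc t j) :=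
    ⟨vc t j, ⟨t, ht, j, rfl⟩, rfl⟩
  unfold pos
  rw [dif_pos h]
  obtain ⟨⟨t', ht', j', he⟩, hp⟩ := h.choose_spec
  rw [← he] at hp ⊢
  exact hF.inj t' t ht' ht j' j hp

theorem T_src (d : Fc S.X S.b × ZMod 3) : S.T.src d = S.π (tail d) := rfl

theorem T_tgt (d : Fc S.X S.b × ZMod 3) : S.T.tgt d = S.π (head d) := by
  show S.π (tail (S.h.rv d)) = _
  rw [S.h.tail_rv]

theorem T_apex (d : Fc S.X S.b × ZMod 3) : S.T.apex d = S.π (vc d.1 d.2) := by
  have e2 : d.2 + 1 + 1 + 1 = d.2 := by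
    rw [add_assoc, add_assoc]; exact add_eq_left.2 (by decide)
  show S.π (tail (d.1, d.2 + 1 + 1)) = _
  simp only [tail, e2]

theorem T_nxt (d : Fc S.X S.b × ZMod 3) : S.T.nxt d = (d.1, d.2 + 1) := rfl

/-- The weights with the actual positions. -/
theorem Fine.PW_eq {χ : ℂ → ℝ} {C η : ℝ} (hF : S.Fine (tsupport χ) C η) (τ : ℂ)
    (d : Fc S.X S.b × ZMod 3) :
    (χ (vc d.1 0) : ℂ) * S.T.PW τ (S.pos (tsupport χ)) d = (χ (vc d.1 0) : ℂ) * PA τ d := by
  by_cases h : Near (tsupport χ) d.1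
  · unfold Tri.PW PA
    rw [T_src, T_tgt, T_apex, hF.pos_eq h]
    have e1 : head d = vc d.1 (d.2 + 2) := rfl
    have e2 : tail d = vc d.1 (d.2 + 1) := rfl
    rw [e1, e2, hF.pos_eq h, hF.pos_eq h]
  · have : χ (vc d.1 0) = 0 := image_eq_zero_of_notMem_tsupport ((hF.far h).1 0)
    rw [this]; simp

theorem Fine.dx_eq {χ : ℂ → ℝ} {C η : ℝ} (hF : S.Fine (tsupport χ) C η)
    (d : Fc S.X S.b × ZMod 3) :
    (χ (vc d.1 0) : ℂ) * (S.pos (tsupport χ) (S.T.tgt d) - S.pos (tsupport χ) (S.T.src d)) =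
      (χ (vc d.1 0) : ℂ) * (head d - tail d) := by
  by_cases h : Near (tsupport χ) d.1
  · have e1 : head d = vc d.1 (d.2 + 2) := rfl
    have e2 : tail d = vc d.1 (d.2 + 1) := rfl
    rw [T_src, T_tgt, e1, e2, hF.pos_eq h, hF.pos_eq h]
  · have : χ (vc d.1 0) = 0 := image_eq_zero_of_notMem_tsupport ((hF.far h).1 0)
    rw [this]; simp

theorem Fine.zero_o {χ : ℂ → ℝ} {C η : ℝ} (hF : S.Fine (tsupport χ) C η) :
    χ (vc S.o.1 0) = 0 := by
  have h : ¬ Near (tsupport χ) S.o.1 := fun h => hF.out _ h rfl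
  exact image_eq_zero_of_notMem_tsupport ((hF.far h).1 0)

variable (S) in
/-- The mean weight of the class of `o`. -/
noncomputable def mean (χ : ℂ → ℝ) (τ : ℂ) : ℂ :=
  S.T.EE S.o (fun d => (χ (vc d.1 0) : ℂ) * PA τ d)

/-- The weighted contour sums, form `dx`. -/
theorem Fine.sum_id {χ : ℂ → ℝ} {C η : ℝ} (hF : S.Fine (tsupport χ) C η) {τ : ℂ}
    (hτ : τ ^ 2 + τ + 1 = 0) :
    (τ - τ ^ 2) * ∑ t, (χ (vc t 0) : ℂ) * ∑ j, S.T.MM τ S.o (t, j) *
      (head (t, j) - tail (t, j)) = 3 * S.mean χ (τ ^ 2) := by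
  have hc := Tri.conj_tau hτ
  have hx : ∀ d, (fun d : Fc S.X S.b × ZMod 3 => χ (vc d.1 0)) (S.T.nxt d) =
      (fun d : Fc S.X S.b × ZMod 3 => χ (vc d.1 0)) d := fun d => rfl
  have key := S.T.weighted_MM S.planar hτ S.good
    (χ := fun d : Fc S.X S.b × ZMod 3 => χ (vc d.1 0)) hx hF.zero_o (S.pos (tsupport χ))
  have e1 : ∑ t, (χ (vc t 0) : ℂ) * ∑ j, S.T.MM τ S.o (t, j) * (head (t, j) - tail (t, j)) =
      ∑ d : Fc S.X S.b × ZMod 3, (χ (vc d.1 0) : ℂ) * S.T.MM τ S.o d *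
        (S.pos (tsupport χ) (S.T.tgt d) - S.pos (tsupport χ) (S.T.src d)) := by
    rw [Fintype.sum_prod_type]
    refine Finset.sum_congr rfl fun t _ => ?_
    rw [Finset.mul_sum]
    refine Finset.sum_congr rfl fun j _ => ?_
    have := hF.dx_eq (t, j)
    linear_combination (-S.T.MM τ S.o (t, j)) * this
  rw [e1, key, S.T.conj_EE]
  unfold mean
  congr 2
  funext d
  have h1 := hF.PW_eq (τ ^ 2) d
  rw [← h1, map_mul, Complex.conj_ofReal]
  congr 1
  unfold Tri.PW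
  simp only [map_add, map_mul, map_pow, hc, Complex.conj_conj]

/-- The weighted contour sums, form `d x̄`. -/
theorem Fine.sum_conj {χ : ℂ → ℝ} {C η : ℝ} (hF : S.Fine (tsupport χ) C η) {τ : ℂ}
    (hτ : τ ^ 2 + τ + 1 = 0) :
    (τ - τ ^ 2) * conj (∑ t, (χ (vc t 0) : ℂ) * ∑ j, S.T.MM τ S.o (t, j) *
      conj (head (t, j) - tail (t, j))) = -3 * S.mean χ τ := by
  have hx : ∀ d, (fun d : Fc S.X S.b × ZMod 3 => χ (vc d.1 0)) (S.T.nxt d) =
      (fun d : Fc S.X S.b × ZMod 3 => χ (vc d.1 0)) d := fun d => rfl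
  have key := S.T.weighted_conj_MM S.planar hτ S.good
    (χ := fun d : Fc S.X S.b × ZMod 3 => χ (vc d.1 0)) hx hF.zero_o (S.pos (tsupport χ))
  have e1 : conj (∑ t, (χ (vc t 0) : ℂ) * ∑ j, S.T.MM τ S.o (t, j) *
      conj (head (t, j) - tail (t, j))) =
      ∑ d : Fc S.X S.b × ZMod 3, (χ (vc d.1 0) : ℂ) * conj (S.T.MM τ S.o d) *
        (S.pos (tsupport χ) (S.T.tgt d) - S.pos (tsupport χ) (S.T.src d)) := by
    rw [map_sum, Fintype.sum_prod_type]
    refine Finset.sum_congr rfl fun t _ => ?_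
    rw [map_mul, map_sum, Complex.conj_ofReal, Finset.mul_sum]
    refine Finset.sum_congr rfl fun j _ => ?_
    have := hF.dx_eq (t, j)
    rw [map_mul, Complex.conj_conj]
    linear_combination (-conj (S.T.MM τ S.o (t, j))) * this
  rw [e1, key]
  unfold mean
  congr 2
  funext d
  exact hF.PW_eq τ d

theorem one_le_norm_tau_sub {τ : ℂ} (hτ : τ ^ 2 + τ + 1 = 0) : 1 ≤ ‖τ - τ ^ 2‖ := by
  have h3 := Tri.tau_pow_three hτ
  have h : (τ - τ ^ 2) ^ 2 = -3 := by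
    linear_combination hτ + (τ - 2) * h3
  have h2 := congrArg norm h
  rw [norm_pow, norm_neg, Complex.norm_ofNat] at h2
  nlinarith [norm_nonneg (τ - τ ^ 2)]

/-- The sums are controlled by the mean weights. -/
theorem Fine.norm_sum_id {χ : ℂ → ℝ} {C η : ℝ} (hF : S.Fine (tsupport χ) C η) {τ : ℂ}
    (hτ : τ ^ 2 + τ + 1 = 0) :
    ‖∑ t, (χ (vc t 0) : ℂ) * ∑ j, S.T.MM τ S.o (t, j) * (head (t, j) - tail (t, j))‖ ≤
      3 * ‖S.mean χ (τ ^ 2)‖ := by
  have h := congrArg norm (hF.sum_id hτ)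
  rw [norm_mul, norm_mul, Complex.norm_ofNat] at h
  rw [← h]
  have h1 := one_le_norm_tau_sub hτ
  exact le_mul_of_one_le_left (norm_nonneg _) h1

theorem Fine.norm_sum_conj {χ : ℂ → ℝ} {C η : ℝ} (hF : S.Fine (tsupport χ) C η) {τ : ℂ}
    (hτ : τ ^ 2 + τ + 1 = 0) :
    ‖∑ t, (χ (vc t 0) : ℂ) * ∑ j, S.T.MM τ S.o (t, j) * conj (head (t, j) - tail (t, j))‖ ≤
      3 * ‖S.mean χ τ‖ := by
  have h := congrArg norm (hF.sum_conj hτ)
  rw [norm_mul, norm_mul, norm_neg, Complex.norm_ofNat, Complex.norm_conj] at h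
  rw [← h]
  have h1 := one_le_norm_tau_sub hτ
  exact le_mul_of_one_le_left (norm_nonneg _) h1

/-- **Stokes' formula for one configuration.** -/
theorem Fine.stokes {D : Set ℂ} {χ : ℂ → ℝ} (hχ : IsTest D χ) {K : ℝ} (hK : TB χ K) {C η : ℝ}
    (hη : 0 ≤ η) (hF : S.Fine (tsupport χ) C η) {τ : ℂ} (hτ : τ ^ 2 + τ + 1 = 0) (Φ : Form χ)
    {G : Type*} [Fintype G] {Q : G → Set ℂ} (hQm : ∀ g, MeasurableSet (Q g))
    (hQd : Pairwise fun g g' => Disjoint (Q g) (Q g')) (hQf : ∀ g, volume (Q g) ≠ ⊤)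
    (hQc : ∀ w, dbar χ w ≠ 0 → ∃ g, w ∈ Q g) {hg : G → ℂ} {osc : G → ℝ}
    (hosc : ∀ g, ∀ t : Fc S.X S.b, Near (tsupport χ) t → (TF t ∩ Q g).Nonempty → ∀ j,
      ‖S.T.MM τ S.o (t, j) - hg g‖ ≤ osc g)
    (hosc0 : ∀ g, 0 ≤ osc g) :
    ‖(∑ t, (χ (vc t 0) : ℂ) * ∑ j, S.T.MM τ S.o (t, j) *
        Φ.ℓ (head (t, j) - tail (t, j))) + ∑ g, hg g * (Φ.cI * ∫ w in Q g, Φ.k w)‖ ≤
      12 * K * (η * C) + 3 * K * √(η ^ 2 * C) +
        K * ∑ g, osc g * (volume (Q g)).toReal := by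
  classical
  set N : Finset (Fc S.X S.b) := Finset.univ.filter fun t => Near (tsupport χ) t with hN
  have hNm : ∀ t, t ∈ N ↔ Near (tsupport χ) t := fun t => by simp [hN]
  have hK0 := hK.nonneg
  have hz : ∀ w, w ∉ tsupport χ → χ w = 0 := fun w hw => image_eq_zero_of_notMem_tsupport hw
  have hlo : ∀ t ∈ N, ∀ j, S.π (tail (t, j)) ≠ S.π (head (t, j)) := by
    intro t ht j he
    have h1 := hF.inj t t ((hNm t).1 ht) ((hNm t).1 ht) (j + 1) (j + 2) he
    exact (S.h.nbr_th (t, j)).2.2.1 h1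
  have key := HT.stokes_MM S.h S.π S.hπ hτ S.ho hK hχ.compact hχ.continuous_dbar Φ hF.hull_sub N
    (fun t ht => ((hNm t).1 ht).1) (fun t ht => hF.out t ((hNm t).1 ht)) hlo
    (χ' := fun t => χ (vc t 0)) (δ := dm) (fun t _ => sideLe_dm t)
    (fun t ht j => by
      refine (hK.lip _ _).trans (mul_le_mul_of_nonneg_left ?_ hK0)
      rw [← norm_neg, neg_sub]
      exact TF_near ((hNm t).1 ht).1 (sideLe_dm t) 0 (mid_mem_TF ((hNm t).1 ht).1 j))
    (fun t ht => hz _ ((hF.far fun h => ht ((hNm t).2 h)).1 0))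
    (fun t ht j => hz _ ((hF.far fun h => ht ((hNm t).2 h)).2 j))
    (fun t hi ht w hw => dbar_eq_zero fun hh => ht ((hNm t).2 ⟨hi, w, hw, hh⟩))
    hQm hQd hQf hQc (hg := hg) (osc := osc) (fun g t ht => hosc g t ((hNm t).1 ht)) hosc0
  refine key.trans ?_
  have hE := hF.energy N fun t ht => (hNm t).1 ht
  have hS2 : ∑ t ∈ N, dm t ^ 2 ≤ C := (Finset.sum_le_sum fun t _ => dm_sq_le t).trans hE
  have hdη : ∀ t ∈ N, dm t ≤ η := fun t ht => dm_le (hF.mesh t ((hNm t).1 ht))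
  have hS3 : ∑ t ∈ N, dm t ^ 3 ≤ η * C := by
    calc ∑ t ∈ N, dm t ^ 3 ≤ ∑ t ∈ N, η * dm t ^ 2 := Finset.sum_le_sum fun t ht => by
          have h0 := dm_nonneg t
          have h1 := hdη t ht
          have e : dm t ^ 3 = dm t * dm t ^ 2 := by ring
          rw [e]
          exact mul_le_mul_of_nonneg_right h1 (by positivity)
      _ = η * ∑ t ∈ N, dm t ^ 2 := by rw [Finset.mul_sum]
      _ ≤ η * C := mul_le_mul_of_nonneg_left hS2 hη
  have hS4 : ∑ t ∈ N, dm t ^ 4 ≤ η ^ 2 * C := by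
    calc ∑ t ∈ N, dm t ^ 4 ≤ ∑ t ∈ N, η ^ 2 * dm t ^ 2 := Finset.sum_le_sum fun t ht => by
          have h0 := dm_nonneg t
          have h1 := hdη t ht
          have e : dm t ^ 4 = dm t ^ 2 * dm t ^ 2 := by ring
          rw [e]
          exact mul_le_mul_of_nonneg_right (pow_le_pow_left₀ h0 h1 2) (by positivity)
      _ = η ^ 2 * ∑ t ∈ N, dm t ^ 2 := by rw [Finset.mul_sum]
      _ ≤ η ^ 2 * C := mul_le_mul_of_nonneg_left hS2 (by positivity)
  have hr := Real.sqrt_le_sqrt hS4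
  have m1 := mul_le_mul_of_nonneg_left hS3 (show 0 ≤ 12 * K by positivity)
  have m2 := mul_le_mul_of_nonneg_left hr (show 0 ≤ 3 * K by positivity)
  linarith

end Cfg

end Vale.Agent.P148.R2.H219
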