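import Vale.Agent.P148.R2.H219.St5
import Vale.Agent.P148.R2.H219.St6

/-!
# The limit theorem on the level of the darts (P148, modules S and E together)
-/

open Set Metric Filter Topology MeasureTheory Function
open scoped ComplexConjugate

namespace Vale.Agent.P148.R2.H219

open _root_.P148 _root_.P148.Half
open Vale.Agent.P148.R2.H592 Vale.Agent.P148.R2.H258

variable {ι : Type*}

/-- Lebesgue numbers for eventual statements. -/
theorem lebesgue_ev {K : Set ℂ} (hK : IsCompact K) {l : Filter ι} {B : ι → Set ℂ → Prop}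
    (mono : ∀ i s s', s' ⊆ s → B i s → B i s')
    (h : ∀ p ∈ K, ∃ δ > 0, ∀ᶠ i in l, B i (ball p δ)) :
    ∃ δ > 0, ∀ᶠ i in l, ∀ p ∈ K, B i (ball p δ) := by
  classical
  choose! r hr hB using h
  obtain ⟨t, ht, hcov⟩ := hK.elim_nhds_subcover (fun x => ball x (r x / 2)) fun x hx =>
    ball_mem_nhds x (by have := hr x hx; positivity)
  rcases t.eq_empty_or_nonempty with hte | htn
  · refine ⟨1, one_pos, Eventually.of_forall fun i z hz => ?_⟩
    have := hcov hz
    simp [hte] at this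
  · have hpos : ∀ x ∈ t, 0 < r x / 2 := fun x hx => by
      have := hr x (ht x hx); positivity
    refine ⟨t.inf' htn (fun x => r x / 2), (Finset.lt_inf'_iff htn).2 hpos, ?_⟩
    have h2 : ∀ᶠ i in l, ∀ x ∈ t, B i (ball x (r x)) :=
      (Filter.eventually_all_finset t).2 fun x hx => hB x (ht x hx)
    filter_upwards [h2] with i hi p hp
    obtain ⟨x, hx, hpx⟩ := mem_iUnion₂.1 (hcov hp)
    refine mono i _ _ ?_ (hi x hx)
    intro w hw
    have h3 : dist w p < r x / 2 := lt_of_lt_of_le hw (Finset.inf'_le _ hx)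
    have h4 : dist p x < r x / 2 := hpx
    have := dist_triangle w p x
    show dist w x < r x
    linarith

namespace Cfg

variable (S : Cfg)

/-- The three observables. The classes of `tgt o`, `apex (nxt o) = src o`, `tgt (nxt o) = apex o`
are the arcs number `0, 1, 2` in counterclockwise order. -/
noncomputable def H (j : Fin 3) (d : Fc S.X S.b × ZMod 3) : ℝ :=
  match j with
  | 0 => (S.T.HH S.o d).re
  | 1 => (S.T.HH (S.T.nxt (S.T.nxt S.o)) d).re
  | 2 => (S.T.HH (S.T.nxt S.o) d).re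

theorem tri_re_HH_nonneg {V D : Type*} [Fintype V] (T : H258.Tri V D) (o e : D) :
    0 ≤ (T.HH o e).re := by
  classical
  have h1 : T.HH o e = ((4 / 2 ^ Fintype.card V *
      ∑ σ : V → Bool, (if T.Mi σ o then (if T.NK σ o e = 0 then (0 : ℝ) else 1) else 0) : ℝ) : ℂ) := by
    unfold Tri.HH
    push_cast
    congr 1
    refine Finset.sum_congr rfl fun σ _ => ?_
    split_ifs with h2 h3
    · rw [h3]; simp
    · unfold Tri.NK at h3 ⊢
      split_ifs at h3 ⊢ <;> simp_all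
    · simp
  rw [h1, Complex.ofReal_re]
  refine mul_nonneg (by positivity) (Finset.sum_nonneg fun σ _ => ?_)
  split_ifs <;> norm_num

theorem tri_re_HH_le {V D : Type*} [Fintype V] {T : H258.Tri V D} {o : D} (ho : T.Good o) (e : D) :
    (T.HH o e).re ≤ 1 :=
  ((le_abs_self _).trans (Complex.abs_re_le_norm _)).trans (norm_HH_le ho e)

theorem H_nonneg (j : Fin 3) (d : Fc S.X S.b × ZMod 3) : 0 ≤ S.H j d := by
  fin_cases j
  · exact tri_re_HH_nonneg _ _ _
  · exact tri_re_HH_nonneg _ _ _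
  · exact tri_re_HH_nonneg _ _ _

theorem H_le_one (j : Fin 3) (d : Fc S.X S.b × ZMod 3) : S.H j d ≤ 1 := by
  fin_cases j
  · exact tri_re_HH_le S.good _
  · exact tri_re_HH_le S.good.nxt.nxt _
  · exact tri_re_HH_le S.good.nxt _

theorem ofReal_re_HH {V D : Type*} [Fintype V] (T : H258.Tri V D) (o e : D) :
    ((T.HH o e).re : ℂ) = T.HH o e := Complex.conj_eq_iff_re.1 (T.conj_HH o e)

theorem tau_root : tau ^ 2 + tau + 1 = 0 := by
  rw [tau_sq]
  apply Complex.ext
  · simp [tau]; ring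
  · simp [tau]

theorem tau_root' : (tau ^ 2) ^ 2 + tau ^ 2 + 1 = 0 := by
  have h := tau_root
  linear_combination (tau ^ 2 - tau + 1) * h

/-- The complex combination of the three observables. -/
noncomputable def M (d : Fc S.X S.b × ZMod 3) : ℂ := S.T.MM (tau ^ 2) S.o d

theorem M_eq (d : Fc S.X S.b × ZMod 3) :
    S.M d = (S.H 0 d : ℂ) + tau * (S.H 1 d : ℂ) + tau ^ 2 * (S.H 2 d : ℂ) := by
  have h3 := Tri.tau_pow_three tau_root
  unfold M Tri.MM H
  simp only [ofReal_re_HH]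
  linear_combination (tau * S.T.HH (S.T.nxt (S.T.nxt S.o)) d) * h3

theorem M_sub (d d' : Fc S.X S.b × ZMod 3) :
    ‖S.M d - S.M d'‖ ≤ |S.H 0 d - S.H 0 d'| + |S.H 1 d - S.H 1 d'| + |S.H 2 d - S.H 2 d'| := by
  have hn := Tri.norm_tau tau_root
  have e : S.M d - S.M d' = ((S.H 0 d - S.H 0 d' : ℝ) : ℂ) + tau * ((S.H 1 d - S.H 1 d' : ℝ) : ℂ) +
      tau ^ 2 * ((S.H 2 d - S.H 2 d' : ℝ) : ℂ) := by
    rw [M_eq, M_eq]; push_cast; ring
  rw [e]
  refine norm_add₃_le.trans (le_of_eq ?_)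
  rw [norm_mul, norm_mul, norm_pow, hn, Complex.norm_real, Complex.norm_real, Complex.norm_real]
  simp

open Classical in
/-- The nearest dart of a set. -/
noncomputable def nd (A : Set (Fc S.X S.b × ZMod 3)) (z : ℂ) : Fc S.X S.b × ZMod 3 :=
  if h : ∃ d ∈ A, ∀ d' ∈ A, dist (tail d) z ≤ dist (tail d') z then h.choose else S.o

variable {S}

theorem nd_spec {A : Set (Fc S.X S.b × ZMod 3)} (hA : A.Nonempty) (z : ℂ) :
    S.nd A z ∈ A ∧ ∀ d' ∈ A, dist (tail (S.nd A z)) z ≤ dist (tail d') z := by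
  have h : ∃ d ∈ A, ∀ d' ∈ A, dist (tail d) z ≤ dist (tail d') z :=
    Set.exists_min_image A (fun d => dist (tail d) z) A.toFinite hA
  unfold nd
  rw [dif_pos h]
  exact h.choose_spec

end Cfg

/-- **The inputs on the level of the darts.** -/
structure DartLimit (Q : Quad) (l : Filter ι) (S : ι → Cfg)
    (A : ∀ i, Set (Fc (S i).X (S i).b × ZMod 3)) : Prop where
  dense : ∀ δ > 0, ∀ᶠ i in l, ∀ z ∈ Q.D, ∃ d ∈ A i, dist (tail d) z < δ
  inner : ∀ K, IsCompact K → K ⊆ Q.D → ∀ᶠ i in l, ∀ t : Fc (S i).X (S i).b, Near K t → ∀ j,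
    (t, j) ∈ A i
  fine : ∀ K, IsCompact K → K ⊆ Q.D → ∃ C, ∀ η > 0, ∀ᶠ i in l, (S i).Fine K C η
  equi : ∀ j, ∀ p ∈ closure Q.D, ∀ η > 0, ∃ δ > 0, ∀ᶠ i in l, ∀ d ∈ A i, ∀ d' ∈ A i,
    dist (tail d) p < δ → dist (tail d') p < δ → |(S i).H j d - (S i).H j d'| ≤ η
  bd0 : ∀ b ∈ Q.arc 0 ∪ Q.arc 1, ∀ η > 0, ∃ δ > 0, ∀ᶠ i in l, ∀ d ∈ A i, dist (tail d) b < δ →
    (S i).H 0 d ≤ η
  bd1 : ∀ b ∈ Q.arc 2, ∀ η > 0, ∃ δ > 0, ∀ᶠ i in l, ∀ d ∈ A i, dist (tail d) b < δ →
    (S i).H 1 d ≤ η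
  bd2 : ∀ b ∈ Q.arc 3, ∀ η > 0, ∃ δ > 0, ∀ᶠ i in l, ∀ d ∈ A i, dist (tail d) b < δ →
    (S i).H 2 d ≤ η
  tot : ∀ p ∈ closure Q.D, ∀ η > 0, ∃ δ > 0, ∀ᶠ i in l, ∀ d ∈ A i, dist (tail d) p < δ →
    |(S i).H 0 d + (S i).H 1 d + (S i).H 2 d - 1| ≤ η

namespace DartLimit

variable {Q : Quad} {l : Filter ι} {S : ι → Cfg} {A : ∀ i, Set (Fc (S i).X (S i).b × ZMod 3)}
  (h : DartLimit Q l S A)
include h

/-- The functions on the domain. -/
theorem near_dart {δ : ℝ} (hδ : 0 < δ) :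
    ∀ᶠ i in l, ∀ z ∈ Q.D, (S i).nd (A i) z ∈ A i ∧ dist (tail ((S i).nd (A i) z)) z < δ := by
  filter_upwards [h.dense δ hδ] with i hi z hz
  obtain ⟨d, hd, hdz⟩ := hi z hz
  have := Cfg.nd_spec (S := S i) ⟨d, hd⟩ z
  exact ⟨this.1, (this.2 d hd).trans_lt hdz⟩

theorem arcLimit : ArcLimit Q l fun i j z => (S i).H j ((S i).nd (A i) z) where
  bdd := Eventually.of_forall fun i j z _ => ⟨(S i).H_nonneg _ _, (S i).H_le_one _ _⟩
  equi := by
    intro j p hp η hη
    obtain ⟨δ, hδ, h1⟩ := h.equi j p hp η hη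
    refine ⟨δ / 2, by positivity, ?_⟩
    filter_upwards [h1, h.near_dart (half_pos hδ)] with i hi hn z hz w hw hzp hwp
    obtain ⟨z1, z2⟩ := hn z hz
    obtain ⟨w1, w2⟩ := hn w hw
    refine hi _ z1 _ w1 ?_ ?_
    · have := dist_triangle (tail ((S i).nd (A i) z)) z p; linarith
    · have := dist_triangle (tail ((S i).nd (A i) w)) w p; linarith
  bd0 := by
    intro b hb η hη
    obtain ⟨δ, hδ, h1⟩ := h.bd0 b hb η hη
    refine ⟨δ / 2, by positivity, ?_⟩
    filter_upwards [h1, h.near_dart (half_pos hδ)] with i hi hn z hz hzp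
    obtain ⟨z1, z2⟩ := hn z hz
    refine hi _ z1 ?_
    have := dist_triangle (tail ((S i).nd (A i) z)) z b; linarith
  bd1 := by
    intro b hb η hη
    obtain ⟨δ, hδ, h1⟩ := h.bd1 b hb η hη
    refine ⟨δ / 2, by positivity, ?_⟩
    filter_upwards [h1, h.near_dart (half_pos hδ)] with i hi hn z hz hzp
    obtain ⟨z1, z2⟩ := hn z hz
    refine hi _ z1 ?_
    have := dist_triangle (tail ((S i).nd (A i) z)) z b; linarith
  bd2 := by
    intro b hb η hη
    obtain ⟨δ, hδ, h1⟩ := h.bd2 b hb η hη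
    refine ⟨δ / 2, by positivity, ?_⟩
    filter_upwards [h1, h.near_dart (half_pos hδ)] with i hi hn z hz hzp
    obtain ⟨z1, z2⟩ := hn z hz
    refine hi _ z1 ?_
    have := dist_triangle (tail ((S i).nd (A i) z)) z b; linarith
  tot := by
    intro p hp η hη
    obtain ⟨δ, hδ, h1⟩ := h.tot p hp η hη
    refine ⟨δ / 2, by positivity, ?_⟩
    filter_upwards [h1, h.near_dart (half_pos hδ)] with i hi hn z hz hzp
    obtain ⟨z1, z2⟩ := hn z hz
    refine hi _ z1 ?_
    have := dist_triangle (tail ((S i).nd (A i) z)) z p; linarith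

omit h in
/-- The function `vec` of the functions on the domain. -/
theorem vec_eq (i : ι) (z : ℂ) : vec (fun j z => (S i).H j ((S i).nd (A i) z)) z =
    (S i).M ((S i).nd (A i) z) := by
  rw [Cfg.M_eq]; rfl

/-- Uniform equicontinuity of `M`. -/
theorem unifM {K : Set ℂ} (hK : IsCompact K) (hKD : K ⊆ closure Q.D) {η : ℝ} (hη : 0 < η) :
    ∃ δ > 0, ∀ᶠ i in l, ∀ p ∈ K, ∀ d ∈ A i, ∀ d' ∈ A i, dist (tail d) p < δ →
      dist (tail d') p < δ → ‖(S i).M d - (S i).M d'‖ ≤ η := by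
  have key := lebesgue_ev (ι := ι) hK (l := l)
    (B := fun i s => ∀ d ∈ A i, ∀ d' ∈ A i, tail d ∈ s → tail d' ∈ s →
      ‖(S i).M d - (S i).M d'‖ ≤ η)
    (fun i s s' hs hB d hd d' hd' h1 h2 => hB d hd d' hd' (hs h1) (hs h2)) ?_
  · obtain ⟨δ, hδ, h1⟩ := key
    refine ⟨δ, hδ, ?_⟩
    filter_upwards [h1] with i hi p hp d hd d' hd' h2 h3 using hi p hp d hd d' hd' h2 h3
  · intro p hp
    have hη3 : 0 < η / 3 := by positivity
    obtain ⟨δ0, hδ0, h0⟩ := h.equi 0 p (hKD hp) (η / 3) hη3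
    obtain ⟨δ1, hδ1, h1⟩ := h.equi 1 p (hKD hp) (η / 3) hη3
    obtain ⟨δ2, hδ2, h2⟩ := h.equi 2 p (hKD hp) (η / 3) hη3
    refine ⟨min δ0 (min δ1 δ2), lt_min hδ0 (lt_min hδ1 hδ2), ?_⟩
    filter_upwards [h0, h1, h2] with i i0 i1 i2 d hd d' hd' hdp hdp'
    have a0 : dist (tail d) p < δ0 := lt_of_lt_of_le hdp (min_le_left _ _)
    have a1 : dist (tail d) p < δ1 :=
      lt_of_lt_of_le hdp ((min_le_right _ _).trans (min_le_left _ _))
    have a2 : dist (tail d) p < δ2 :=
      lt_of_lt_of_le hdp ((min_le_right _ _).trans (min_le_right _ _))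
    have b0 : dist (tail d') p < δ0 := lt_of_lt_of_le hdp' (min_le_left _ _)
    have b1 : dist (tail d') p < δ1 :=
      lt_of_lt_of_le hdp' ((min_le_right _ _).trans (min_le_left _ _))
    have b2 : dist (tail d') p < δ2 :=
      lt_of_lt_of_le hdp' ((min_le_right _ _).trans (min_le_right _ _))
    have := i0 d hd d' hd' a0 b0
    have := i1 d hd d' hd' a1 b1
    have := i2 d hd d' hd' a2 b2
    have := (S i).M_sub d d'
    linarith

/-- **Module S**: the weak condition from the smallness of the weighted contour sums. -/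
theorem weak {χ : ℂ → ℝ} (hχ : IsTest Q.D χ) (Φ : Form χ) {c : ι → ℂ} {C0 : ℝ}
    (hc : ∀ᶠ i in l, ‖c i‖ ≤ C0)
    (hW : ∀ η > 0, ∀ᶠ i in l, ‖c i‖ * ‖∑ t, (χ (vc t 0) : ℂ) * ∑ j, (S i).M (t, j) *
      Φ.ℓ (head (t, j) - tail (t, j))‖ ≤ η) :
    WeakSmallC l c (fun i => vec (fun j z => (S i).H j ((S i).nd (A i) z))) Φ.k := by
  classical
  obtain ⟨K, hK⟩ := hχ.exists_TB
  have hK0 := hK.nonneg
  have hKc : IsCompact (tsupport χ) := hχ.compact
  have hks : tsupport Φ.k ⊆ tsupport χ := by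
    refine closure_minimal (fun z hz => ?_) (isClosed_tsupport χ)
    by_contra hc'
    apply hz
    have := Φ.norm_k z
    rw [dbar_eq_zero hc', norm_zero, norm_eq_zero] at this
    exact this
  have hkc : HasCompactSupport Φ.k := hχ.compact.of_isClosed_subset (isClosed_tsupport _) hks
  have hki : Integrable Φ.k := Φ.cont_k.integrable_of_hasCompactSupport hkc
  have hKD : tsupport χ ⊆ Q.D := hχ.supp
  have hKD' : tsupport χ ⊆ closure Q.D := hKD.trans subset_closure
  obtain ⟨C, hfine⟩ := h.fine (tsupport χ) hKc hKD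
  refine weakSmallC_of_grid hki hkc ?_ ?_
  · intro η hη
    obtain ⟨δ, hδ, h1⟩ := h.unifM hKc hKD' hη
    refine ⟨δ / 2, by positivity, ?_⟩
    filter_upwards [h1, h.near_dart (half_pos hδ)] with i hi hn z hz w hw hzw
    obtain ⟨z1, z2⟩ := hn z (hKD (hks hz))
    obtain ⟨w1, w2⟩ := hn w (hKD (hks hw))
    show ‖vec _ z - vec _ w‖ ≤ η
    rw [vec_eq, vec_eq]
    refine hi z (hks hz) _ z1 _ w1 (by linarith) ?_
    have := dist_triangle_right (tail ((S i).nd (A i) w)) z w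
    linarith
  · intro η hη
    -- the constants
    set V0 : ℝ := (volume (Metric.cthickening 1 (tsupport χ))).toReal with hV0
    have hV0n : 0 ≤ V0 := ENNReal.toReal_nonneg
    have hVt : volume (Metric.cthickening 1 (tsupport χ)) < ⊤ :=
      hKc.cthickening.measure_lt_top
    set C1 : ℝ := max C0 1 with hC1
    have hC1p : 0 < C1 := lt_of_lt_of_le one_pos (le_max_right _ _)
    set η' : ℝ := η / (2 * (C1 * (K * V0) + 1)) with hη'
    have hη'p : 0 < η' := by positivity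
    obtain ⟨δ1, hδ1, hu⟩ := h.unifM hKc hKD' hη'p
    refine ⟨min (δ1 / 2) 1, by positivity, fun n Qg z hQ => ?_⟩
    have hvol : ∑ g, (volume (Qg g)).toReal ≤ V0 := by
      rw [← ENNReal.toReal_sum fun g _ => hQ.fin g]
      refine ENNReal.toReal_mono hVt.ne ?_
      have e1 : ∑ g, volume (Qg g) = volume (⋃ g, Qg g) := by
        rw [measure_iUnion hQ.disj hQ.meas, tsum_fintype]
      rw [e1]
      refine measure_mono (iUnion_subset fun g w hw => ?_)
      exact mem_cthickening_of_dist_le w (z g) 1 _ (hks (hQ.mem g))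
        ((hQ.near g w hw).le.trans (min_le_right _ _))
    -- the mesh
    set X : ℝ := C1 * (12 * K * |C| + 3 * K * √|C|) with hX
    have hX0 : 0 ≤ X := by positivity
    set ε : ℝ := min (η / (4 * (X + 1))) (δ1 / 2) with hε
    have hεp : 0 < ε := lt_min (by positivity) (by positivity)
    filter_upwards [hu, h.near_dart hδ1, hfine ε hεp, hW (η / 4) (by positivity), hc,
      h.inner _ hKc hKD] with i hui hni hfi hWi hci hin
    have hosc : ∀ g, ∀ t : Fc (S i).X (S i).b, Near (tsupport χ) t → (TF t ∩ Qg g).Nonempty →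
        ∀ j, ‖(S i).T.MM (tau ^ 2) (S i).o (t, j) - vec (fun j z => (S i).H j ((S i).nd (A i) z)) (z g)‖
          ≤ η' := by
      intro g t ht hne j
      obtain ⟨w, hw1, hw2⟩ := hne
      rw [vec_eq]
      have hz : z g ∈ tsupport χ := hks (hQ.mem g)
      obtain ⟨z1, z2⟩ := hni _ (hKD hz)
      refine hui (z g) hz (t, j) (hin t ht j) _ z1 ?_ z2
      have hm : SideLe t ε := hfi.mesh t ht
      have h3 := TF_near ht.1 hm (j + 1) hw1
      have h4 := hQ.near g w hw2
      have h5 : dist (tail (t, j)) (z g) ≤ dist (tail (t, j)) w + dist w (z g) := dist_triangle _ _ _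
      have h6 : dist (tail (t, j)) w ≤ ε := by rw [dist_comm, dist_eq_norm]; exact h3
      have h7 : ε ≤ δ1 / 2 := min_le_right _ _
      have h8 : min (δ1 / 2) 1 ≤ δ1 / 2 := min_le_left _ _
      linarith
    have key := hfi.stokes hχ hK hεp.le Cfg.tau_root' Φ hQ.meas hQ.disj hQ.fin (fun w hw => by
      have : w ∈ tsupport Φ.k := by
        refine subset_tsupport _ ?_
        intro h0
        have := Φ.norm_k w
        rw [h0, norm_zero] at this
        exact hw (norm_eq_zero.1 this.symm)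
      exact mem_iUnion.1 (hQ.cover this)) (osc := fun _ => η') hosc (fun _ => hη'p.le)
    -- the bounds
    have e2 : ∑ g, vec (fun j z => (S i).H j ((S i).nd (A i) z)) (z g) *
        (Φ.cI * ∫ w in Qg g, Φ.k w) = Φ.cI * ∑ g, vec (fun j z => (S i).H j ((S i).nd (A i) z)) (z g) *
        ∫ w in Qg g, Φ.k w := by
      rw [Finset.mul_sum]
      exact Finset.sum_congr rfl fun g _ => by ring
    rw [e2] at key
    set Y : ℂ := ∑ g, vec (fun j z => (S i).H j ((S i).nd (A i) z)) (z g) * ∫ w in Qg g, Φ.k w with hY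
    set Z : ℂ := ∑ t, (χ (vc t 0) : ℂ) * ∑ j, (S i).M (t, j) *
      Φ.ℓ (head (t, j) - tail (t, j)) with hZ
    have hYn : ‖Y‖ ≤ ‖Z‖ + (12 * K * (ε * C) + 3 * K * √(ε ^ 2 * C) +
        K * ∑ g, η' * (volume (Qg g)).toReal) := by
      have e3 : Φ.cI * Y = (Z + Φ.cI * Y) - Z := by ring
      have e4 : ‖Y‖ = ‖Φ.cI * Y‖ := by rw [norm_mul, Φ.norm_c, one_mul]
      rw [e4, e3]
      refine (norm_sub_le _ _).trans ?_
      have : ‖Z + Φ.cI * Y‖ ≤ _ := key
      linarith
    have b1 : 12 * K * (ε * C) + 3 * K * √(ε ^ 2 * C) ≤ (12 * K * |C| + 3 * K * √|C|) * ε := by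
      have h1 : ε * C ≤ ε * |C| := mul_le_mul_of_nonneg_left (le_abs_self C) hεp.le
      have h2 : √(ε ^ 2 * C) ≤ ε * √|C| := by
        calc √(ε ^ 2 * C) ≤ √(ε ^ 2 * |C|) :=
              Real.sqrt_le_sqrt (mul_le_mul_of_nonneg_left (le_abs_self C) (by positivity))
          _ = ε * √|C| := by
              rw [Real.sqrt_mul (by positivity), Real.sqrt_sq hεp.le]
      have h3 := mul_le_mul_of_nonneg_left h1 (show 0 ≤ 12 * K by positivity)
      have h4 := mul_le_mul_of_nonneg_left h2 (show 0 ≤ 3 * K by positivity)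
      linarith
    have b2 : K * ∑ g, η' * (volume (Qg g)).toReal ≤ K * V0 * η' := by
      rw [← Finset.mul_sum]
      have := mul_le_mul_of_nonneg_left hvol (show 0 ≤ K * η' by positivity)
      linarith
    have hcn : ‖c i‖ ≤ C1 := hci.trans (le_max_left _ _)
    have hfin : ‖c i‖ * ‖Y‖ ≤ η := by
      have s1 := mul_le_mul_of_nonneg_left hYn (norm_nonneg (c i))
      have s2 : 0 ≤ (12 * K * |C| + 3 * K * √|C|) * ε + K * V0 * η' := by positivity
      have s3 := mul_le_mul_of_nonneg_right hcn s2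
      have s4 := mul_le_mul_of_nonneg_left (add_le_add b1 b2) (norm_nonneg (c i))
      have s5 : C1 * ((12 * K * |C| + 3 * K * √|C|) * ε + K * V0 * η') =
          X * ε + C1 * (K * V0) * η' := by rw [hX]; ring
      have s6 : X * ε ≤ η / 4 := by
        have t1 : X * ε ≤ X * (η / (4 * (X + 1))) :=
          mul_le_mul_of_nonneg_left (min_le_left _ _) hX0
        have t2 : X * (η / (4 * (X + 1))) ≤ η / 4 := by
          rw [mul_div_assoc', div_le_div_iff₀ (by positivity) (by norm_num)]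
          nlinarith
        exact t1.trans t2
      have s7 : C1 * (K * V0) * η' ≤ η / 2 := by
        have t0 : 0 ≤ C1 * (K * V0) := by positivity
        rw [hη', mul_div_assoc', div_le_div_iff₀ (by positivity) (by norm_num)]
        nlinarith
      linarith
    rw [norm_mul]
    exact hfin

end DartLimit

end Vale.Agent.P148.R2.H219
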