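import Vale.Agent.P148.R2.H219.Ss1
import Vale.Agent.P148.R2.H219.Ss2
import Vale.Agent.P148.R2.H219.St7

/-!
# Module S: the statement `SStmt` of module F
-/

open MeasureTheory Set Metric Topology Filter ProbabilityTheory Function
open scoped ENNReal NNReal ComplexConjugate

namespace Vale.Agent.P148.R2.H219

open _root_.P148
open Vale.Agent.P148.R2.H592 (HullTri Fc vc tail head ConnIn CV Fib fib_cmap nbr vcell)
open Vale.Agent.P148.R2.F (whp Dom Conv SStmt)
open Vale.Agent.P148.R2.H258 (Tri)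

universe u

theorem VV_eq (D : Dom) (q : D.Dt) : D.VV q = (cfg D).T.MM (tau ^ 2) (cfg D).o q := by
  have h3 := Tri.tau_pow_three Cfg.tau_root
  show D.T.HH D.o q + tau * D.T.HH (D.T.nxt (D.T.nxt D.o)) q + tau ^ 2 * D.T.HH (D.T.nxt D.o) q =
    D.T.HH D.o q + tau ^ 2 * D.T.HH (D.T.nxt D.o) q +
      (tau ^ 2) ^ 2 * D.T.HH (D.T.nxt (D.T.nxt D.o)) q
  linear_combination (-tau * D.T.HH (D.T.nxt (D.T.nxt D.o)) q) * h3

open Classical in
/-- The weights of module F. -/
noncomputable def wF (D : Dom) (χ : ℂ → ℝ) (t : Fc D.X D.b) : ℝ :=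
  if ∀ j, D.Free (vc t j) then χ (D.ctr t) else 0

theorem Usum_eq (D : Dom) {χ : ℂ → ℝ} (hw : wF D χ D.o.1 = 0) :
    D.Usum χ = tau * (cfg D).T.EE (cfg D).o (fun d => (wF D χ d.1 : ℂ) * PA tau d) := by
  classical
  have h3 := Tri.tau_pow_three Cfg.tau_root
  rw [Cfg.EE_w (S := cfg D) Cfg.tau_root (w := wF D χ) hw, Finset.mul_sum]
  unfold Dom.Usum
  refine Finset.sum_congr rfl fun t _ => ?_
  have e1 : D.p (t, 0) = tau * PA tau ((t, 0) : Fc D.X D.b × ZMod 3) := by
    unfold Dom.p PA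
    linear_combination (-tail ((t, 0) : Fc D.X D.b × ZMod 3)) * h3
  have e2 : (if ∀ j, D.Free (vc t j) then (χ (D.ctr t) : ℂ) else 0) = (wF D χ t : ℂ) := by
    unfold wF
    split_ifs <;> simp
  rw [e1, e2]
  show (wF D χ t : ℂ) * (tau * PA tau ((t, 0) : Fc D.X D.b × ZMod 3)) *
    D.T.UU (tau ^ 2) D.o (t, 0) = tau * ((wF D χ t : ℂ) * PA tau ((t, 0) : Fc D.X D.b × ZMod 3) *
    D.T.UU (tau ^ 2) D.o (t, 0))
  ring

theorem ctr_mem_TF {D : Dom} {t : Fc D.X D.b} : D.ctr t ∈ TF t := by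
  unfold TF Dom.ctr
  rw [mem_Tr]
  refine ⟨1 / 3, 1 / 3, by norm_num, by norm_num, by norm_num, ?_⟩
  push_cast; ring

theorem ctr_mid {D : Dom} (t : Fc D.X D.b) (j : ZMod 3) :
    ‖D.ctr t - mid ((t, j) : Fc D.X D.b × ZMod 3)‖ ≤ dm t := by
  have e1 : j + 1 + 1 = j + 2 := by rw [add_assoc]; congr 1
  have e2 : j + 1 + 2 = j := by rw [add_assoc]; exact add_eq_left.2 (by decide)
  have e3 : j + 2 + 1 = j := by rw [add_assoc]; exact add_eq_left.2 (by decide)
  have e4 : j + 2 + 2 = j + 1 := by rw [add_assoc]; congr 1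
  have s2 := sideLe_dm t (j + 2)
  have s1 := sideLe_dm t (j + 1)
  simp only [head, tail, e3, e4] at s2
  simp only [head, tail, e1, e2] at s1
  have hsum : vc t 0 + vc t 1 + vc t 2 = vc t j + vc t (j + 1) + vc t (j + 2) := by
    have a1 : (1 : ZMod 3) + 1 = 2 := by decide
    have a2 : (1 : ZMod 3) + 2 = 0 := by decide
    have a3 : (2 : ZMod 3) + 1 = 0 := by decide
    have a4 : (2 : ZMod 3) + 2 = 1 := by decide
    rcases z3_all j with rfl | rfl | rfl
    · rw [zero_add, zero_add]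
    · rw [a1, a2]; ring
    · rw [a3, a4]; ring
  have e : D.ctr t - mid ((t, j) : Fc D.X D.b × ZMod 3) =
      ((1 / 6 : ℝ) : ℂ) * ((vc t j - vc t (j + 2)) - (vc t (j + 1) - vc t j)) := by
    unfold Dom.ctr mid
    rw [hsum]
    simp only [head, tail]
    push_cast; ring
  rw [e, norm_mul, Complex.norm_real, Real.norm_eq_abs, abs_of_pos (by norm_num)]
  have h1 := norm_sub_le (vc t j - vc t (j + 2)) (vc t (j + 1) - vc t j)
  have h0 := dm_nonneg t
  linarith

open Classical in
/-- A dart whose cell contains the point. -/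
noncomputable def qz (D : Dom) (z : ℂ) : D.Dt :=
  if h : ∃ q : D.Dt, z ∈ vcell D.X (tail q) then h.choose else D.o

theorem qz_spec (D : Dom) (z : ℂ) : z ∈ vcell D.X (tail (qz D z)) := by
  have h : ∃ q : D.Dt, z ∈ vcell D.X (tail q) := by
    obtain ⟨x, hx, hm⟩ := Set.exists_min_image D.X (fun x => dist z x) D.hull.fin
      ⟨D.b 0, D.hull.mem 0⟩
    obtain ⟨q, hq⟩ := D.exists_dart_of_mem hx
    exact ⟨q, by rw [hq]; exact hm⟩
  unfold qz
  rw [dif_pos h]
  exact h.choose_spec

theorem tail_close {D : Dom} {z : ℂ} {s : ℝ} (hnet : ∃ v ∈ D.X, dist z v ≤ s) {q : D.Dt}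
    (hq : z ∈ vcell D.X (tail q)) : dist (tail q) z ≤ s := by
  obtain ⟨v, hv, hvd⟩ := hnet
  rw [dist_comm]
  exact (hq v hv).trans hvd

section conv

variable {ι : Type} {Q : Quad} {l : Filter ι} {m : ι → ℝ × Set Pt} {E : ι → Dom}

/-- The weights of module F satisfy the conditions of `Fine.stokes_w`. -/
theorem conv_w (hm : Tendsto m l whp.{u}) (hC : Conv Q l m E) {χ : ℂ → ℝ} (hχ : IsTest Q.D χ)
    {K : ℝ} (hK : TB χ K) : ∀ᶠ i in l,
      (∀ t : Fc (E i).X (E i).b, ¬ Near (tsupport χ) t → wF (E i) χ t = 0) ∧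
      ∀ t : Fc (E i).X (E i).b, Near (tsupport χ) t → ∀ j,
        |wF (E i) χ t - χ (mid ((t, j) : Fc (E i).X (E i).b × ZMod 3))| ≤ K * dm t := by
  classical
  obtain ⟨R, hR⟩ := (isBounded_D Q).subset_closedBall (0 : ℂ)
  have hp : Q.mark 0 ∈ closure Q.D := Half.mark_mem_closure Q 0
  have hne : Q.D.Nonempty := closure_nonempty_iff.1 ⟨_, hp⟩
  filter_upwards [conv_corner hm hC hχ.compact hχ.supp one_pos, hC.far (R + 2),
    hC.outer 1 one_pos] with i h1 h2 h3
  have hb : ∀ j, ¬ (E i).Free ((E i).b j) := by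
    intro j hj
    have h4 := h3 _ hj
    obtain ⟨w, hw, hwd⟩ := (Metric.infDist_lt_iff hne).1 (lt_of_le_of_lt h4 (by norm_num : (1 : ℝ) < 3 / 2))
    have h5 := hR hw
    rw [mem_closedBall] at h5
    have h6 := dist_triangle ((E i).b j) w 0
    have h7 := h2 j
    rw [← dist_zero_right] at h7
    linarith
  refine ⟨fun t ht => ?_, fun t ht j => ?_⟩
  · unfold wF
    by_cases hi : Inner t
    · split_ifs
      · refine image_eq_zero_of_notMem_tsupport fun hc => ht ⟨hi, _, ctr_mem_TF, hc⟩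
      · rfl
    · rw [if_neg]
      intro hf
      obtain ⟨j, h4, -, -⟩ := Cfg.not_inner (S := cfg (E i)) (t := t) hi
      have h5 := hf 0
      have h6 : vc t 0 = (E i).b (j + 1) := h4
      rw [h6] at h5
      exact hb _ h5
  · unfold wF
    obtain ⟨hi, w, hwt, hw⟩ := ht
    rw [if_pos fun j => (h1 t hi w hw hwt j).1]
    exact (hK.lip _ _).trans (mul_le_mul_of_nonneg_left (ctr_mid t j) hK.nonneg)

/-- **The statement `SStmt` of module F.** -/
theorem ss : SStmt.{u} := by
  classical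
  intro Q ι l m E hm hC hVV χ hχ hU
  obtain ⟨K, hK⟩ := hχ.exists_TB
  have hK0 := hK.nonneg
  have hKc : IsCompact (tsupport χ) := hχ.compact
  have hKD : tsupport χ ⊆ Q.D := hχ.supp
  set Φ : Form χ := formId hχ with hΦ
  have hks : tsupport (dbar χ) ⊆ tsupport χ := tsupport_dbar χ
  have hkc : HasCompactSupport (dbar χ) := hχ.compact_dbar
  have hki : Integrable (dbar χ) := hχ.continuous_dbar.integrable_of_hasCompactSupport hkc
  obtain ⟨R, hR⟩ := hKc.isBounded.subset_closedBall (0 : ℂ)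
  obtain ⟨C, hfine⟩ := conv_fine hm hC hKc hKD
  -- uniform equicontinuity
  have hu : ∀ η > 0, ∃ δ > 0, ∀ᶠ i in l, ∀ p ∈ tsupport χ, ∀ q q' : (E i).Dt,
      dist (tail q) p < δ → dist (tail q') p < δ → ‖(E i).VV q - (E i).VV q'‖ ≤ η := by
    intro η hη
    have key := lebesgue_ev (ι := ι) hKc (l := l)
      (B := fun i s => ∀ q q' : (E i).Dt, tail q ∈ s → tail q' ∈ s →
        ‖(E i).VV q - (E i).VV q'‖ ≤ η)
      (fun i s s' hs hB q q' h1 h2 => hB q q' (hs h1) (hs h2))
      (fun p hp => hVV p (hKD hp) η hη)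
    obtain ⟨δ, hδ, h1⟩ := key
    refine ⟨δ, hδ, ?_⟩
    filter_upwards [h1] with i hi p hp q q' h2 h3 using hi p hp q q' h2 h3
  have hnet : ∀ s > 0, ∀ᶠ i in l, ∀ z ∈ closedBall (0 : ℂ) R, ∃ v ∈ (E i).X, dist z v ≤ s :=
    fun s hs => by
      filter_upwards [(H291.agree_conv hC).small hm R hs] with i hi using hi.1
  have hweak : WeakSmallC l (fun _ => (1 : ℂ)) (fun i z => (E i).VV (qz (E i) z)) (dbar χ) := by
    refine weakSmallC_of_grid hki hkc ?_ ?_
    · intro η hη
      obtain ⟨δ, hδ, h1⟩ := hu η hη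
      refine ⟨δ / 2, by positivity, ?_⟩
      filter_upwards [h1, hnet (δ / 4) (by positivity)] with i hi hn z hz w hw hzw
      have z2 := tail_close (hn z (hR (hks hz))) (qz_spec (E i) z)
      have w2 := tail_close (hn w (hR (hks hw))) (qz_spec (E i) w)
      refine hi z (hks hz) _ _ (by linarith) ?_
      have := dist_triangle_right (tail (qz (E i) w)) z w
      linarith
    · intro η hη
      set V0 : ℝ := (volume (Metric.cthickening 1 (tsupport χ))).toReal with hV0
      have hV0n : 0 ≤ V0 := ENNReal.toReal_nonneg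
      have hVt : volume (Metric.cthickening 1 (tsupport χ)) < ⊤ :=
        hKc.cthickening.measure_lt_top
      obtain ⟨η', hη'p, hη'⟩ : ∃ η' > 0, (K * V0) * η' ≤ η / 2 := by
        refine ⟨η / (2 * (K * V0 + 1)), by positivity, ?_⟩
        have t0 : 0 ≤ K * V0 := by positivity
        rw [mul_div_assoc', div_le_div_iff₀ (by positivity) (by norm_num)]
        nlinarith
      obtain ⟨δ1, hδ1, hu1⟩ := hu η' hη'p
      refine ⟨min (δ1 / 2) 1, by positivity, fun n Qg z hQ => ?_⟩
      have hvol : ∑ g, (volume (Qg g)).toReal ≤ V0 := by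
        rw [← ENNReal.toReal_sum fun g _ => hQ.fin g]
        refine ENNReal.toReal_mono hVt.ne ?_
        have e1 : ∑ g, volume (Qg g) = volume (⋃ g, Qg g) := by
          rw [measure_iUnion hQ.disj hQ.meas, tsum_fintype]
        rw [e1]
        refine measure_mono (iUnion_subset fun g w hw => ?_)
        exact mem_cthickening_of_dist_le w (z g) 1 _ (hks (hQ.mem g))
          ((hQ.near g w hw).le.trans (min_le_right _ _))
      -- the mesh
      have hX0 : 0 ≤ 12 * K * |C| + 3 * K * √|C| := by positivity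
      obtain ⟨ε, hεp, hε1, hε2⟩ : ∃ ε > 0, (12 * K * |C| + 3 * K * √|C|) * ε ≤ η / 4 ∧
          ε ≤ δ1 / 2 := by
        refine ⟨min (η / (4 * ((12 * K * |C| + 3 * K * √|C|) + 1))) (δ1 / 2),
          lt_min (by positivity) (by positivity), ?_, min_le_right _ _⟩
        have t1 := mul_le_mul_of_nonneg_left
          (min_le_left (η / (4 * ((12 * K * |C| + 3 * K * √|C|) + 1))) (δ1 / 2)) hX0
        refine t1.trans ?_
        generalize 12 * K * |C| + 3 * K * √|C| = X at hX0 ⊢
        rw [mul_div_assoc', div_le_div_iff₀ (by positivity) (by norm_num)]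
        nlinarith
      have hU' : ∀ᶠ i in l, ‖(E i).Usum χ‖ < η / 12 :=
        (tendsto_zero_iff_norm_tendsto_zero.1 hU).eventually_lt_const (by positivity)
      filter_upwards [hu1, hnet (δ1 / 2) (by positivity), hfine ε hεp, hU', conv_w hm hC hχ hK]
        with i hui hni hfi hUi hwi
      have hosc : ∀ g, ∀ t : Fc (E i).X (E i).b, Near (tsupport χ) t → (TF t ∩ Qg g).Nonempty →
          ∀ j, ‖(cfg (E i)).T.MM (tau ^ 2) (cfg (E i)).o (t, j) -
            (E i).VV (qz (E i) (z g))‖ ≤ η' := by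
        intro g t ht hne j
        obtain ⟨w, hw1, hw2⟩ := hne
        have hz : z g ∈ tsupport χ := hks (hQ.mem g)
        have z2 := tail_close (hni _ (hR hz)) (qz_spec (E i) (z g))
        have hfin := hui (z g) hz (t, j) (qz (E i) (z g)) ?_ (by linarith)
        · rw [VV_eq (E i) (t, j)] at hfin
          exact hfin
        have hme : SideLe t ε := hfi.mesh t ht
        have h3 := TF_near ht.1 hme (j + 1) hw1
        have h4 := hQ.near g w hw2
        have h5 : dist (tail ((t, j) : (E i).Dt)) (z g) ≤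
            dist (tail ((t, j) : (E i).Dt)) w + dist w (z g) := dist_triangle _ _ _
        have h6 : dist (tail ((t, j) : (E i).Dt)) w ≤ ε := by
          rw [dist_comm, dist_eq_norm]; exact h3
        have h8 : min (δ1 / 2) 1 ≤ δ1 / 2 := min_le_left _ _
        linarith
      have key := hfi.stokes_w hχ hK hεp.le Cfg.tau_root' Φ (w := wF (E i) χ) hwi.1 hwi.2
        hQ.meas hQ.disj hQ.fin (fun w hw => by
          have : w ∈ tsupport (dbar χ) := subset_tsupport _ hw
          exact mem_iUnion.1 (hQ.cover this)) (osc := fun _ => η') hosc (fun _ => hη'p.le)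
      -- the bounds
      have hw0 : wF (E i) χ (E i).o.1 = 0 := hwi.1 _ fun h => hfi.out _ h rfl
      have e4 : (tau ^ 2) ^ 2 = tau := by
        have := Tri.tau_pow_three Cfg.tau_root
        linear_combination tau * this
      have hnt : ‖tau‖ = 1 := Tri.norm_tau Cfg.tau_root
      set Z : ℂ := ∑ t, (wF (E i) χ t : ℂ) * ∑ j, (cfg (E i)).T.MM (tau ^ 2) (cfg (E i)).o (t, j) *
        Φ.ℓ (head (t, j) - tail (t, j)) with hZ
      set Y : ℂ := ∑ g, (E i).VV (qz (E i) (z g)) * ∫ w in Qg g, dbar χ w with hY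
      have hZn : ‖Z‖ ≤ 3 * ‖(E i).Usum χ‖ := by
        have h5 := hfi.sum_w_id Cfg.tau_root' (w := wF (E i) χ) hwi.1
        rw [e4] at h5
        have h6 : ‖(E i).Usum χ‖ =
            ‖(cfg (E i)).T.EE (cfg (E i)).o (fun d => (wF (E i) χ d.1 : ℂ) * PA tau d)‖ := by
          rw [Usum_eq (E i) hw0, norm_mul, hnt, one_mul]
        have h7 := congrArg norm h5
        rw [norm_mul, norm_mul, Complex.norm_ofNat] at h7
        have h8 : 1 ≤ ‖tau ^ 2 - (tau ^ 2) ^ 2‖ := Cfg.one_le_norm_tau_sub Cfg.tau_root'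
        rw [e4] at h8
        rw [h6, ← h7]
        exact le_mul_of_one_le_left (norm_nonneg _) h8
      have e2 : ∑ g, (E i).VV (qz (E i) (z g)) * (Φ.cI * ∫ w in Qg g, Φ.k w) = Complex.I * Y := by
        rw [hY, Finset.mul_sum]
        refine Finset.sum_congr rfl fun g _ => ?_
        have hk : ∫ w in Qg g, Φ.k w = ∫ w in Qg g, dbar χ w := rfl
        have hcI : Φ.cI = Complex.I := rfl
        rw [hk, hcI]
        ring
      rw [e2] at key
      have hYn : ‖Y‖ ≤ ‖Z‖ + (12 * K * (ε * C) + 3 * K * √(ε ^ 2 * C) +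
          K * ∑ g, η' * (volume (Qg g)).toReal) := by
        have e3 : Complex.I * Y = (Z + Complex.I * Y) - Z := by ring
        have e5 : ‖Y‖ = ‖Complex.I * Y‖ := by rw [norm_mul, Complex.norm_I, one_mul]
        rw [e5, e3]
        refine (norm_sub_le _ _).trans ?_
        have : ‖Z + Complex.I * Y‖ ≤ _ := key
        linarith
      have b1 : 12 * K * (ε * C) + 3 * K * √(ε ^ 2 * C) ≤ (12 * K * |C| + 3 * K * √|C|) * ε := by
        have h1 : ε * C ≤ ε * |C| := mul_le_mul_of_nonneg_left (le_abs_self C) hεp.le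
        have h2 : √(ε ^ 2 * C) ≤ ε * √|C| := by
          calc √(ε ^ 2 * C) ≤ √(ε ^ 2 * |C|) :=
                Real.sqrt_le_sqrt (mul_le_mul_of_nonneg_left (le_abs_self C) (by positivity))
            _ = ε * √|C| := by
                rw [Real.sqrt_mul (by positivity), Real.sqrt_sq hεp.le]
        have h3 := mul_le_mul_of_nonneg_left h1 (show 0 ≤ 12 * K by positivity)
        have h4 := mul_le_mul_of_nonneg_left h2 (show 0 ≤ 3 * K by positivity)
        linarith
      have b2 : K * ∑ g, η' * (volume (Qg g)).toReal ≤ K * V0 * η' := by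
        rw [← Finset.mul_sum]
        have := mul_le_mul_of_nonneg_left hvol (show 0 ≤ K * η' by positivity)
        linarith
      rw [one_mul]
      show ‖Y‖ ≤ η
      linarith
  intro η hη
  obtain ⟨δ, hδ, h1⟩ := hu (η / 2) (by positivity)
  filter_upwards [hweak (η / 2) (by positivity), h1, hnet (δ / 2) (by positivity)] with i hi h2 hn
  obtain ⟨G, g1, g2, g3⟩ := hi
  refine ⟨G, g1, fun z hz q hq => ?_, ?_⟩
  · have e1 := g2 z hz
    have e2 := h2 z (hks hz) (qz (E i) z) q
      (by have := tail_close (hn z (hR (hks hz))) (qz_spec (E i) z); linarith)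
      (by have := tail_close (hn z (hR (hks hz))) hq; linarith)
    have e3 := norm_sub_le_norm_sub_add_norm_sub (G z) ((E i).VV (qz (E i) z)) ((E i).VV q)
    linarith
  · rw [one_mul] at g3
    linarith

end conv

end Vale.Agent.P148.R2.H219
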