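import Vale.Agent.P148.R2.H219.Bdry

/-!
# The images of the boundary arcs under a uniformizer
-/

open Set Metric Filter Topology Bornology
open scoped ComplexConjugate

namespace Vale.Agent.P148.R2.H219

open _root_.P148 _root_.P148.Half Vale.Agent.P153.R2.R1

variable {Q : Quad} {φ : ℂ → ℂ} {x : ℝ}

/-! ### Injectivity, reality, infinity -/

theorem phi_injOn (h : Q.IsUniformizer φ x) : InjOn φ (closure Q.D \ {Q.mark 3}) := by
  obtain ⟨Φ, hC, hinj, h1, hΦ⟩ := exists_param h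
  rintro p ⟨hp, hp3⟩ q ⟨hq, hq3⟩ he
  rw [← hC.closure_eq] at hp hq
  obtain ⟨z, hz, rfl⟩ := hp
  obtain ⟨w, hw, rfl⟩ := hq
  have hz1 : z ≠ 1 := by rintro rfl; exact hp3 h1
  have hw1 : w ≠ 1 := by rintro rfl; exact hq3 h1
  rw [hΦ z hz hz1, hΦ w hw hw1] at he
  have e1 := (mb_imb norm_one I_im_pos hz1).2
  have e2 := (mb_imb norm_one I_im_pos hw1).2
  rw [← e1, ← e2, he]

theorem phi_im_nonneg (h : Q.IsUniformizer φ x) {p : ℂ} (hp : p ∈ closure Q.D \ {Q.mark 3}) :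
    0 ≤ (φ p).im := by
  obtain ⟨Φ, hC, hinj, h1, hΦ⟩ := exists_param h
  obtain ⟨hp, hp3⟩ := hp
  rw [← hC.closure_eq] at hp
  obtain ⟨z, hz, rfl⟩ := hp
  have hz1 : z ≠ 1 := by rintro rfl; exact hp3 h1
  rw [hΦ z hz hz1]
  exact imb_im_nonneg norm_one I_im_pos (mem_closedBall_zero_iff.1 hz) hz1

theorem phi_im_zero (h : Q.IsUniformizer φ x) {p : ℂ} (hp : p ∈ frontier Q.D)
    (hp3 : p ≠ Q.mark 3) : (φ p).im = 0 := by
  obtain ⟨Φ, hC, hinj, h1, hΦ⟩ := exists_param h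
  rw [← hC.frontier_eq] at hp
  obtain ⟨z, hz, rfl⟩ := hp
  have hz1 : z ≠ 1 := by rintro rfl; exact hp3 h1
  rw [hΦ z (sphere_subset_closedBall hz) hz1]
  exact imb_im_eq norm_one I_im_pos (mem_sphere_zero_iff_norm.1 hz) hz1

theorem phi_tendsto (h : Q.IsUniformizer φ x) :
    Tendsto φ (𝓝[closure Q.D \ {Q.mark 3}] (Q.mark 3)) (cobounded ℂ ⊓ 𝓟 {z | 0 ≤ z.im}) := by
  obtain ⟨Φ, hC, hinj, h1, hΦ⟩ := exists_param h
  set u : ℂ → ℂ := Function.invFunOn Φ (closedBall 0 1) with hu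
  have hu1 : ∀ p ∈ closure Q.D, u p ∈ closedBall (0 : ℂ) 1 ∧ Φ (u p) = p := by
    intro p hp
    rw [← hC.closure_eq] at hp
    exact ⟨Function.invFunOn_mem hp, Function.invFunOn_eq hp⟩
  have h1mem : (1 : ℂ) ∈ closedBall (0 : ℂ) 1 := by simp
  have hev : ∀ᶠ p in 𝓝[closure Q.D \ {Q.mark 3}] (Q.mark 3), p ∈ closure Q.D \ {Q.mark 3} :=
    self_mem_nhdsWithin
  have h2 : Tendsto u (𝓝[closure Q.D \ {Q.mark 3}] (Q.mark 3)) (𝓝 1) := by
    refine hC.tendsto_inv (good_D Q).nocut ?_ h1mem ?_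
    · filter_upwards [hev] with p hp
      exact (hu1 p hp.1).1
    · rw [h1]
      have h3 : Tendsto (fun p : ℂ => p) (𝓝[closure Q.D \ {Q.mark 3}] (Q.mark 3))
          (𝓝 (Q.mark 3)) := nhdsWithin_le_nhds
      refine h3.congr' ?_
      filter_upwards [hev] with p hp
      exact (hu1 p hp.1).2.symm
  have h3 : Tendsto u (𝓝[closure Q.D \ {Q.mark 3}] (Q.mark 3)) (𝓝[closedBall 0 1 \ {1}] 1) := by
    refine tendsto_nhdsWithin_iff.2 ⟨h2, ?_⟩
    filter_upwards [hev] with p hp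
    refine ⟨(hu1 p hp.1).1, fun e => hp.2 ?_⟩
    have := (hu1 p hp.1).2
    rw [mem_singleton_iff.1 e, h1] at this
    exact this.symm
  refine ((tendsto_imb norm_one I_im_pos).comp h3).congr' ?_
  filter_upwards [hev] with p hp
  have e := (hu1 p hp.1).2
  have hne : u p ≠ 1 := fun e1 => hp.2 (by rw [mem_singleton_iff, ← e, e1, h1])
  show imb 1 Complex.I (u p) = φ p
  rw [← hΦ _ (hu1 p hp.1).1 hne, e]

/-! ### The arcs -/

theorem side_mem_sq {i : Fin 4} {z : ℂ} (hz : z ∈ side i) :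
    (|z.re| ≤ 1 ∧ |z.im| ≤ 1) ∧ (|z.re| = 1 ∨ |z.im| = 1) := by
  fin_cases i <;> obtain ⟨h1, h2⟩ := hz
  · exact ⟨⟨h1, by rw [h2]; norm_num⟩, Or.inr (by rw [h2]; norm_num)⟩
  · exact ⟨⟨by rw [h1]; norm_num, h2⟩, Or.inl (by rw [h1]; norm_num)⟩
  · exact ⟨⟨h1, by rw [h2]; norm_num⟩, Or.inr (by rw [h2]; norm_num)⟩
  · exact ⟨⟨by rw [h1]; norm_num, h2⟩, Or.inl (by rw [h1]; norm_num)⟩

theorem arc_subset_frontier (Q : Quad) (i : Fin 4) : Q.arc i ⊆ frontier Q.D := by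
  rw [(isOpen_D Q).frontier_eq, closure_D]
  rintro _ ⟨z, hz, rfl⟩
  obtain ⟨h1, h2⟩ := side_mem_sq hz
  refine ⟨mem_image_of_mem _ h1, ?_⟩
  rintro ⟨w, hw, he⟩
  rw [Q.H.injective he] at hw
  obtain ⟨w1, w2⟩ := hw
  rcases h2 with h2 | h2
  · rw [h2] at w1; exact lt_irrefl _ w1
  · rw [h2] at w2; exact lt_irrefl _ w2

theorem arc_sub_cl (Q : Quad) (i : Fin 4) : Q.arc i ⊆ closure Q.D :=
  (arc_subset_frontier Q i).trans frontier_subset_closure

theorem mark_ne (Q : Quad) {i : Fin 4} (hi : i ≠ 3) : Q.mark i ≠ Q.mark 3 :=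
  fun h => corner_ne hi (Q.H.injective h)

theorem mark_mem_arc (Q : Quad) (i : Fin 4) : Q.mark i ∈ Q.arc i :=
  mem_image_of_mem _ (corner_mem_left i)

theorem mark_mem_arc' (Q : Quad) (i : Fin 4) : Q.mark (i + 1) ∈ Q.arc i :=
  mem_image_of_mem _ (corner_mem_right i)

theorem m3_notMem_01 (Q : Quad) : Q.mark 3 ∉ Q.arc 0 ∪ Q.arc 1 := by
  rintro (⟨z, hz, he⟩ | ⟨z, hz, he⟩)
  · rw [Q.H.injective he] at hz
    obtain ⟨-, h2⟩ := hz
    norm_num [corner] at h2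
  · rw [Q.H.injective he] at hz
    obtain ⟨h2, -⟩ := hz
    norm_num [corner] at h2

theorem m0_notMem_2 (Q : Quad) : Q.mark 0 ∉ Q.arc 2 := by
  rintro ⟨z, hz, he⟩
  rw [Q.H.injective he] at hz
  obtain ⟨-, h2⟩ := hz
  norm_num [corner] at h2

theorem m2_notMem_3 (Q : Quad) : Q.mark 2 ∉ Q.arc 3 := by
  rintro ⟨z, hz, he⟩
  rw [Q.H.injective he] at hz
  obtain ⟨h2, -⟩ := hz
  norm_num [corner] at h2

theorem inter_2 (Q : Quad) {p : ℂ} (h1 : p ∈ Q.arc 0 ∪ Q.arc 1) (h2 : p ∈ Q.arc 2) :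
    p = Q.mark 2 := by
  obtain ⟨w, hw, rfl⟩ := h2
  rcases h1 with ⟨z, hz, he⟩ | ⟨z, hz, he⟩
  · rw [Q.H.injective he] at hz
    obtain ⟨-, h2⟩ := hz
    obtain ⟨-, h3⟩ := hw
    rw [h2] at h3
    norm_num at h3
  · rw [Q.H.injective he] at hz
    have := side_inter (j := 1) (k := 2) (by decide) hz hw
    rw [this]
    rfl

theorem inter_3 (Q : Quad) {p : ℂ} (h1 : p ∈ Q.arc 0 ∪ Q.arc 1) (h2 : p ∈ Q.arc 3) :
    p = Q.mark 0 := by
  obtain ⟨w, hw, rfl⟩ := h2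
  rcases h1 with ⟨z, hz, he⟩ | ⟨z, hz, he⟩
  · rw [Q.H.injective he] at hz
    have := side_inter (j := 0) (k := 3) (by decide) hz hw
    rw [this]
    rfl
  · rw [Q.H.injective he] at hz
    obtain ⟨h2, -⟩ := hz
    obtain ⟨h3, -⟩ := hw
    rw [h2] at h3
    norm_num at h3

theorem convex_side (i : Fin 4) : Convex ℝ (side i) := by
  have hr : Convex ℝ {z : ℂ | |z.re| ≤ 1} := by
    have : {z : ℂ | |z.re| ≤ 1} = Complex.reLm ⁻¹' (Icc (-1) 1) := by
      ext z; simp [abs_le]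
    rw [this]
    exact (convex_Icc _ _).linear_preimage _
  have hi : Convex ℝ {z : ℂ | |z.im| ≤ 1} := by
    have : {z : ℂ | |z.im| ≤ 1} = Complex.imLm ⁻¹' (Icc (-1) 1) := by
      ext z; simp [abs_le]
    rw [this]
    exact (convex_Icc _ _).linear_preimage _
  have hr' : ∀ c : ℝ, Convex ℝ {z : ℂ | z.re = c} := by
    intro c
    have : {z : ℂ | z.re = c} = Complex.reLm ⁻¹' {c} := by
      ext z; simp
    rw [this]
    exact (convex_singleton _).linear_preimage _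
  have hi' : ∀ c : ℝ, Convex ℝ {z : ℂ | z.im = c} := by
    intro c
    have : {z : ℂ | z.im = c} = Complex.imLm ⁻¹' {c} := by
      ext z; simp
    rw [this]
    exact (convex_singleton _).linear_preimage _
  fin_cases i
  · exact hr.inter (hi' _)
  · exact (hr' _).inter hi
  · exact hr.inter (hi' _)
  · exact (hr' _).inter hi

theorem preconn_01 (Q : Quad) : IsPreconnected (Q.arc 0 ∪ Q.arc 1) := by
  refine IsPreconnected.union (Q.mark 1) ?_ ?_ ?_ ?_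
  · exact mark_mem_arc' Q 0
  · exact mark_mem_arc Q 1
  · exact (convex_side 0).isPreconnected.image _ Q.H.continuous.continuousOn
  · exact (convex_side 1).isPreconnected.image _ Q.H.continuous.continuousOn

theorem preconn_2 (Q : Quad) : IsPreconnected (Q.arc 2 \ {Q.mark 3}) := by
  have e : Q.arc 2 \ {Q.mark 3} = Q.H '' (side 2 ∩ {z | -1 < z.re}) := by
    have : Q.arc 2 \ {Q.mark 3} = Q.H '' (side 2 \ {corner 3}) := by
      rw [image_sdiff Q.H.injective, image_singleton]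
      rfl
    rw [this]
    congr 1
    ext z
    constructor
    · rintro ⟨hz, hz3⟩
      refine ⟨hz, ?_⟩
      obtain ⟨h1, h2⟩ := hz
      rw [abs_le] at h1
      refine lt_of_le_of_ne h1.1 (fun e => hz3 ?_)
      exact Complex.ext e.symm h2
    · rintro ⟨hz, hz3⟩
      refine ⟨hz, fun e => ?_⟩
      rw [mem_singleton_iff.1 e] at hz3
      have h5 : -1 < (corner 3).re := hz3
      norm_num [corner] at h5
  rw [e]
  have hc : Convex ℝ {z : ℂ | -1 < z.re} := convex_halfSpace_re_gt (-1)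
  exact ((convex_side 2).inter hc).isPreconnected.image _ Q.H.continuous.continuousOn

theorem preconn_3 (Q : Quad) : IsPreconnected (Q.arc 3 \ {Q.mark 3}) := by
  have e : Q.arc 3 \ {Q.mark 3} = Q.H '' (side 3 ∩ {z | z.im < 1}) := by
    have : Q.arc 3 \ {Q.mark 3} = Q.H '' (side 3 \ {corner 3}) := by
      rw [image_sdiff Q.H.injective, image_singleton]
      rfl
    rw [this]
    congr 1
    ext z
    constructor
    · rintro ⟨hz, hz3⟩
      refine ⟨hz, ?_⟩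
      obtain ⟨h2, h1⟩ := hz
      rw [abs_le] at h1
      refine lt_of_le_of_ne h1.2 (fun e => hz3 ?_)
      exact Complex.ext h2 e
    · rintro ⟨hz, hz3⟩
      refine ⟨hz, fun e => ?_⟩
      rw [mem_singleton_iff.1 e] at hz3
      have h5 : (corner 3).im < 1 := hz3
      norm_num [corner] at h5
  rw [e]
  have hc : Convex ℝ {z : ℂ | z.im < 1} := convex_halfSpace_im_lt 1
  exact ((convex_side 3).inter hc).isPreconnected.image _ Q.H.continuous.continuousOn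

theorem neBot_2 (Q : Quad) : (𝓝[Q.arc 2 \ {Q.mark 3}] (Q.mark 3)).NeBot := by
  rw [← mem_closure_iff_nhdsWithin_neBot]
  have h1 : Tendsto (fun n : ℕ => (⟨-1 + 1 / ((n : ℝ) + 1), 1⟩ : ℂ)) atTop (𝓝 (corner 3)) := by
    have h2 : Tendsto (fun n : ℕ => -1 + 1 / ((n : ℝ) + 1)) atTop (𝓝 (-1)) := by
      simpa using (tendsto_one_div_add_atTop_nhds_zero_nat (𝕜 := ℝ)).const_add (-1)
    have h3 : Continuous fun t : ℝ => (⟨t, 1⟩ : ℂ) := by
      have : (fun t : ℝ => (⟨t, 1⟩ : ℂ)) = fun t : ℝ => (t : ℂ) + Complex.I := by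
        ext t; apply Complex.ext <;> simp
      rw [this]; fun_prop
    exact (h3.tendsto (-1)).comp h2
  refine mem_closure_of_tendsto ((Q.H.continuous.tendsto _).comp h1)
    (Eventually.of_forall fun n => ⟨mem_image_of_mem _ ?_, ?_⟩)
  · have h2 : (0 : ℝ) < 1 / ((n : ℝ) + 1) := by positivity
    have h3 : 1 / ((n : ℝ) + 1) ≤ 1 := by
      rw [div_le_one (by positivity)]
      have : (0 : ℝ) ≤ n := Nat.cast_nonneg n
      linarith
    refine ⟨?_, rfl⟩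
    show |(-1 + 1 / ((n : ℝ) + 1))| ≤ 1
    rw [abs_le]
    constructor <;> linarith
  · intro e
    have h2 := congrArg Complex.re (Q.H.injective e)
    have h3 : (0 : ℝ) < 1 / ((n : ℝ) + 1) := by positivity
    have h4 : -1 + 1 / ((n : ℝ) + 1) = -1 := h2
    linarith

theorem neBot_3 (Q : Quad) : (𝓝[Q.arc 3 \ {Q.mark 3}] (Q.mark 3)).NeBot := by
  rw [← mem_closure_iff_nhdsWithin_neBot]
  have h1 : Tendsto (fun n : ℕ => (⟨-1, 1 - 1 / ((n : ℝ) + 1)⟩ : ℂ)) atTop (𝓝 (corner 3)) := by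
    have h2 : Tendsto (fun n : ℕ => 1 - 1 / ((n : ℝ) + 1)) atTop (𝓝 1) := by
      simpa using (tendsto_one_div_add_atTop_nhds_zero_nat (𝕜 := ℝ)).const_sub 1
    have h3 : Continuous fun t : ℝ => (⟨-1, t⟩ : ℂ) := by
      have : (fun t : ℝ => (⟨-1, t⟩ : ℂ)) = fun t : ℝ => -1 + (t : ℂ) * Complex.I := by
        ext t; apply Complex.ext <;> simp
      rw [this]; fun_prop
    exact (h3.tendsto 1).comp h2
  refine mem_closure_of_tendsto ((Q.H.continuous.tendsto _).comp h1)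
    (Eventually.of_forall fun n => ⟨mem_image_of_mem _ ?_, ?_⟩)
  · have h2 : (0 : ℝ) < 1 / ((n : ℝ) + 1) := by positivity
    have h3 : 1 / ((n : ℝ) + 1) ≤ 1 := by
      rw [div_le_one (by positivity)]
      have : (0 : ℝ) ≤ n := Nat.cast_nonneg n
      linarith
    refine ⟨rfl, ?_⟩
    show |(1 - 1 / ((n : ℝ) + 1))| ≤ 1
    rw [abs_le]
    constructor <;> linarith
  · intro e
    have h2 := congrArg Complex.im (Q.H.injective e)
    have h3 : (0 : ℝ) < 1 / ((n : ℝ) + 1) := by positivity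
    have h4 : 1 - 1 / ((n : ℝ) + 1) = 1 := h2
    linarith

/-! ### The images -/

section
variable (h : Q.IsUniformizer φ x)
include h

theorem re_cont {s : Set ℂ} (hs : s ⊆ closure Q.D \ {Q.mark 3}) :
    ContinuousOn (fun p => (φ p).re) s :=
  Complex.continuous_re.comp_continuousOn (h.cont.mono hs)

theorem eq_of_re {p q : ℂ} (hp : p ∈ frontier Q.D) (hp3 : p ≠ Q.mark 3) (hq : q ∈ frontier Q.D)
    (hq3 : q ≠ Q.mark 3) (he : (φ p).re = (φ q).re) : p = q := by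
  refine phi_injOn h ⟨frontier_subset_closure hp, hp3⟩ ⟨frontier_subset_closure hq, hq3⟩ ?_
  exact Complex.ext he (by rw [phi_im_zero h hp hp3, phi_im_zero h hq hq3])

theorem sub_01 : Q.arc 0 ∪ Q.arc 1 ⊆ frontier Q.D \ {Q.mark 3} := by
  intro p hp
  refine ⟨union_subset (arc_subset_frontier Q 0) (arc_subset_frontier Q 1) hp, ?_⟩
  rintro rfl
  exact m3_notMem_01 Q hp

theorem sub_fr {s : Set ℂ} (hs : s ⊆ frontier Q.D \ {Q.mark 3}) :
    s ⊆ closure Q.D \ {Q.mark 3} :=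
  fun _ hp => ⟨frontier_subset_closure (hs hp).1, (hs hp).2⟩

theorem re_mark0 : (φ (Q.mark 0)).re = 0 := by rw [h.at_a, Complex.zero_re]

theorem re_mark2 : (φ (Q.mark 2)).re = 1 := by rw [h.at_c, Complex.one_re]

theorem Icc_sub_01 : Icc (0 : ℝ) 1 ⊆ (fun p => (φ p).re) '' (Q.arc 0 ∪ Q.arc 1) := by
  have h1 := (preconn_01 Q).intermediate_value (a := Q.mark 0) (b := Q.mark 2)
    (Or.inl (mark_mem_arc Q 0)) (Or.inr (mark_mem_arc' Q 1))
    (f := fun p => (φ p).re) (re_cont h (sub_fr h (sub_01 h)))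
  simp only [re_mark0 h, re_mark2 h] at h1
  exact h1

/-- The image of the arc `cd`. -/
theorem re_2 {p : ℂ} (hp : p ∈ Q.arc 2) (hp3 : p ≠ Q.mark 3) : 1 ≤ (φ p).re := by
  have hpf := arc_subset_frontier Q 2 hp
  by_contra hlt
  rw [not_le] at hlt
  rcases lt_or_ge (φ p).re 0 with h0 | h0
  · have h1 := (preconn_2 Q).intermediate_value (a := p) (b := Q.mark 2) ⟨hp, hp3⟩
      ⟨mark_mem_arc Q 2, mark_ne Q (by decide)⟩ (f := fun p => (φ p).re)
      (re_cont h fun q hq => ⟨arc_sub_cl Q 2 hq.1, hq.2⟩)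
    simp only [re_mark2 h] at h1
    obtain ⟨q, hq, hq0⟩ := h1 ⟨h0.le, zero_le_one⟩
    have := eq_of_re h (arc_subset_frontier Q 2 hq.1) hq.2
      (arc_subset_frontier Q 0 (mark_mem_arc Q 0)) (mark_ne Q (by decide))
      (by rw [re_mark0 h]; exact hq0)
    rw [this] at hq
    exact m0_notMem_2 Q hq.1
  · obtain ⟨q, hq, hq0⟩ := Icc_sub_01 h ⟨h0, hlt.le⟩
    have := eq_of_re h (sub_01 h hq).1 (sub_01 h hq).2 hpf hp3 hq0
    rw [this] at hq
    rw [inter_2 Q hq hp, re_mark2 h] at hlt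
    exact lt_irrefl _ hlt

/-- The image of the arc `da`. -/
theorem re_3 {p : ℂ} (hp : p ∈ Q.arc 3) (hp3 : p ≠ Q.mark 3) : (φ p).re ≤ 0 := by
  have hpf := arc_subset_frontier Q 3 hp
  by_contra hlt
  rw [not_le] at hlt
  have hm0 : Q.mark 0 ∈ Q.arc 3 := mark_mem_arc' Q 3
  rcases lt_or_ge 1 (φ p).re with h0 | h0
  · have h1 := (preconn_3 Q).intermediate_value (a := Q.mark 0) (b := p)
      ⟨hm0, mark_ne Q (by decide)⟩ ⟨hp, hp3⟩ (f := fun p => (φ p).re)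
      (re_cont h fun q hq => ⟨arc_sub_cl Q 3 hq.1, hq.2⟩)
    simp only [re_mark0 h] at h1
    obtain ⟨q, hq, hq0⟩ := h1 ⟨zero_le_one, h0.le⟩
    have := eq_of_re h (arc_subset_frontier Q 3 hq.1) hq.2
      (arc_subset_frontier Q 2 (mark_mem_arc Q 2)) (mark_ne Q (by decide))
      (by rw [re_mark2 h]; exact hq0)
    rw [this] at hq
    exact m2_notMem_3 Q hq.1
  · obtain ⟨q, hq, hq0⟩ := Icc_sub_01 h ⟨hlt.le, h0⟩
    have := eq_of_re h (sub_01 h hq).1 (sub_01 h hq).2 hpf hp3 hq0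
    rw [this] at hq
    rw [inter_3 Q hq hp, re_mark0 h] at hlt
    exact lt_irrefl _ hlt

/-- The image of the arc `ac`. -/
theorem re_01 {p : ℂ} (hp : p ∈ Q.arc 0 ∪ Q.arc 1) : 0 ≤ (φ p).re ∧ (φ p).re ≤ 1 := by
  have hpf := sub_01 h hp
  have hnorm : Tendsto (fun q => ‖φ q‖) (𝓝[closure Q.D \ {Q.mark 3}] (Q.mark 3)) atTop :=
    tendsto_norm_cobounded_atTop.comp (tendsto_inf.1 (phi_tendsto h)).1
  have key : ∀ q, q ∈ frontier Q.D → q ≠ Q.mark 3 → ‖φ q‖ = |(φ q).re| := by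
    intro q hq hq3
    have : φ q = ((φ q).re : ℂ) := Complex.ext (by simp) (by simp [phi_im_zero h hq hq3])
    rw [this, Complex.norm_real, Real.norm_eq_abs, Complex.ofReal_re]
  constructor
  · by_contra hlt
    rw [not_le] at hlt
    haveI := neBot_3 Q
    have h1 : ∀ᶠ q in 𝓝[Q.arc 3 \ {Q.mark 3}] (Q.mark 3), -(φ p).re < ‖φ q‖ :=
      (hnorm.mono_left (nhdsWithin_mono _ fun q hq => ⟨arc_sub_cl Q 3 hq.1, hq.2⟩)).eventually
        (eventually_gt_atTop _)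
    obtain ⟨q, hq1, hq2⟩ := (h1.and self_mem_nhdsWithin).exists
    rw [key q (arc_subset_frontier Q 3 hq2.1) hq2.2,
      abs_of_nonpos (re_3 h hq2.1 hq2.2)] at hq1
    have h2 := (preconn_3 Q).intermediate_value (a := q) (b := Q.mark 0) hq2
      ⟨mark_mem_arc' Q 3, mark_ne Q (by decide)⟩ (f := fun p => (φ p).re)
      (re_cont h fun q hq => ⟨arc_sub_cl Q 3 hq.1, hq.2⟩)
    simp only [re_mark0 h] at h2
    obtain ⟨r, hr, hr0⟩ := h2 ⟨by linarith, hlt.le⟩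
    have := eq_of_re h (arc_subset_frontier Q 3 hr.1) hr.2 hpf.1 hpf.2 hr0
    rw [this] at hr
    rw [inter_3 Q hp hr.1, re_mark0 h] at hlt
    exact lt_irrefl _ hlt
  · by_contra hlt
    rw [not_le] at hlt
    haveI := neBot_2 Q
    have h1 : ∀ᶠ q in 𝓝[Q.arc 2 \ {Q.mark 3}] (Q.mark 3), (φ p).re < ‖φ q‖ :=
      (hnorm.mono_left (nhdsWithin_mono _ fun q hq => ⟨arc_sub_cl Q 2 hq.1, hq.2⟩)).eventually
        (eventually_gt_atTop _)
    obtain ⟨q, hq1, hq2⟩ := (h1.and self_mem_nhdsWithin).exists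
    rw [key q (arc_subset_frontier Q 2 hq2.1) hq2.2,
      abs_of_nonneg (zero_le_one.trans (re_2 h hq2.1 hq2.2))] at hq1
    have h2 := (preconn_2 Q).intermediate_value (a := Q.mark 2) (b := q)
      ⟨mark_mem_arc Q 2, mark_ne Q (by decide)⟩ hq2 (f := fun p => (φ p).re)
      (re_cont h fun q hq => ⟨arc_sub_cl Q 2 hq.1, hq.2⟩)
    simp only [re_mark2 h] at h2
    obtain ⟨r, hr, hr0⟩ := h2 ⟨hlt.le, hq1.le⟩
    have := eq_of_re h (arc_subset_frontier Q 2 hr.1) hr.2 hpf.1 hpf.2 hr0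
    rw [this] at hr
    rw [inter_2 Q hp hr.1, re_mark2 h] at hlt
    exact lt_irrefl _ hlt

theorem x_mem : 0 ≤ x ∧ x ≤ 1 := by
  have := re_01 h (Or.inl (mark_mem_arc' Q 0) : Q.mark 1 ∈ Q.arc 0 ∪ Q.arc 1)
  rw [h.at_b, Complex.ofReal_re] at this
  exact this

end

/-- The frontier is the union of the arcs. -/
theorem frontier_eq_arcs (Q : Quad) :
    frontier Q.D = (Q.arc 0 ∪ Q.arc 1) ∪ (Q.arc 2 ∪ Q.arc 3) := by
  apply Subset.antisymm
  · rw [(isOpen_D Q).frontier_eq, closure_D]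
    rintro _ ⟨⟨z, hz, rfl⟩, hn⟩
    have hn' : z ∉ os := fun h => hn (mem_image_of_mem _ h)
    obtain ⟨h1, h2⟩ := hz
    have h3 : |z.re| = 1 ∨ |z.im| = 1 := by
      by_contra hc
      rw [not_or] at hc
      exact hn' ⟨lt_of_le_of_ne h1 hc.1, lt_of_le_of_ne h2 hc.2⟩
    rcases h3 with h3 | h3
    · rcases (abs_eq zero_le_one).1 h3 with h4 | h4
      · exact Or.inl (Or.inr (mem_image_of_mem _ ⟨h4, h2⟩))
      · exact Or.inr (Or.inr (mem_image_of_mem _ ⟨h4, h2⟩))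
    · rcases (abs_eq zero_le_one).1 h3 with h4 | h4
      · exact Or.inr (Or.inl (mem_image_of_mem _ ⟨h1, h4⟩))
      · exact Or.inl (Or.inl (mem_image_of_mem _ ⟨h1, h4⟩))
  · exact union_subset (union_subset (arc_subset_frontier Q 0) (arc_subset_frontier Q 1))
      (union_subset (arc_subset_frontier Q 2) (arc_subset_frontier Q 3))

end Vale.Agent.P148.R2.H219
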