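import Vale.Agent.P148.Half
import Vale.Agent.P153.R2.R1.Jordan
import Vale.Agent.P153.R2.R1.Uniq
import Mathlib.Analysis.Convex.GaugeRescale

/-!
# The boundary values of a uniformizer of a quad

`φ` is injective on `closure D \ {d}`; it is real there exactly on the boundary, and maps the arcs
`ac`, `cd`, `da` into `[0,1]`, `[1,∞)`, `(-∞,0]`.
-/

open Set Metric Filter Topology Bornology
open scoped ComplexConjugate

namespace Vale.Agent.P148.R2.H219

open _root_.P148 _root_.P148.Half Vale.Agent.P153.R2.R1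

variable (Q : Quad)

theorem isCompact_sq' : IsCompact sq := by
  refine Metric.isCompact_of_isClosed_isBounded ?_ ?_
  · exact (isClosed_le (continuous_abs.comp Complex.continuous_re) continuous_const).inter
      (isClosed_le (continuous_abs.comp Complex.continuous_im) continuous_const)
  · refine (Metric.isBounded_closedBall (x := (0 : ℂ)) (r := 2)).subset (fun z hz => ?_)
    rw [mem_closedBall_zero_iff]
    have h1 := Complex.norm_le_abs_re_add_abs_im z
    have h2 : |z.re| ≤ 1 := hz.1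
    have h3 : |z.im| ≤ 1 := hz.2
    linarith

theorem convex_os : Convex ℝ os := by
  have h1 : os = (Complex.reLm ⁻¹' (Ioo (-1) 1)) ∩ (Complex.imLm ⁻¹' (Ioo (-1) 1)) := by
    ext z
    simp [os, abs_lt]
  rw [h1]
  exact ((convex_Ioo _ _).linear_preimage _).inter ((convex_Ioo _ _).linear_preimage _)

theorem closure_os : closure os = sq := by
  apply Subset.antisymm
  · exact closure_minimal (fun z hz => ⟨hz.1.le, hz.2.le⟩) isCompact_sq'.isClosed
  · intro z hz
    have h : Tendsto (fun n : ℕ => ((1 - 1 / ((n : ℝ) + 2) : ℝ) : ℂ) * z) atTop (𝓝 z) := by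
      have h : Tendsto (fun n : ℕ => 1 - 1 / ((n : ℝ) + 2)) atTop (𝓝 (1 - 0)) := by
        refine Tendsto.const_sub 1 ?_
        have h1 : Tendsto (fun n : ℕ => (n : ℝ) + 2) atTop atTop :=
          tendsto_atTop_add_const_right _ _ tendsto_natCast_atTop_atTop
        have h2 := h1.inv_tendsto_atTop
        refine h2.congr fun n => ?_
        simp
      have h3 := ((Complex.continuous_ofReal.tendsto _).comp h).mul_const z
      rw [sub_zero, Complex.ofReal_one, one_mul] at h3
      exact h3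
    refine mem_closure_of_tendsto h (Eventually.of_forall fun n => ?_)
    have h1 : (0 : ℝ) < 1 / ((n : ℝ) + 2) := by positivity
    have h2 : 1 / ((n : ℝ) + 2) ≤ 1 / 2 := by
      apply one_div_le_one_div_of_le (by norm_num)
      have : (0 : ℝ) ≤ n := Nat.cast_nonneg n
      linarith
    have e : |1 - 1 / ((n : ℝ) + 2)| < 1 := by
      rw [abs_lt]
      constructor <;> linarith
    have hz1 : |z.re| ≤ 1 := hz.1
    have hz2 : |z.im| ≤ 1 := hz.2
    show |(_ * z : ℂ).re| < 1 ∧ |(_ * z : ℂ).im| < 1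
    rw [Complex.re_ofReal_mul, Complex.im_ofReal_mul, abs_mul, abs_mul]
    constructor <;> nlinarith [abs_nonneg z.re, abs_nonneg z.im, abs_nonneg (1 - 1 / ((n : ℝ) + 2))]

theorem closure_D : closure Q.D = Q.H '' sq := by
  have h : Q.D = Q.H '' os := rfl
  rw [h, ← Q.H.image_closure, closure_os]

theorem isCompact_closure_D : IsCompact (closure Q.D) := by
  rw [closure_D]
  exact isCompact_sq'.image Q.H.continuous

theorem isBounded_D : IsBounded Q.D := (isCompact_closure_D Q).isBounded.subset subset_closure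

/-- The domain as an image of the disc. -/
theorem exists_disc : ∃ G : ℂ ≃ₜ ℂ, Q.D = G '' ball 0 1 := by
  have hio : interior os = os := isOpen_os.interior_eq
  obtain ⟨h, h1, -, -⟩ := exists_homeomorph_image_interior_closure_frontier_eq_unitBall
    (s := os) convex_os (by rw [hio]; exact ⟨0, by simp [os]⟩)
    (isCompact_sq'.isBounded.subset (by rw [← closure_os]; exact subset_closure))
  rw [hio] at h1
  refine ⟨h.symm.trans Q.H, ?_⟩
  rw [← h1]
  ext z
  simp only [mem_image, Homeomorph.trans_apply, exists_exists_and_eq_and,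
    Homeomorph.symm_apply_apply]
  exact Iff.rfl

theorem good_D : Good Q.D := by
  obtain ⟨G, hG⟩ := exists_disc Q
  set Φ : (ℝ × ℝ) ≃ₜ (ℝ × ℝ) := (toCH.trans G).trans toCH.symm with hΦ
  have e : homC Φ = G := by
    ext z
    simp [homC, hΦ]
  have h := good_DC Φ
  rw [DC_eq, e, ← hG] at h
  exact h

variable {Q} {φ : ℂ → ℂ} {x : ℝ}

theorem I_im_pos : 0 < Complex.I.im := by simp

/-- **The parametrization of the closed domain by the closed disc**, in which `φ` is the Cayley
map. -/
theorem exists_param (h : Q.IsUniformizer φ x) : ∃ Φ : ℂ → ℂ, CConf Φ Q.D ∧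
    InjOn Φ (closedBall 0 1) ∧ Φ 1 = Q.mark 3 ∧
    ∀ z ∈ closedBall (0 : ℂ) 1, z ≠ 1 → φ (Φ z) = imb 1 Complex.I z := by
  have hg := good_D Q
  have hI := I_im_pos
  obtain ⟨z₀, hz₀, hz₀I⟩ := h.bij.surjOn (show Complex.I ∈ {w : ℂ | 0 < w.im} from hI)
  obtain ⟨Φ₀, hΦ₀, hΦ₀0, -⟩ := hg.exists_cconf hz₀
  have hmem : ∀ z ∈ ball (0 : ℂ) 1, 0 < (φ (Φ₀ z)).im := fun z hz => h.bij.mapsTo (hΦ₀.mem hz)
  have hconf : Conf (fun z => mb 1 Complex.I (φ (Φ₀ z))) (ball 0 1) := by
    refine ⟨?_, ?_, ?_⟩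
    · intro z hz
      have h1 : DifferentiableWithinAt ℂ (fun z => φ (Φ₀ z)) (ball 0 1) z :=
        DifferentiableWithinAt.comp z (h.hol _ (hΦ₀.mem hz)) (hΦ₀.diff z hz)
          (fun w hw => hΦ₀.mem hw)
      have h2 := DifferentiableAt.comp_differentiableWithinAt (g := mb 1 Complex.I) z
        (mb_differentiableAt (β := 1) hI (hmem z hz).le) h1
      exact h2
    · intro z hz z' hz' he
      exact hΦ₀.inj hz hz' (h.bij.injOn (hΦ₀.mem hz) (hΦ₀.mem hz')
        (mb_injOn norm_one hI (hmem z hz).le (hmem z' hz').le he))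
    · apply Subset.antisymm
      · rintro _ ⟨z, hz, rfl⟩
        rw [mem_ball_zero_iff]
        exact norm_mb_lt norm_one hI (hmem z hz)
      · intro w hw
        rw [mem_ball_zero_iff] at hw
        have hne : w ≠ 1 := by rintro rfl; rw [norm_one] at hw; exact lt_irrefl _ hw
        obtain ⟨p, hp, hpw⟩ := h.bij.surjOn
          (show imb 1 Complex.I w ∈ {w : ℂ | 0 < w.im} from imb_im_pos norm_one hI hw)
        rw [← hΦ₀.img] at hp
        obtain ⟨z, hz, rfl⟩ := hp
        refine ⟨z, hz, ?_⟩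
        simp only [hpw]
        exact (mb_imb norm_one hI hne).2
  have hid : Conf (id : ℂ → ℂ) (ball 0 1) :=
    ⟨differentiableOn_id, Function.injective_id.injOn, image_id _⟩
  obtain ⟨c, hc, hce⟩ := hid.rigid hconf (by
    simp only [id, hΦ₀0, hz₀I]
    simp [mb])
  have hc0 : c ≠ 0 := by rintro rfl; simp at hc
  have hci : ‖c⁻¹‖ = 1 := by rw [norm_inv, hc, inv_one]
  set Φ : ℂ → ℂ := fun z => Φ₀ (c⁻¹ * z) with hΦ
  have hCC : CConf Φ Q.D := hΦ₀.comp_rot hci
  have hinj : InjOn Φ (closedBall 0 1) := hCC.injOn hg.nocut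
  have hin : ∀ z ∈ ball (0 : ℂ) 1, φ (Φ z) = imb 1 Complex.I z := by
    intro z hz
    have hz' : c⁻¹ * z ∈ ball (0 : ℂ) 1 := by
      rw [mem_ball_zero_iff, norm_mul, hci, one_mul]; exact mem_ball_zero_iff.1 hz
    have h1 := hce _ hz'
    simp only [id] at h1
    rw [mul_inv_cancel_left₀ hc0] at h1
    have h2 : imb 1 Complex.I (mb 1 Complex.I (φ (Φ₀ (c⁻¹ * z)))) = imb 1 Complex.I z := by
      rw [h1]
    rwa [imb_mb norm_one hI (hmem _ hz').le] at h2
  -- limits at the boundary
  have hlim : ∀ z ∈ closedBall (0 : ℂ) 1, Φ z ≠ Q.mark 3 →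
      Tendsto (fun w => φ (Φ w)) (𝓝[ball 0 1] z) (𝓝 (φ (Φ z))) := by
    intro z hz hne
    have h1 : Φ z ∈ closure Q.D \ {Q.mark 3} :=
      ⟨by rw [← hCC.closure_eq]; exact mem_image_of_mem _ hz, hne⟩
    refine (h.cont _ h1).tendsto.comp (tendsto_nhdsWithin_iff.2 ⟨?_, ?_⟩)
    · exact (hCC.cont z hz).tendsto.mono_left (nhdsWithin_mono _ ball_subset_closedBall)
    · filter_upwards [self_mem_nhdsWithin] with w hw
      exact ⟨subset_closure (hCC.mem hw), fun e => mark_not_mem Q 3 (e ▸ hCC.mem hw)⟩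
  have h1mem : (1 : ℂ) ∈ closedBall (0 : ℂ) 1 := by simp
  have hone : Φ 1 = Q.mark 3 := by
    by_contra hne
    have h1 := hlim 1 h1mem hne
    have h2 : Tendsto (fun w => imb 1 Complex.I w) (𝓝[ball 0 1] 1) (cobounded ℂ) := by
      refine ((tendsto_inf.1 (tendsto_imb norm_one hI)).1).mono_left (nhdsWithin_mono _ ?_)
      intro w hw
      refine ⟨ball_subset_closedBall hw, ?_⟩
      rintro rfl
      simp at hw
    have h3 : Tendsto (fun w => φ (Φ w)) (𝓝[ball 0 1] 1) (cobounded ℂ) := by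
      refine h2.congr' ?_
      filter_upwards [self_mem_nhdsWithin] with w hw
      exact (hin w hw).symm
    have hn := neBot_ball h1mem
    exact h1.not_tendsto (disjoint_nhds_cobounded _) h3
  refine ⟨Φ, hCC, hinj, hone, fun z hz hz1 => ?_⟩
  have hne : Φ z ≠ Q.mark 3 := by
    rw [← hone]
    exact fun e => hz1 (hinj hz h1mem e)
  have hn := neBot_ball hz
  refine tendsto_nhds_unique (hlim z hz hne) ?_
  have h2 : Tendsto (fun w => imb 1 Complex.I w) (𝓝[ball 0 1] z) (𝓝 (imb 1 Complex.I z)) :=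
    (imb_differentiableAt hz1).continuousAt.tendsto.mono_left nhdsWithin_le_nhds
  refine h2.congr' ?_
  filter_upwards [self_mem_nhdsWithin] with w hw
  exact (hin w hw).symm

end Vale.Agent.P148.R2.H219
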