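import Vale.Agent.P148.R2.H953.ArmP
import Vale.Agent.P148.R2.H897.CalTime
import Vale.Agent.P148.R2.H251.W3h

/-!
# P148, row CAL: the arms of the calibration

The bad alternatives of the dichotomy `cal_dich` and the coincidence of the two contacts of the class
of the frozen face are monochromatic free arms around the marks; their probability over the fresh
colours is bounded by the arm bounds.
-/

set_option linter.unusedSectionVars false

open Set Metric Filter Function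
open Vale.Agent.P148.R2.H258 Vale.Agent.P148.R2.H258.Tri Vale.Agent.P148.R2.H592
open Vale.Agent.P148.R2.H953
open Vale.Agent.P148.R2.H847 (qpr UArm qpr_mono)
open Vale.Agent.P148.R2.H838 (Joined)

open Vale.Agent.P148.R2.H897 (Sn BArm Nb Dich)
open Vale.Agent.P148.R2.H251
open Vale.Agent.P148.R2.H400 (TP piB piB_eq_iff nbr_dt)

namespace Vale.Agent.P148.R2.H219

/-! ### geometry of the arcs -/

/-- The corners of the square between the arcs: `ccrn j` is between the arcs `j` and `j + 1`. -/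
noncomputable def ccrn (j : Fin 3) : ℂ :=
  if j = 0 then 0 else if j = 1 then 2 else 2 + 2 * Complex.I

/-- Near the arc `j`. -/
def ArcQ (δ : ℝ) (j : Fin 3) (z : ℂ) : Prop :=
  (j = 1 ∧ BotP 2 δ z) ∨ (j = 2 ∧ RigP 2 δ z) ∨ (j = 0 ∧ LefP 2 δ z)

theorem arcQ_of {V D : Type*} {T : Tri V D} {c : ℕ → D} {n s₁ s₂ : ℕ} {pos : V → ℂ} {δ : ℝ}
    (hp : ArcPos T c n s₁ s₂ pos 2 δ) {j : Fin 3} {i : ℕ} (hi : InArc s₁ s₂ n j i) :
    ArcQ δ j (pos (T.src (c i))) := by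
  rcases hi with ⟨h1, h2⟩ | ⟨h1, h2, h3⟩ | ⟨h1, h2, h3⟩
  · exact Or.inl ⟨h1, hp.1 i h2⟩
  · exact Or.inr (Or.inl ⟨h1, hp.2.1 i h2 h3⟩)
  · exact Or.inr (Or.inr ⟨h1, hp.2.2 i h2 h3⟩)

theorem ccrn_re_im : (ccrn 0).re = 0 ∧ (ccrn 0).im = 0 ∧ (ccrn 1).re = 2 ∧ (ccrn 1).im = 0 ∧
    (ccrn 2).re = 2 ∧ (ccrn 2).im = 2 := by
  refine ⟨?_, ?_, ?_, ?_, ?_, ?_⟩ <;> simp [ccrn]

/-- The arc `j` is far from the corner `j + 1`. -/
theorem far_crn {δ : ℝ} {j : Fin 3} {z : ℂ} (h : ArcQ δ j z) : 2 - δ ≤ dist z (ccrn (j + 1)) := by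
  obtain ⟨e1, e2, e3, e4, e5, e6⟩ := ccrn_re_im
  rw [dist_eq_norm]
  rcases h with ⟨rfl, h1, h2, h3, h4⟩ | ⟨rfl, h1, h2, h3, h4⟩ | ⟨rfl, h1, h2, h3⟩
  · have h5 := Complex.abs_im_le_norm (z - ccrn (1 + 1))
    rw [show (1 : Fin 3) + 1 = 2 by decide, Complex.sub_im, e6] at h5
    rw [show (1 : Fin 3) + 1 = 2 by decide]
    have := (abs_le.1 h5).1
    linarith
  · have h5 := Complex.abs_re_le_norm (z - ccrn (2 + 1))
    rw [show (2 : Fin 3) + 1 = 0 by decide, Complex.sub_re, e1] at h5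
    rw [show (2 : Fin 3) + 1 = 0 by decide]
    have := (abs_le.1 h5).2
    linarith
  · rw [show (0 : Fin 3) + 1 = 1 by decide]
    rcases h3 with h3 | h3
    · have h5 := Complex.abs_re_le_norm (z - ccrn 1)
      rw [Complex.sub_re, e3] at h5
      have := (abs_le.1 h5).1
      linarith
    · have h5 := Complex.abs_im_le_norm (z - ccrn 1)
      rw [Complex.sub_im, e4] at h5
      have := (abs_le.1 h5).2
      linarith

theorem norm_le_add (z : ℂ) {a b : ℝ} (h1 : -a ≤ z.re) (h2 : z.re ≤ a) (h3 : -b ≤ z.im)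
    (h4 : z.im ≤ b) : ‖z‖ ≤ a + b :=
  (Complex.norm_le_abs_re_add_abs_im z).trans (add_le_add (abs_le.2 ⟨h1, h2⟩) (abs_le.2 ⟨h3, h4⟩))

/-- Points of the arcs `j` and `j + 1` which are close are near the corner `j`. -/
theorem near_crn {δ r : ℝ} (hδ : 0 ≤ δ) (hδr : δ ≤ r / 10) (hr : r ≤ 1) {j : Fin 3} {u v : ℂ}
    (hu : ArcQ δ j u) (hv : ArcQ δ (j + 1) v) (huv : dist u v ≤ r) :
    dist u (ccrn j) ≤ 3 * r ∧ dist v (ccrn j) ≤ 3 * r := by
  obtain ⟨e1, e2, e3, e4, e5, e6⟩ := ccrn_re_im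
  rw [dist_eq_norm] at huv
  have hre := abs_le.1 ((Complex.abs_re_le_norm (u - v)).trans huv)
  have him := abs_le.1 ((Complex.abs_im_le_norm (u - v)).trans huv)
  rw [Complex.sub_re] at hre
  rw [Complex.sub_im] at him
  obtain ⟨a1, a2⟩ := hre
  obtain ⟨a3, a4⟩ := him
  rw [dist_eq_norm, dist_eq_norm]
  have key : ∀ z : ℂ, -(δ + r) ≤ z.re → z.re ≤ δ + r → -(δ + r) ≤ z.im → z.im ≤ δ + r →
      ‖z‖ ≤ 3 * r := fun z h1 h2 h3 h4 =>
    (norm_le_add z h1 h2 h3 h4).trans (by linarith)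
  rcases hu with ⟨rfl, h1, h2, h3, h4⟩ | ⟨rfl, h1, h2, h3, h4⟩ | ⟨rfl, h1, h2, h3⟩
  · rw [show (1 : Fin 3) + 1 = 2 by decide] at hv
    rcases hv with ⟨h, -⟩ | ⟨-, b1, b2, b3, b4⟩ | ⟨h, -⟩
    · exact absurd h (by decide)
    · constructor
      · apply key <;> simp only [Complex.sub_re, Complex.sub_im, e3, e4] <;> linarith
      · apply key <;> simp only [Complex.sub_re, Complex.sub_im, e3, e4] <;> linarith
    · exact absurd h (by decide)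
  · rw [show (2 : Fin 3) + 1 = 0 by decide] at hv
    rcases hv with ⟨h, -⟩ | ⟨h, -⟩ | ⟨-, b1, b2, b3⟩
    · exact absurd h (by decide)
    · exact absurd h (by decide)
    · have b4 : 2 - δ ≤ v.im := by
        rcases b3 with b3 | b3
        · exfalso; linarith
        · exact b3
      constructor
      · apply key <;> simp only [Complex.sub_re, Complex.sub_im, e5, e6] <;> linarith
      · apply key <;> simp only [Complex.sub_re, Complex.sub_im, e5, e6] <;> linarith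
  · rw [show (0 : Fin 3) + 1 = 1 by decide] at hv
    rcases hv with ⟨-, b1, b2, b3, b4⟩ | ⟨h, -⟩ | ⟨h, -⟩
    · have b5 : u.re ≤ δ := by
        rcases h3 with h3 | h3
        · exact h3
        · exfalso; linarith
      constructor
      · apply key <;> simp only [Complex.sub_re, Complex.sub_im, e1, e2] <;> linarith
      · apply key <;> simp only [Complex.sub_re, Complex.sub_im, e1, e2] <;> linarith
    · exact absurd h (by decide)
    · exact absurd h (by decide)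

/-- The data of the marks. -/
structure ArmGeo (X : Set ℂ) (mk : Fin 3 → ℂ) (δ e rho : ℝ) : Prop where
  mark : ∀ j, dist (mk j + (1 + Complex.I)) (ccrn j) ≤ δ
  edge : ∀ u v, nbr X u v → u ∈ closedBall (0 : ℂ) 3 → dist u v ≤ e
  d0 : 0 ≤ δ
  d_le : δ ≤ rho / 10
  e_le : e ≤ rho / 10
  r_le : rho ≤ 1 / 20

namespace ArmGeo

variable {X : Set ℂ} {mk : Fin 3 → ℂ} {δ e rho : ℝ} (hg : ArmGeo X mk δ e rho)
include hg

theorem dist_mark (z : ℂ) (j : Fin 3) :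
    dist (z + (1 + Complex.I)) (ccrn j) ≤ dist z (mk j) + δ := by
  have h1 : dist (z + (1 + Complex.I)) (mk j + (1 + Complex.I)) = dist z (mk j) := by
    rw [dist_add_right]
  have h2 := dist_triangle (z + (1 + Complex.I)) (mk j + (1 + Complex.I)) (ccrn j)
  have h3 := hg.mark j
  linarith

theorem mark_dist (z : ℂ) (j : Fin 3) :
    dist z (mk j) ≤ dist (z + (1 + Complex.I)) (ccrn j) + δ := by
  have h1 : dist (z + (1 + Complex.I)) (mk j + (1 + Complex.I)) = dist z (mk j) := by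
    rw [dist_add_right]
  have h2 := dist_triangle (z + (1 + Complex.I)) (ccrn j) (mk j + (1 + Complex.I))
  have h3 := hg.mark j
  rw [dist_comm (ccrn j)] at h2
  linarith

theorem in_ball {z : ℂ} {j : Fin 3} (hz : dist z (mk j) ≤ 1 / 2) : z ∈ closedBall (0 : ℂ) 3 := by
  obtain ⟨e1, e2, e3, e4, e5, e6⟩ := ccrn_re_im
  rw [mem_closedBall, dist_zero_right]
  have h1 := hg.dist_mark z j
  have h2 : ‖ccrn j - (1 + Complex.I)‖ ≤ 1 + 1 := by
    have h3 : j = 0 ∨ j = 1 ∨ j = 2 := (by decide : ∀ j : Fin 3, j = 0 ∨ j = 1 ∨ j = 2) j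
    apply norm_le_add
    all_goals rcases h3 with rfl | rfl | rfl
    all_goals simp only [Complex.sub_re, Complex.sub_im, Complex.add_re, Complex.add_im,
      Complex.one_re, Complex.one_im, Complex.I_re, Complex.I_im, e1, e2, e3, e4, e5, e6]
    all_goals norm_num
  have h4 : ‖z‖ ≤ ‖z + (1 + Complex.I) - ccrn j‖ + ‖ccrn j - (1 + Complex.I)‖ := by
    have := norm_add_le (z + (1 + Complex.I) - ccrn j) (ccrn j - (1 + Complex.I))
    rwa [show z + (1 + Complex.I) - ccrn j + (ccrn j - (1 + Complex.I)) = z by ring] at this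
  rw [dist_eq_norm] at h1
  have h5 := hg.d_le
  have h6 := hg.r_le
  linarith

end ArmGeo

/-! ### deterministic arms -/

section det

variable {X : Set ℂ} {b : ZMod 3 → ℂ} {h : HullTri X b} {x₀ : X} {B : Set ℂ} {O3 : Fin 3 → Set ℂ}
  {h3 : Three3 X B O3} {w : X → Bool} {c : ℕ → Fc X b × ZMod 3} {n s₁ s₂ : ℕ}
  {mk : Fin 3 → ℂ} {δ e rho : ℝ}

theorem far_arc (hg : ArmGeo X mk δ e rho)
    (hp : ArcPos (TP h x₀) c n s₁ s₂ (fun v : X => v.1 + (1 + Complex.I)) 2 δ) {j : Fin 3} {i : ℕ}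
    (hi : InArc s₁ s₂ n j i) : 2 - 2 * δ ≤ dist ((TP h x₀).src (c i)).1 (mk (j + 1)) := by
  have h1 := far_crn (arcQ_of hp hi)
  have h2 := hg.dist_mark ((TP h x₀).src (c i)).1 (j + 1)
  linarith

theorem far_nb (hg : ArmGeo X mk δ e rho)
    (hp : ArcPos (TP h x₀) c n s₁ s₂ (fun v : X => v.1 + (1 + Complex.I)) 2 δ) {j : Fin 3} {i : ℕ}
    (hi : InArc s₁ s₂ n j i) {u : ℂ} (hu : nbr X u ((TP h x₀).src (c i)).1) :
    1 / 2 ≤ dist u (mk (j + 1)) := by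
  by_contra hcon
  push Not at hcon
  have h1 := hg.edge _ _ hu (hg.in_ball hcon.le)
  have h2 := far_arc hg hp hi
  have h4 := dist_triangle ((TP h x₀).src (c i)).1 u (mk (j + 1))
  rw [dist_comm _ u] at h4
  have h5 := hg.d_le
  have h6 := hg.e_le
  have h7 := hg.r_le
  linarith

theorem dist_nb (hg : ArmGeo X mk δ e rho) (e0 : 0 ≤ e) {u z : X} (hu : Nb (TP h x₀) u z)
    {j : Fin 3} (hz : dist z.1 (mk j) ≤ 1 / 2) : dist u.1 z.1 ≤ e := by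
  rcases hu with rfl | ⟨g, h1, h2⟩
  · rwa [dist_self]
  · have h4 := nbr_dt h x₀ g
    rw [h1, h2] at h4
    rw [dist_comm]
    exact hg.edge _ _ (nbr_symm h4) (hg.in_ball hz)

/-- **G1**: what is seen near a mark of the third arc gives a majority arm. -/
theorem g1_arm (hg : ArmGeo X mk δ e rho) (e0 : 0 ≤ e)
    (hp : ArcPos (TP h x₀) c n s₁ s₂ (fun v : X => v.1 + (1 + Complex.I)) 2 δ)
    {σ : CV X O3 → Bool} {q : Fc X b × ZMod 3} {γ : Fin 3} {m : ℕ} {f : ℕ → Fc X b × ZMod 3}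
    {j₁ i₁ : ℕ}
    (hP : Path3 (TP h x₀) (TC h h3) (piB X B) (Sum.inl ()) c n s₁ s₂ σ q (γ + 1) (γ + 2) m f j₁ i₁)
    {z : X} {j : Fin 3} (hj : j ≠ γ + 1) (hz : dist z.1 (mk j) ≤ rho) {F : Set X} {col : X → Bool}
    {cc : Bool} (hb : BArm (TP h x₀) F col cc z (f 1) (f (m - 1))) :
    ∃ u v : X, Joined (TP h x₀) col cc F u v ∧ u.1 ∈ closedBall (mk j) (2 * rho) ∧
      v.1 ∈ (ball (mk j) (1 / 2))ᶜ := by
  have h5 := hg.d_le
  have h6 := hg.e_le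
  have h7 := hg.r_le
  have hd : (j = γ + 2 + 1 ∨ j = γ + 1 + 1) := (by decide : ∀ j γ : Fin 3, j ≠ γ + 1 →
    (j = γ + 2 + 1 ∨ j = γ + 1 + 1)) j γ hj
  -- the two ends are far
  have hx : nbr X ((TP h x₀).apex (f 1)).1 ((TP h x₀).src (c i₁)).1 := by
    have := nbr_dt h x₀ ((TP h x₀).nxt ((TP h x₀).nxt (f 1)))
    rwa [(TP h x₀).src_nxt2, (TP h x₀).tgt_nxt2, hP.start] at this
  have hy : nbr X ((TP h x₀).src (f (m - 1))).1 ((TP h x₀).src (c j₁)).1 := by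
    have := nbr_dt h x₀ ((TP h x₀).nxt ((TP h x₀).nxt (f (m - 1))))
    rw [(TP h x₀).src_nxt2, (TP h x₀).tgt_nxt2, hP.stop] at this
    exact nbr_symm this
  rcases hb with ⟨u, hu, h1, h2⟩ | ⟨h1, h2⟩
  · have hu2 := dist_nb hg e0 hu (by linarith : dist z.1 (mk j) ≤ 1 / 2)
    have hu3 : u.1 ∈ closedBall (mk j) (2 * rho) := by
      rw [mem_closedBall]
      have := dist_triangle u.1 z.1 (mk j)
      linarith
    rcases hd with hd | hd
    · refine ⟨u, _, h1, hu3, ?_⟩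
      rw [mem_compl_iff, mem_ball, not_lt, hd]
      exact far_nb hg hp hP.ai hx
    · refine ⟨u, _, h2, hu3, ?_⟩
      rw [mem_compl_iff, mem_ball, not_lt, hd]
      exact far_nb hg hp hP.aj hy
  · exfalso
    have hmz : ∀ v : X, Nb (TP h x₀) v z → dist v.1 (mk j) ≤ 1 / 2 := by
      intro v hv
      have h8 := dist_nb hg e0 hv (by linarith : dist z.1 (mk j) ≤ 1 / 2)
      have := dist_triangle v.1 z.1 (mk j)
      linarith
    -- all corners of `f 1` are equal or adjacent to `z`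
    have hsa : (TP h x₀).src ((TP h x₀).nxt ((TP h x₀).nxt (f 1))) = (TP h x₀).apex (f 1) :=
      (TP h x₀).src_nxt2 _
    have hsb : (TP h x₀).tgt ((TP h x₀).nxt ((TP h x₀).nxt (f 1))) = (TP h x₀).src (f 1) :=
      (TP h x₀).tgt_nxt2 _
    have hsc : (TP h x₀).src ((TP h x₀).nxt (f 1)) = (TP h x₀).tgt (f 1) := (TP h x₀).src_nxt' _
    have hsd : (TP h x₀).tgt ((TP h x₀).nxt (f 1)) = (TP h x₀).apex (f 1) := (TP h x₀).tgt_nxt _
    have hNs : Nb (TP h x₀) ((TP h x₀).src (f 1)) z := by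
      rcases h2 with rfl | rfl | rfl
      · exact Or.inl rfl
      · exact Or.inr ⟨f 1, rfl, rfl⟩
      · exact Or.inr ⟨(TP h x₀).rev ((TP h x₀).nxt ((TP h x₀).nxt (f 1))),
          by rw [(TP h x₀).src_rev, hsb], by rw [(TP h x₀).tgt_rev, hsa]⟩
    have hNa : Nb (TP h x₀) ((TP h x₀).apex (f 1)) z := by
      rcases h2 with rfl | rfl | rfl
      · exact Or.inr ⟨_, hsa, hsb⟩
      · exact Or.inr ⟨(TP h x₀).rev ((TP h x₀).nxt (f 1)),
          by rw [(TP h x₀).src_rev, hsd], by rw [(TP h x₀).tgt_rev, hsc]⟩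
      · exact Or.inl rfl
    rcases hd with hd | hd
    · have h8 := hmz _ hNs
      rw [hP.start, hd] at h8
      have := far_arc hg hp hP.ai
      linarith
    · have h8 := hmz _ hNa
      rw [← h1, hP.stop, hd] at h8
      have := far_arc hg hp hP.aj
      linarith

/-- **Reach**: a path to the third arc from a vertex near the opposite mark. -/
theorem reach_arm (hg : ArmGeo X mk δ e rho)
    (hp : ArcPos (TP h x₀) c n s₁ s₂ (fun v : X => v.1 + (1 + Complex.I)) 2 δ)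
    {γ : Fin 3} {t : X} {R : ℝ} (hR : R ≤ 1) (ht : dist t.1 (mk (γ + 1)) ≤ R) {F : Set X}
    {col : X → Bool} {cc : Bool}
    (hr : ∃ i < n, InArc s₁ s₂ n γ i ∧ (t = (TP h x₀).src (c i) ∨
      ∃ u, (∃ g, (TP h x₀).src g = (TP h x₀).src (c i) ∧ (TP h x₀).tgt g = u) ∧
        Joined (TP h x₀) col cc F u t)) :
    ∃ u v : X, Joined (TP h x₀) col cc F u v ∧ u.1 ∈ closedBall (mk (γ + 1)) R ∧
      v.1 ∈ (ball (mk (γ + 1)) (1 / 2))ᶜ := by
  have h5 := hg.d_le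
  have h6 := hg.e_le
  have h7 := hg.r_le
  obtain ⟨i, hi, h1, h2⟩ := hr
  rcases h2 with h2 | ⟨u, ⟨g, h3, h4⟩, h8⟩
  · exfalso
    rw [h2] at ht
    have := far_arc hg hp h1
    linarith
  · refine ⟨t, u, h8.symm, mem_closedBall.2 ht, ?_⟩
    rw [mem_compl_iff, mem_ball, not_lt]
    refine far_nb hg hp h1 ?_
    have h9 := nbr_dt h x₀ g
    rw [h3, h4] at h9
    exact nbr_symm h9

/-- The contacts with the two other arcs are near the common mark when they are close. -/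
theorem near_mark (hg : ArmGeo X mk δ e rho)
    (hp : ArcPos (TP h x₀) c n s₁ s₂ (fun v : X => v.1 + (1 + Complex.I)) 2 δ)
    {γ : Fin 3} {i j : ℕ} (hj : InArc s₁ s₂ n (γ + 1) j) (hi : InArc s₁ s₂ n (γ + 2) i)
    (hd : dist ((TP h x₀).src (c i)).1 ((TP h x₀).src (c j)).1 ≤ rho) :
    dist ((TP h x₀).src (c i)).1 (mk (γ + 1)) ≤ 3 * rho + δ := by
  have h7 := hg.r_le
  have h1 := arcQ_of hp hj
  have h2 := arcQ_of hp hi
  rw [show γ + 2 = γ + 1 + 1 by rw [add_assoc]; rfl] at h2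
  have h4 : dist (((TP h x₀).src (c j)).1 + (1 + Complex.I))
      (((TP h x₀).src (c i)).1 + (1 + Complex.I)) ≤ rho := by
    rw [dist_add_right, dist_comm]; exact hd
  have h5 := (near_crn hg.d0 hg.d_le (by linarith) h1 h2 h4).2
  have h6 := hg.mark_dist ((TP h x₀).src (c i)).1 (γ + 1)
  linarith

/-- The labels of the frozen face. -/
theorem labs (hW : W3 (TP h x₀) (TC h h3) (piB X B) (Sum.inl ()) w c n s₁ s₂
      (fun j => {v : X | v.1 ∈ O3 j}) (pi3 X O3) Sum.inl) {q : Fc X b × ZMod 3}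
    (hq : (TC h h3).InFace (c (s₁ - 1)) q) {α β γ : Fin 3}
    (ha : ((TP h x₀).src q).1 ∈ O3 α) (hb : ((TP h x₀).apex q).1 ∈ O3 β)
    (hc : ((TP h x₀).tgt q).1 ∈ O3 γ) : α = γ + 1 ∧ β = γ + 2 := by
  obtain ⟨a1, a2, a3⟩ := hW.o_corners
  have hu : ∀ {v : X} {i j : Fin 3}, v.1 ∈ O3 i → v.1 ∈ O3 j → i = j := fun h1 h2 =>
    hW.cls_unique h1 h2
  rcases hq with rfl | rfl | rfl
  · have e1 := hu ha a1
    have e2 := hu hb a3
    have e3 := hu hc a2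
    subst e1 e2 e3
    exact ⟨rfl, rfl⟩
  · have h1 : (TP h x₀).src ((TC h h3).nxt (c (s₁ - 1))) = (TP h x₀).tgt (c (s₁ - 1)) :=
      (TP h x₀).src_nxt' _
    have h2 : (TP h x₀).apex ((TC h h3).nxt (c (s₁ - 1))) = (TP h x₀).src (c (s₁ - 1)) :=
      (TP h x₀).apex_nxt _
    have h4 : (TP h x₀).tgt ((TC h h3).nxt (c (s₁ - 1))) = (TP h x₀).apex (c (s₁ - 1)) :=
      (TP h x₀).tgt_nxt _
    rw [h1] at ha
    rw [h2] at hb
    rw [h4] at hc
    have e1 := hu ha a2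
    have e2 := hu hb a1
    have e3 := hu hc a3
    subst e1 e2 e3
    exact ⟨rfl, rfl⟩
  · have h1 : (TP h x₀).src ((TC h h3).nxt ((TC h h3).nxt (c (s₁ - 1)))) =
        (TP h x₀).apex (c (s₁ - 1)) := (TP h x₀).src_nxt2 _
    have h2 : (TP h x₀).apex ((TC h h3).nxt ((TC h h3).nxt (c (s₁ - 1)))) =
        (TP h x₀).tgt (c (s₁ - 1)) := (TP h x₀).apex_nxt2 _
    have h4 : (TP h x₀).tgt ((TC h h3).nxt ((TC h h3).nxt (c (s₁ - 1)))) =
        (TP h x₀).src (c (s₁ - 1)) := (TP h x₀).tgt_nxt2 _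
    rw [h1] at ha
    rw [h2] at hb
    rw [h4] at hc
    have e1 := hu ha a3
    have e2 := hu hb a2
    have e3 := hu hc a1
    subst e1 e2 e3
    exact ⟨rfl, rfl⟩

end det

/-! ### the bad alternatives -/

/-- The bad alternatives of the dichotomy `Dich`: something is seen in `Z'`, or a free minority path
starts at `Z`, or the contacts with the two majority arcs are close. -/
def BadAlt {V V1 V3 D : Type*} (T : Tri V D) (T3 : Tri V3 D) (π : V → V1) (O : V1)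
    (c : ℕ → D) (n s₁ s₂ : ℕ) (π3 : V → V3) (lab : Fin 3 → V3) (σ : V3 → Bool) (q : D)
    (α β γ : Fin 3) (Z Z' : Set V) (cl : V → V → Prop) : Prop :=
  ∃ m f j₁ i₁ N, Path3 T T3 π O c n s₁ s₂ σ q α β m f j₁ i₁ ∧
    (∃ i < n, InArc s₁ s₂ n γ i ∧ (T.tgt (f 1) = T.src (c i) ∨
      ∃ u, (∃ e, T.src e = T.src (c i) ∧ T.tgt e = u) ∧
        Joined T (fun v => σ (π3 v)) (σ (lab γ)) {v | π v ≠ O} u (T.tgt (f 1)))) ∧
    ((∃ z ∈ Z', z ∈ Sn T T3 σ (f 1) N ∧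
        BArm T {v | π v ≠ O} (fun v => σ (π3 v)) (σ (T3.src q)) z (f 1) (f (m - 1))) ∨
      ((∀ z ∈ Sn T T3 σ (f 1) N, z ∉ Z') ∧ ∃ z ∈ Z, ∃ u, Nb T u z ∧
        Joined T (fun v => σ (π3 v)) (σ (lab γ)) {v | π v ≠ O} u (T.tgt (f 1))) ∨
      cl (T.src (c i₁)) (T.src (c j₁)))

/-- **Off the bad alternatives** the class closes in the plane, with contacts which are not close. -/
theorem dich_good {V V1 V3 D : Type*} [Fintype D] {T : Tri V D} {T3 : Tri V3 D} {π : V → V1}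
    {O : V1} {c : ℕ → D} {n s₁ s₂ : ℕ} {π3 : V → V3} {lab : Fin 3 → V3} {σ : V3 → Bool} {q : D}
    {α β γ : Fin 3} {Z Z' : Set V} {τ : V → Bool} {cl : V → V → Prop}
    (hd : Dich T T3 π O c n s₁ s₂ π3 lab σ q α β γ Z Z' τ)
    (hb : ¬ BadAlt T T3 π O c n s₁ s₂ π3 lab σ q α β γ Z Z' cl) :
    ∃ m f j₁ i₁ N, Path3 T T3 π O c n s₁ s₂ σ q α β m f j₁ i₁ ∧
      (T3.st σ)^[N] (f 1) = f (m - 1) ∧
      (∀ i, 1 ≤ i → i < m → ∃ k ≤ N, (T3.st σ)^[k] (f 1) = f i) ∧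
      (∃ i < n, InArc s₁ s₂ n γ i ∧ (T.tgt (f 1) = T.src (c i) ∨
        ∃ u, (∃ e, T.src e = T.src (c i) ∧ T.tgt e = u) ∧
          Joined T (fun v => σ (π3 v)) (σ (lab γ)) {v | π v ≠ O} u (T.tgt (f 1)))) ∧
      ¬ cl (T.src (c i₁)) (T.src (c j₁)) ∧
      (∀ z ∈ Sn T T3 σ (f 1) N, z ∉ Z') ∧
      T.Mi τ (f 1) ∧ (∀ g, T.Rel τ (f 1) g ↔ (∃ i, 1 ≤ i ∧ i < m ∧ g = f i) ∨
          ∃ k < gapL n j₁ i₁, g = cy c n (j₁ + k)) ∧
      (∀ Θ : D → ℂ, T.cls τ (f 1) Θ = ∑ i ∈ Finset.Ico 1 m, Θ (f i) +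
          ∑ k ∈ Finset.range (gapL n j₁ i₁), Θ (cy c n (j₁ + k))) ∧
      ∃ i < n, InArc s₁ s₂ n γ i ∧ T.src (c i) ∉ Z ∧ (T.tgt (f 1) = T.src (c i) ∨
        ∃ u, (∃ e, T.src e = T.src (c i) ∧ T.tgt e = u) ∧
          Joined T (fun v => σ (π3 v)) (σ (lab γ)) {v | π v ≠ O ∧ v ∉ Z} u (T.tgt (f 1))) := by
  obtain ⟨m, f, j₁, i₁, N, h1, h2, h3, h4, h5⟩ := hd
  have hcl : ¬ cl (T.src (c i₁)) (T.src (c j₁)) := fun h =>
    hb ⟨m, f, j₁, i₁, N, h1, h4, Or.inr (Or.inr h)⟩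
  rcases h5 with h5 | ⟨h5, h6 | ⟨h6, h7, h8, h9⟩⟩
  · exact absurd ⟨m, f, j₁, i₁, N, h1, h4, Or.inl h5⟩ hb
  · exact absurd ⟨m, f, j₁, i₁, N, h1, h4, Or.inr (Or.inl ⟨h5, h6⟩)⟩ hb
  · exact ⟨m, f, j₁, i₁, N, h1, h2, h3, h4, hcl, h5, h6, h7, h8, h9⟩

/-! ### probability -/

section prob

variable {X : Set ℂ} {b : ZMod 3 → ℂ} (h : HullTri X b) (x₀ : X) {B : Set ℂ} {O3 : Fin 3 → Set ℂ}
  (h3 : Three3 X B O3)

/-- The event of an arm of colour `cc` of the pattern `γ` around `p`. -/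
def ArmEv (γ : Fin 3) (cc : Bool) (p : ℂ) (r R : ℝ) (B : Set ℂ) (O3 : Fin 3 → Set ℂ)
    (s : X → Bool) : Prop :=
  ∃ u v : X, Joined (TP h x₀) (fun x => patt X O3 γ s (pi3 X O3 x)) cc
    {v : X | piB X B v ≠ Sum.inl ()} u v ∧ u.1 ∈ closedBall p r ∧ v.1 ∈ (ball p R)ᶜ

include h3 in
/-- **Arms of the pattern.** -/
theorem pr_patt_arm [Fintype X] (γ : Fin 3) (cc : Bool) {A B' : Set ℂ} {p : (X → Bool) → Prop}
    (hp : ∀ s, p s → ∃ u v : X, Joined (TP h x₀) (fun x => patt X O3 γ s (pi3 X O3 x)) cc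
      {v : X | piB X B v ≠ Sum.inl ()} u v ∧ u.1 ∈ A ∧ v.1 ∈ B') :
    pr p ≤ qpr (X \ B) (fun W => UArm X W A B') := by
  classical
  refine pr_joined_le (T := TP h x₀) (V3 := X) (π3 := id)
    (f := fun x => if hx : x ∈ X then ⟨x, hx⟩ else x₀) (fun e => nbr_dt h x₀ e) (fun x => ?_)
    (h.fin.subset sdiff_subset) ?_ cc (F := {v : X | piB X B v ≠ Sum.inl ()})
    (fun v hv => ⟨v.2, fun hb => hv (piB_eq_iff.2 hb)⟩) ?_
  · simp
  · intro x hx y hy hxy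
    rw [dif_pos hx.1, dif_pos hy.1] at hxy
    exact congrArg Subtype.val hxy
  · intro s hs
    obtain ⟨u, v, h4, h5, h6⟩ := hp s hs
    exact ⟨u, v, h4.congr (fun v hv => (patt_free' h3 γ s hv).symm), h5, h6⟩

include h3 in
theorem pr_armEv [Fintype X] (γ : Fin 3) (cc : Bool) (p : ℂ) (r R : ℝ) :
    pr (ArmEv h x₀ γ cc p r R B O3) ≤
      qpr (X \ B) (fun W => UArm X W (closedBall p r) (ball p R)ᶜ) :=
  pr_patt_arm h x₀ h3 γ cc fun _ hs => hs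

end prob

section main

variable {X : Set ℂ} {b : ZMod 3 → ℂ} {h : HullTri X b} {x₀ : X} {B : Set ℂ} {O3 : Fin 3 → Set ℂ}
  {h3 : Three3 X B O3} {w : X → Bool} {c : ℕ → Fc X b × ZMod 3} {n s₁ s₂ : ℕ}
  {mk : Fin 3 → ℂ} {δ e rho a0 : ℝ}

/-- **The bad alternatives are arms.** -/
theorem bad_arm (hW : W3 (TP h x₀) (TC h h3) (piB X B) (Sum.inl ()) w c n s₁ s₂
      (fun j => {v : X | v.1 ∈ O3 j}) (pi3 X O3) Sum.inl) (hg : ArmGeo X mk δ e rho) (e0 : 0 ≤ e)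
    (hea : e ≤ a0) (har : a0 ≤ rho)
    (hp : ArcPos (TP h x₀) c n s₁ s₂ (fun v : X => v.1 + (1 + Complex.I)) 2 δ)
    {q : Fc X b × ZMod 3} (hq : (TC h h3).InFace (c (s₁ - 1)) q) {α β γ : Fin 3}
    (ha : ((TP h x₀).src q).1 ∈ O3 α) (hb : ((TP h x₀).apex q).1 ∈ O3 β)
    (hc : ((TP h x₀).tgt q).1 ∈ O3 γ) {Z Z' : Set X}
    (hZ : ∀ z ∈ Z, ∃ j, j ≠ γ + 1 ∧ dist z.1 (mk j) ≤ a0)
    (hZ' : ∀ z ∈ Z', ∃ j, j ≠ γ + 1 ∧ dist z.1 (mk j) ≤ rho)
    (hZ2 : ∀ z, z ∉ Z' → ∀ j, j ≠ γ + 1 → rho / 2 ≤ dist z.1 (mk j)) {s : X → Bool}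
    (hbad : BadAlt (TP h x₀) (TC h h3) (piB X B) (Sum.inl ()) c n s₁ s₂ (pi3 X O3) Sum.inl
      (patt X O3 γ s) q α β γ Z Z' (fun x y => dist x.1 y.1 ≤ rho)) :
    (∃ j, j ≠ γ + 1 ∧ ArmEv h x₀ γ true (mk j) (2 * rho) (1 / 2) B O3 s) ∨
      (∃ j, j ≠ γ + 1 ∧ ArmEv h x₀ γ false (mk j) (2 * a0) (rho / 2) B O3 s) ∨
      ArmEv h x₀ γ false (mk (γ + 1)) (8 * rho) (1 / 2) B O3 s := by
  obtain ⟨rfl, rfl⟩ := labs hW hq ha hb hc
  have h5 := hg.d_le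
  have h6 := hg.e_le
  have h7 := hg.r_le
  have h8 := hg.d0
  have hcs : patt X O3 γ s ((TC h h3).src q) = true := by
    rw [hW.src3 (j := γ + 1) ha, patt_inl]
    exact decide_eq_true ((by decide : ∀ γ : Fin 3, γ + 1 ≠ γ) γ)
  have hcg : patt X O3 γ s (Sum.inl γ) = false := by
    rw [patt_inl]
    exact decide_eq_false (fun h => h rfl)
  obtain ⟨m, f, j₁, i₁, N, hP, hR, hA⟩ := hbad
  rw [hcs, hcg] at hA
  rw [hcg] at hR
  rcases hA with ⟨z, hz, -, hA⟩ | ⟨hoff, z, hz, u, hu, hA⟩ | hA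
  · obtain ⟨j, hj, hzj⟩ := hZ' z hz
    exact Or.inl ⟨j, hj, g1_arm hg e0 hp hP hj hzj hA⟩
  · obtain ⟨j, hj, hzj⟩ := hZ z hz
    have ht : (TP h x₀).tgt (f 1) ∉ Z' := hoff _ ⟨0, Nat.zero_le _, Or.inr (Or.inl rfl)⟩
    refine Or.inr (Or.inl ⟨j, hj, u, _, hA, ?_, ?_⟩)
    · rw [mem_closedBall]
      have h10 := dist_nb hg e0 hu (by linarith : dist z.1 (mk j) ≤ 1 / 2)
      have h11 := dist_triangle u.1 z.1 (mk j)
      linarith
    · rw [mem_compl_iff, mem_ball, not_lt]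
      exact hZ2 _ ht j hj
  · refine Or.inr (Or.inr (reach_arm hg hp (by linarith) ?_ hR))
    have h9 := near_mark hg hp hP.aj hP.ai hA
    have h10 := nbr_dt h x₀ (f 1)
    rw [hP.start] at h10
    have h11 := hg.edge _ _ h10 (hg.in_ball (j := γ + 1) (by linarith))
    have h12 := dist_triangle ((TP h x₀).tgt (f 1)).1 ((TP h x₀).src (c i₁)).1 (mk (γ + 1))
    rw [dist_comm ((TP h x₀).tgt (f 1)).1 ((TP h x₀).src (c i₁)).1] at h12
    linarith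

/-- **The bad alternatives have small probability.** -/
theorem pr_bad_le [Fintype X]
    (hW : W3 (TP h x₀) (TC h h3) (piB X B) (Sum.inl ()) w c n s₁ s₂
      (fun j => {v : X | v.1 ∈ O3 j}) (pi3 X O3) Sum.inl) (hg : ArmGeo X mk δ e rho) (e0 : 0 ≤ e)
    (hea : e ≤ a0) (har : a0 ≤ rho)
    (hp : ArcPos (TP h x₀) c n s₁ s₂ (fun v : X => v.1 + (1 + Complex.I)) 2 δ) {om : ℝ}
    (o1 : ∀ j, qpr (X \ B) (fun W => UArm X W (closedBall (mk j) (2 * a0))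
      (ball (mk j) (rho / 2))ᶜ) ≤ om)
    (o2 : ∀ j, qpr (X \ B) (fun W => UArm X W (closedBall (mk j) (2 * rho))
      (ball (mk j) (1 / 2))ᶜ) ≤ om)
    (o3 : ∀ j, qpr (X \ B) (fun W => UArm X W (closedBall (mk j) (8 * rho))
      (ball (mk j) (1 / 2))ᶜ) ≤ om)
    {q : Fc X b × ZMod 3} (hq : (TC h h3).InFace (c (s₁ - 1)) q) {α β γ : Fin 3}
    (ha : ((TP h x₀).src q).1 ∈ O3 α) (hb : ((TP h x₀).apex q).1 ∈ O3 β)
    (hc : ((TP h x₀).tgt q).1 ∈ O3 γ) {Z Z' : Set X}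
    (hZ : ∀ z ∈ Z, ∃ j, j ≠ γ + 1 ∧ dist z.1 (mk j) ≤ a0)
    (hZ' : ∀ z ∈ Z', ∃ j, j ≠ γ + 1 ∧ dist z.1 (mk j) ≤ rho)
    (hZ2 : ∀ z, z ∉ Z' → ∀ j, j ≠ γ + 1 → rho / 2 ≤ dist z.1 (mk j)) :
    pr (fun s : X → Bool => BadAlt (TP h x₀) (TC h h3) (piB X B) (Sum.inl ()) c n s₁ s₂ (pi3 X O3)
      Sum.inl (patt X O3 γ s) q α β γ Z Z' (fun x y => dist x.1 y.1 ≤ rho)) ≤ 7 * om := by
  have hsum : ∀ (P : Fin 3 → (X → Bool) → Prop), (∀ j, pr (P j) ≤ om) →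
      pr (fun s => ∃ j, j ≠ γ + 1 ∧ P j s) ≤ 3 * om := by
    intro P hP
    have h1 : pr (fun s => ∃ j, j ≠ γ + 1 ∧ P j s) ≤
        pr (fun s => ∃ j ∈ (Finset.univ : Finset (Fin 3)), P j s) :=
      pr_mono fun s ⟨j, _, hj⟩ => ⟨j, Finset.mem_univ _, hj⟩
    refine h1.trans ((pr_exists_le _ _).trans ?_)
    rw [Fin.sum_univ_three]
    have h4 := hP 0
    have h5 := hP 1
    have h6 := hP 2
    linarith
  have h4 := hsum (fun j => ArmEv h x₀ γ true (mk j) (2 * rho) (1 / 2) B O3) fun j =>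
    (pr_armEv h x₀ h3 γ true (mk j) (2 * rho) (1 / 2)).trans (o2 j)
  have h5 := hsum (fun j => ArmEv h x₀ γ false (mk j) (2 * a0) (rho / 2) B O3) fun j =>
    (pr_armEv h x₀ h3 γ false (mk j) (2 * a0) (rho / 2)).trans (o1 j)
  have h6 := (pr_armEv h x₀ h3 γ false (mk (γ + 1)) (8 * rho) (1 / 2)).trans (o3 (γ + 1))
  have h7 := pr_or_le (fun s : X → Bool => ∃ j, j ≠ γ + 1 ∧
    ArmEv h x₀ γ false (mk j) (2 * a0) (rho / 2) B O3 s)
    (ArmEv h x₀ γ false (mk (γ + 1)) (8 * rho) (1 / 2) B O3)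
  have h8 := pr_or_le (fun s : X → Bool => ∃ j, j ≠ γ + 1 ∧
    ArmEv h x₀ γ true (mk j) (2 * rho) (1 / 2) B O3 s)
    (fun s => (∃ j, j ≠ γ + 1 ∧ ArmEv h x₀ γ false (mk j) (2 * a0) (rho / 2) B O3 s) ∨
      ArmEv h x₀ γ false (mk (γ + 1)) (8 * rho) (1 / 2) B O3 s)
  refine (pr_mono fun s hs => bad_arm hW hg e0 hea har hp hq ha hb hc hZ hZ' hZ2 hs).trans ?_
  linarith

end main

end Vale.Agent.P148.R2.H219
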