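import Vale.Agent.P148.R2.H219.CalArm
import Vale.Agent.P148.R2.H953.CalEv

/-!
# P148, row CAL: the arms of the calibration, for the events `AltW`
-/

set_option linter.unusedSectionVars false

open Set Metric Filter Function
open Vale.Agent.P148.R2.H258 Vale.Agent.P148.R2.H258.Tri Vale.Agent.P148.R2.H592
open Vale.Agent.P148.R2.H953
open Vale.Agent.P148.R2.H847 (qpr UArm qpr_mono)
open Vale.Agent.P148.R2.H251
open Vale.Agent.P148.R2.H400 (TP piB piB_eq_iff nbr_dt)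

namespace Vale.Agent.P148.R2.H219

/-- The zone of the class `γ`: the open discs around the two marks of its arc. -/
def Zn {X : Set ℂ} (mk : Fin 3 → ℂ) (γ : Fin 3) (r : ℝ) : Set X :=
  {v | ∃ j, j ≠ γ + 1 ∧ dist v.1 (mk j) < r}

theorem badAlt_of_alt {V V1 V3 D : Type*} {T : Tri V D} {T3 : Tri V3 D} {π : V → V1} {O : V1}
    {c : ℕ → D} {n s₁ s₂ : ℕ} {π3 : V → V3} {lab : Fin 3 → V3} {σ : V3 → Bool} {q : D}
    {α β γ : Fin 3} {Z Z' : Set V} {nr cl : V → V → Prop} (hnr : ∀ x y, nr x y → cl x y)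
    (h : Alt T T3 π O c n s₁ s₂ π3 lab σ q α β γ Z Z' nr) :
    BadAlt T T3 π O c n s₁ s₂ π3 lab σ q α β γ Z Z' cl := by
  obtain ⟨m, f, j₁, i₁, N, h1, h2⟩ := h
  refine ⟨m, f, j₁, i₁, N, h1.path, h1.reach, ?_⟩
  rcases h2 with h2 | h2 | h2
  · exact Or.inl h2
  · exact Or.inr (Or.inl h2)
  · exact Or.inr (Or.inr (hnr _ _ h2))

variable {X : Set ℂ} {b : ZMod 3 → ℂ} {h : HullTri X b} {x₀ : X} {B : Set ℂ} {O3 : Fin 3 → Set ℂ}
  {h3 : Three3 X B O3} {w : X → Bool} {c : ℕ → Fc X b × ZMod 3} {n s₁ s₂ : ℕ}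
  {mk : Fin 3 → ℂ} {δ e rho a0 : ℝ}

/-- **The bad alternatives `AltW` have small probability**, general zones. -/
theorem pr_altW_le [Fintype X]
    (hW : W3 (TP h x₀) (TC h h3) (piB X B) (Sum.inl ()) w c n s₁ s₂
      (fun j => {v : X | v.1 ∈ O3 j}) (pi3 X O3) Sum.inl) (hg : ArmGeo X mk δ e rho) (e0 : 0 ≤ e)
    (hea : e ≤ a0) (har : a0 ≤ rho)
    (hp : ArcPos (TP h x₀) c n s₁ s₂ (fun v : X => v.1 + (1 + Complex.I)) 2 δ) {om : ℝ}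
    (o1 : ∀ j, qpr (X \ B) (fun W => UArm X W (closedBall (mk j) (2 * a0))
      (ball (mk j) (rho / 2))ᶜ) ≤ om)
    (o2 : ∀ j, qpr (X \ B) (fun W => UArm X W (closedBall (mk j) (2 * rho))
      (ball (mk j) (1 / 2))ᶜ) ≤ om)
    (o3 : ∀ j, qpr (X \ B) (fun W => UArm X W (closedBall (mk j) (8 * rho))
      (ball (mk j) (1 / 2))ᶜ) ≤ om)
    {γ : Fin 3} {Z Z' : Set X}
    (hZ : ∀ z ∈ Z, ∃ j, j ≠ γ + 1 ∧ dist z.1 (mk j) ≤ a0)
    (hZ' : ∀ z ∈ Z', ∃ j, j ≠ γ + 1 ∧ dist z.1 (mk j) ≤ rho)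
    (hZ2 : ∀ z, z ∉ Z' → ∀ j, j ≠ γ + 1 → rho / 2 ≤ dist z.1 (mk j)) {nr : X → X → Prop}
    (hnr : ∀ x y, nr x y → dist x.1 y.1 ≤ rho) :
    pr (AltW h x₀ h3 c n s₁ s₂ γ Z Z' nr) ≤ 7 * om := by
  obtain ⟨hq, ha, hb, hc⟩ := qd_facts hW γ
  exact (pr_mono fun s hs => badAlt_of_alt hnr hs).trans
    (pr_bad_le hW hg e0 hea har hp o1 o2 o3 hq ha hb hc hZ hZ' hZ2)

/-- **The bad alternatives `AltW` have small probability**: hypothesis `hA` of `one_world` for the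
zones `Z γ = Zn mk γ a0`, `Z' γ = Zn mk γ rho`. -/
theorem pr_altW_zn [Fintype X]
    (hW : W3 (TP h x₀) (TC h h3) (piB X B) (Sum.inl ()) w c n s₁ s₂
      (fun j => {v : X | v.1 ∈ O3 j}) (pi3 X O3) Sum.inl) (hg : ArmGeo X mk δ e rho) (e0 : 0 ≤ e)
    (hea : e ≤ a0) (har : a0 ≤ rho)
    (hp : ArcPos (TP h x₀) c n s₁ s₂ (fun v : X => v.1 + (1 + Complex.I)) 2 δ) {om : ℝ}
    (o1 : ∀ j, qpr (X \ B) (fun W => UArm X W (closedBall (mk j) (2 * a0))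
      (ball (mk j) (rho / 2))ᶜ) ≤ om)
    (o3 : ∀ j, qpr (X \ B) (fun W => UArm X W (closedBall (mk j) (8 * rho))
      (ball (mk j) (1 / 2))ᶜ) ≤ om) {nr : X → X → Prop}
    (hnr : ∀ x y, nr x y → dist x.1 y.1 ≤ rho) (γ : Fin 3) :
    pr (AltW h x₀ h3 c n s₁ s₂ γ (Zn mk γ a0) (Zn mk γ rho) nr) ≤ 7 * om := by
  have hr0 : 0 ≤ rho := by linarith
  refine pr_altW_le hW hg e0 hea har hp o1 (fun j => (qpr_mono (h.fin.subset sdiff_subset)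
    fun W _ hu => ?_).trans (o3 j)) o3 ?_ ?_ ?_ hnr
  · exact hu.mono (fun _ _ _ _ hn => hn) Subset.rfl (closedBall_subset_closedBall (by linarith))
      Subset.rfl
  · rintro z ⟨j, hj, hz⟩
    exact ⟨j, hj, hz.le⟩
  · rintro z ⟨j, hj, hz⟩
    exact ⟨j, hj, hz.le⟩
  · intro z hz j hj
    by_contra hcon
    push Not at hcon
    exact hz ⟨j, hj, by linarith⟩

end Vale.Agent.P148.R2.H219
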