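import Vale.Agent.P148.R2.H219.CalArm2
import Vale.Agent.P148.R2.H530.ArmSc
import Vale.Agent.P148.R2.H995.CalMark

/-!
# P148, row CAL: the arms of the calibration on the scene

Hypothesis `hA` of `one_world` for the worlds of the scene, from the arm bounds `ArmLe`.
-/

set_option linter.unusedSectionVars false

open Set Metric Filter Function
open _root_.P148
open Vale.Agent.P148.R2.H258 Vale.Agent.P148.R2.H258.Tri Vale.Agent.P148.R2.H592
open Vale.Agent.P148.R2.H953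
open Vale.Agent.P148.R2.H847 (qpr UArm qpr_mono)
open Vale.Agent.P148.R2.H566 (W0 Ev)
open Vale.Agent.P148.R2.H291 (SiteOK)
open Vale.Agent.P148.R2.H609 (TP piX)
open Vale.Agent.P148.R2.H251 (Three3 TC pi3 W3 ArcPos patt)
open Vale.Agent.P148.R2.H959 (mk0 mk1 mk2 mark0_pos mark1_pos mark2_pos ag bg)
open Vale.Agent.P148.R2.H530 (ArmLe norm_mark edge_le ms_le_of)
open Vale.Agent.P148.R2.N (ms ms_pos gateC nc gateC_add_nc)

namespace Vale.Agent.P148.R2.H219

/-- The marks of the scene. -/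
noncomputable def mks (M : ℕ) (j : Fin 3) : ℂ :=
  if j = 0 then gateC M (mk0 M 5) else if j = 1 then gateC M (mk1 M 5) else gateC M (mk2 M 5)

theorem mks_zero (M : ℕ) : mks M 0 = gateC M (mk0 M 5) := by simp [mks]

theorem mks_one (M : ℕ) : mks M 1 = gateC M (mk1 M 5) := by simp [mks]

theorem mks_two (M : ℕ) : mks M 2 = gateC M (mk2 M 5) := by simp [mks]

theorem fin3 (j : Fin 3) : j = 0 ∨ j = 1 ∨ j = 2 :=
  (by decide : ∀ j : Fin 3, j = 0 ∨ j = 1 ∨ j = 2) j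

/-- The marks are near the corners. -/
theorem mks_crn {M : ℕ} (hM : 3 ≤ M) (j : Fin 3) :
    dist (mks M j + (1 + Complex.I)) (ccrn j) ≤ 6 * ms M := by
  have h0 : 0 < M := by omega
  have h2 := mark0_pos (m := 5) h0 (by omega)
  have h3 := mark1_pos (m := 5) h0 (by omega)
  have h4 := mark2_pos (m := 5) h0 (by omega)
  push_cast at h2 h3 h4
  rw [dist_eq_norm]
  have e : ((5 : ℝ) + 1) * ms M = 6 * ms M := by ring
  rw [e] at h2 h3 h4
  rcases fin3 j with rfl | rfl | rfl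
  · rw [mks_zero, show ccrn 0 = 0 by simp [ccrn]]; exact h2
  · rw [mks_one, show ccrn 1 = 2 by simp [ccrn]]; exact h3
  · rw [mks_two, show ccrn 2 = 2 + 2 * Complex.I by simp [ccrn]]; exact h4

theorem crn_norm (j : Fin 3) : ‖ccrn j - (1 + Complex.I)‖ ≤ 2 := by
  obtain ⟨e1, e2, e3, e4, e5, e6⟩ := ccrn_re_im
  have h2 : ‖ccrn j - (1 + Complex.I)‖ ≤ 1 + 1 := by
    have h3 := fin3 j
    apply norm_le_add
    all_goals rcases h3 with rfl | rfl | rfl
    all_goals simp only [Complex.sub_re, Complex.sub_im, Complex.add_re, Complex.add_im,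
      Complex.one_re, Complex.one_im, Complex.I_re, Complex.I_im, e1, e2, e3, e4, e5, e6]
    all_goals norm_num
  linarith

/-- The gates of the arc `γ` are the marks other than `γ + 1`. -/
theorem gates_arc (M : ℕ) (γ : Fin 3) :
    (∃ j, j ≠ γ + 1 ∧ gateC M (ag (mk0 M 5) (mk1 M 5) (mk2 M 5) γ) = mks M j) ∧
    (∃ j, j ≠ γ + 1 ∧ gateC M (bg M (mk0 M 5) (mk1 M 5) (mk2 M 5) γ) = mks M j) ∧
    ∀ j, j ≠ γ + 1 → mks M j = gateC M (ag (mk0 M 5) (mk1 M 5) (mk2 M 5) γ) ∨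
      mks M j = gateC M (bg M (mk0 M 5) (mk1 M 5) (mk2 M 5) γ) := by
  have e1 := mks_zero M
  have e2 := mks_one M
  have e3 := mks_two M
  have e4 := gateC_add_nc M (mk0 M 5)
  rcases fin3 γ with rfl | rfl | rfl
  · have a : ag (mk0 M 5) (mk1 M 5) (mk2 M 5) 0 = mk2 M 5 := by simp [ag]
    have b : bg M (mk0 M 5) (mk1 M 5) (mk2 M 5) 0 = mk0 M 5 + nc M := by simp [bg]
    rw [a, b, e4, ← e1, ← e3]
    refine ⟨⟨2, by decide, rfl⟩, ⟨0, by decide, rfl⟩, fun j hj => ?_⟩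
    rcases fin3 j with rfl | rfl | rfl
    · exact Or.inr rfl
    · exact absurd rfl hj
    · exact Or.inl rfl
  · have a : ag (mk0 M 5) (mk1 M 5) (mk2 M 5) 1 = mk0 M 5 := by simp [ag]
    have b : bg M (mk0 M 5) (mk1 M 5) (mk2 M 5) 1 = mk1 M 5 := by simp [bg]
    rw [a, b, ← e1, ← e2]
    refine ⟨⟨0, by decide, rfl⟩, ⟨1, by decide, rfl⟩, fun j hj => ?_⟩
    rcases fin3 j with rfl | rfl | rfl
    · exact Or.inl rfl
    · exact Or.inr rfl
    · exact absurd rfl hj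
  · have a : ag (mk0 M 5) (mk1 M 5) (mk2 M 5) 2 = mk1 M 5 := by simp [ag]
    have b : bg M (mk0 M 5) (mk1 M 5) (mk2 M 5) 2 = mk2 M 5 := by simp [bg]
    rw [a, b, ← e2, ← e3]
    refine ⟨⟨1, by decide, rfl⟩, ⟨2, by decide, rfl⟩, fun j hj => ?_⟩
    rcases fin3 j with rfl | rfl | rfl
    · exact absurd rfl hj
    · exact Or.inl rfl
    · exact Or.inr rfl

/-- **`hA`** for the worlds of the scene. -/
theorem hA_sc {T : Set Pt} {M : ℕ} (hS : SiteOK T 9 (ms M / 1000)) (hM : 3 ≤ M) {w : W0}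
    (hX : w.X = H291.site T 9) [Fintype w.X] {x₀ : w.X} {col : w.X → Bool}
    {c : ℕ → w.D} {n s₁ s₂ : ℕ} {O3 : Fin 3 → Set ℂ} {h3 : Three3 w.X w.B O3}
    (hW : W3 (TP w x₀) (TC w.hull h3) (piX w) w.O col c n s₁ s₂
      (fun j => {v : w.X | v.1 ∈ O3 j}) (pi3 w.X O3) Sum.inl)
    (hp : ArcPos (TP w x₀) c n s₁ s₂ (fun v => v.1 + (1 + Complex.I)) 2 (((5 : ℕ) + 1) * ms M))
    {rho om : ℝ} (hr : 60 * ms M ≤ rho) (hr1 : rho ≤ 1 / 20)
    (o1 : ArmLe T (24 * ms M) (rho / 2) om) (o2 : ArmLe T (2 * rho) (1 / 2) om)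
    (o3 : ArmLe T (8 * rho) (1 / 2) om) {nr : w.X → w.X → Prop}
    (hnr : ∀ x y, nr x y → dist x.1 y.1 ≤ rho) (γ : Fin 3) :
    pr (AltW w.hull x₀ h3 c n s₁ s₂ γ
      (H995.Zn M w.X (ag (mk0 M 5) (mk1 M 5) (mk2 M 5) γ) (bg M (mk0 M 5) (mk1 M 5) (mk2 M 5) γ)
        (12 * ms M))
      (H995.Zn M w.X (ag (mk0 M 5) (mk1 M 5) (mk2 M 5) γ) (bg M (mk0 M 5) (mk1 M 5) (mk2 M 5) γ)
        rho) nr) ≤ 7 * om := by
  have h0 : 0 < M := by omega
  have hms := ms_pos h0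
  have e : (((5 : ℕ) : ℝ) + 1) * ms M = 6 * ms M := by push_cast; ring
  rw [e] at hp
  have hg : ArmGeo w.X (mks M) (6 * ms M) (ms M / 1000 / 4) rho := by
    refine ⟨mks_crn hM, ?_, by linarith, by linarith, by linarith, hr1⟩
    rw [hX]
    intro u v huv hu
    exact edge_le hS u huv.1 v huv.2.1 huv hu
  have hag : w.X ∩ ball 0 4 = pts T ∩ ball 0 4 := by
    rw [hX]
    exact hS.agree (ball_subset_ball (by norm_num))
  have hfin : (w.X \ w.B).Finite := w.hull.fin.subset sdiff_subset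
  have hn : ∀ j, ‖mks M j‖ ≤ 5 / 2 := by
    intro j
    have h1 := mks_crn hM j
    have h2 := crn_norm j
    rw [dist_eq_norm] at h1
    have h4 := norm_add_le (mks M j + (1 + Complex.I) - ccrn j) (ccrn j - (1 + Complex.I))
    rw [show mks M j + (1 + Complex.I) - ccrn j + (ccrn j - (1 + Complex.I)) = mks M j by ring] at h4
    linarith
  obtain ⟨⟨ja, ha1, ha2⟩, ⟨jb, hb1, hb2⟩, hall⟩ := gates_arc M γ
  refine pr_altW_le (h := w.hull) (x₀ := x₀) (a0 := 12 * ms M) hW hg (by linarith) (by linarith)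
    (by linarith) hp ?_ (fun j => o2 _ _ _ hag hfin sdiff_subset (hn j))
    (fun j => o3 _ _ _ hag hfin sdiff_subset (hn j)) ?_ ?_ ?_ hnr
  · intro j
    have := o1 _ _ (mks M j) hag hfin sdiff_subset (hn j)
    rwa [show 24 * ms M = 2 * (12 * ms M) by ring] at this
  · rintro z (hz | hz)
    · rw [ha2] at hz
      exact ⟨ja, ha1, (mem_ball.1 hz).le⟩
    · rw [hb2] at hz
      exact ⟨jb, hb1, (mem_ball.1 hz).le⟩
  · rintro z (hz | hz)
    · rw [ha2] at hz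
      exact ⟨ja, ha1, (mem_ball.1 hz).le⟩
    · rw [hb2] at hz
      exact ⟨jb, hb1, (mem_ball.1 hz).le⟩
  · intro z hz j hj
    by_contra hcon
    push Not at hcon
    have hlt : dist z.1 (mks M j) < rho := by linarith
    rcases hall j hj with h1 | h1
    · rw [h1] at hlt
      exact hz (Or.inl hlt)
    · rw [h1] at hlt
      exact hz (Or.inr hlt)

end Vale.Agent.P148.R2.H219
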