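import Vale.Agent.P148.R2.H219.CalArm3
import Vale.Agent.P148.R2.H897.Cal8w

/-!
# P148, row CAL: hypothesis `hA` of `hone_scene`
-/

set_option linter.unusedSectionVars false

open Set Metric Filter Function
open _root_.P148
open Vale.Agent.P148.R2.H953
open Vale.Agent.P148.R2.H251 (Three3 TC pi3 W3 ArcPos patt)
open Vale.Agent.P148.R2.H172 (Frame GoodT fscOf mc)
open Vale.Agent.P148.R2.H959 (mk0 mk1 mk2 CalB)

open Vale.Agent.P148.R2.H291 (site)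
open Vale.Agent.P148.R2.H530 (ArmLe)
open Vale.Agent.P148.R2.H897 (agc bgc)
open Vale.Agent.P148.R2.N (ms ms_pos)

namespace Vale.Agent.P148.R2.H219

/-- **The arms of the worlds of the scene**: hypothesis `hA` of `hone_scene`. -/
theorem hA_scene {c : ℝ} {M : ℕ} {T : Set Pt} (h : GoodT c M T) (hM : 0 < M)
    {i : (site T 9 → Bool) × (site T 9 → Bool)} [Fintype (site T 9)] (hM' : 3 ≤ M)
    {F : Frame M ((fscOf hM h.site.hull).w i) ((fscOf hM h.site.hull).x₀ i)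
      ((fscOf hM h.site.hull).col i)} {s₁ s₂ : ℕ} {O3 : Fin 3 → Set ℂ}
    {h3 : Three3 ((fscOf hM h.site.hull).w i).X ((fscOf hM h.site.hull).w i).B O3}
    (hB : CalB F 5 s₁ s₂ O3 h3) {ρ ω : ℝ} (hω : 0 ≤ ω) (hr : 60 * ms M ≤ ρ) (hr1 : ρ ≤ 1 / 20)
    (o1 : ArmLe T (24 * ms M) (ρ / 2) ω) (o2 : ArmLe T (2 * ρ) (1 / 2) ω)
    (o3 : ArmLe T (8 * ρ) (1 / 2) ω) (γ : Fin 3) :
    H953.pr (V := site T 9)
      (AltW ((fscOf hM h.site.hull).w i).hull ((fscOf hM h.site.hull).x₀ i) h3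
      (F.bc (mk0 M 5)) (F.bn (mk0 M 5)) s₁ s₂ γ
      (H995.Zn M (site T 9) (agc M γ) (bgc M γ) (12 * ms M)) (H995.Zn M (site T 9) (agc M γ) (bgc M γ) ρ)
      (fun u v => dist u.1 v.1 ≤ ρ)) ≤ 12 * ω := by
  let inst : Fintype ((fscOf hM h.site.hull).w i).X := ‹Fintype (site T 9)›
  have key := hA_sc (w := (fscOf hM h.site.hull).w i) (x₀ := (fscOf hM h.site.hull).x₀ i) h.site hM'
    rfl hB.w3 hB.arcPos hr hr1 o1 o2 o3 (nr := fun u v => dist u.1 v.1 ≤ ρ)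
    (fun _ _ hx => hx) γ
  refine le_trans ?_ (by linarith : 7 * ω ≤ 12 * ω)
  exact key

end Vale.Agent.P148.R2.H219
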