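import Vale.Agent.P148.R2.H219.SC3
import Vale.Agent.P148.R2.H219.Arcs

/-!
# Uniqueness: the conformal map onto the equilateral triangle is given by Cardy's function

`h` continuous on the closed domain, holomorphic inside, mapping the three arcs `ac`, `cd`, `da`
into the three lines of the sides of the equilateral triangle with the vertices `0, 1, v3`, and
`a, c, d` to the vertices: then `h b = cardy x`.
-/

open Set Metric Filter Topology Bornology
open scoped ComplexConjugate

namespace Vale.Agent.P148.R2.H219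

open _root_.P148 _root_.P148.Half Vale.Agent.P153.R2.R1

theorem im_cube (w : ℂ) : (w ^ 3).im = w.im * ((√3 * w.re - w.im) * (√3 * w.re + w.im)) := by
  have s3' : √3 * √3 = 3 := Real.mul_self_sqrt (by norm_num)
  have e : (w ^ 3).im = w.im * (3 * w.re ^ 2 - w.im ^ 2) := by
    simp only [pow_succ, pow_zero, one_mul, Complex.mul_im, Complex.mul_re]
    ring
  rw [e]
  linear_combination (-(w.im * w.re ^ 2)) * s3'

/-- A continuous function on the closure of a bounded preconnected open set, holomorphic inside,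
whose cube is real on the frontier, with a zero on the frontier, vanishes. -/
theorem cube_unique {D : Set ℂ} (hD : IsOpen D) (hDc : IsPreconnected D) (hDb : IsBounded D)
    {w : ℂ → ℂ} (hw : DiffContOnCl ℂ w D) (hf : ∀ z ∈ frontier D, (w z ^ 3).im = 0) {a : ℂ}
    (ha : a ∈ closure D) (hwa : w a = 0) : ∀ z ∈ closure D, w z = 0 := by
  -- the exponentials have norm one inside
  have hdc : ∀ s : ℝ, DiffContOnCl ℂ (fun z => Complex.exp (s * Complex.I * w z ^ 3)) D := by
    intro s
    have h3 : DiffContOnCl ℂ (fun z => s * Complex.I * w z ^ 3) D :=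
      ⟨(hw.differentiableOn.pow 3).const_mul _, continuousOn_const.mul (hw.continuousOn.pow 3)⟩
    exact ⟨h3.differentiableOn.cexp, h3.continuousOn.cexp⟩
  have hre : ∀ (s : ℝ) (z : ℂ), ((s : ℂ) * Complex.I * z).re = -(s * z.im) := by
    intro s z
    simp [Complex.mul_re, Complex.mul_im]
  have hle : ∀ s : ℝ, ∀ z ∈ closure D, ‖Complex.exp (s * Complex.I * w z ^ 3)‖ ≤ 1 := by
    intro s z hz
    refine Complex.norm_le_of_forall_mem_frontier_norm_le hDb (hdc s) (fun y hy => ?_) hz
    rw [Complex.norm_exp, hre, hf y hy, mul_zero, neg_zero, Real.exp_zero]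
  have him : ∀ z ∈ closure D, (w z ^ 3).im = 0 := by
    intro z hz
    have h1 := hle 1 z hz
    have h2 := hle (-1) z hz
    rw [Complex.norm_exp, hre, Real.exp_le_one_iff] at h1 h2
    linarith
  have hin : ∀ z ∈ D, w z = 0 := by
    intro z hz
    have key : ∀ s : ℝ, Complex.exp (s * Complex.I * w z ^ 3) = 1 := by
      intro s
      have hn : ∀ y ∈ closure D, ‖Complex.exp (s * Complex.I * w y ^ 3)‖ = 1 := by
        intro y hy
        rw [Complex.norm_exp, hre, him y hy, mul_zero, neg_zero, Real.exp_zero]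
      have hmax : IsMaxOn (norm ∘ fun z => Complex.exp (s * Complex.I * w z ^ 3)) D z := by
        intro y hy
        show ‖_‖ ≤ ‖_‖
        rw [hn y (subset_closure hy), hn z (subset_closure hz)]
      have heq := Complex.eqOn_of_isPreconnected_of_isMaxOn_norm hDc hD
        (hdc s).differentiableOn hz hmax
      have heq2 : EqOn (fun y => Complex.exp (s * Complex.I * w y ^ 3))
          (fun _ => Complex.exp (s * Complex.I * w z ^ 3)) (closure D) :=
        heq.of_subset_closure (hdc s).continuousOn continuousOn_const subset_closure Subset.rfl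
      have := heq2 ha
      simp only [hwa] at this
      rw [← this]
      simp
    by_contra hne
    have h3 : w z ^ 3 ≠ 0 := pow_ne_zero 3 hne
    have h4 : w z ^ 3 = ((w z ^ 3).re : ℂ) :=
      Complex.ext (by simp) (by simp [him z (subset_closure hz)])
    have h5 : (w z ^ 3).re ≠ 0 := by
      intro h0
      rw [h0, Complex.ofReal_zero] at h4
      exact h3 h4
    have h6 := key (Real.pi / (w z ^ 3).re)
    rw [h4] at h6
    have h7 : ((Real.pi / (w z ^ 3).re : ℝ) : ℂ) * Complex.I * (((w z ^ 3).re : ℝ) : ℂ) =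
        Real.pi * Complex.I := by
      have : (((w z ^ 3).re : ℝ) : ℂ) ≠ 0 := by exact_mod_cast h5
      rw [Complex.ofReal_div]
      field_simp
    simp only [Complex.ofReal_re] at h6
    rw [h7, Complex.exp_pi_mul_I] at h6
    norm_num at h6
  intro z hz
  have : EqOn w (fun _ => 0) (closure D) :=
    (show EqOn w (fun _ => 0) D from hin).of_subset_closure hw.continuousOn continuousOn_const
      subset_closure Subset.rfl
  exact this hz

open Classical in
/-- The conformal map of the domain onto the equilateral triangle with the vertices `0, 1, v3`. -/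
noncomputable def cmap (Q : Quad) (φ : ℂ → ℂ) (z : ℂ) : ℂ := if z = Q.mark 3 then v3 else S (φ z)

theorem cmap_of_ne (Q : Quad) (φ : ℂ → ℂ) {z : ℂ} (hz : z ≠ Q.mark 3) : cmap Q φ z = S (φ z) :=
  if_neg hz

theorem cmap_mark3 (Q : Quad) (φ : ℂ → ℂ) : cmap Q φ (Q.mark 3) = v3 := if_pos rfl

theorem preconn_D (Q : Quad) : IsPreconnected Q.D :=
  convex_os.isPreconnected.image _ Q.H.continuous.continuousOn

section

variable {Q : Quad} {φ : ℂ → ℂ} {x : ℝ} (h : Q.IsUniformizer φ x)

include h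

theorem continuousOn_cmap : ContinuousOn (cmap Q φ) (closure Q.D) := by
  have hmem : ∀ z ∈ closure Q.D \ {Q.mark 3}, φ z ∈ HB := fun z hz => phi_im_nonneg h hz
  have hg1 : ∀ z, z ≠ Q.mark 3 → cmap Q φ z = S (φ z) := fun z hz => cmap_of_ne Q φ hz
  have hg3 : cmap Q φ (Q.mark 3) = v3 := cmap_mark3 Q φ
  intro z hz
  by_cases hz3 : z = Q.mark 3
  · subst hz3
    have h1 : Tendsto (cmap Q φ) (𝓝[closure Q.D \ {Q.mark 3}] (Q.mark 3)) (𝓝 v3) := by
      have h2 : Tendsto (fun z => S (φ z)) (𝓝[closure Q.D \ {Q.mark 3}] (Q.mark 3)) (𝓝 v3) := by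
        refine tendsto_S.comp ?_
        rw [comap_norm_atTop]
        exact phi_tendsto h
      refine h2.congr' ?_
      filter_upwards [self_mem_nhdsWithin] with z hz
      exact (hg1 z hz.2).symm
    rw [ContinuousWithinAt, hg3]
    have h2 : closure Q.D = insert (Q.mark 3) (closure Q.D \ {Q.mark 3}) := by
      rw [insert_sdiff_singleton, insert_eq_of_mem hz]
    rw [h2, nhdsWithin_insert]
    refine Tendsto.sup ?_ h1
    rw [← hg3]
    exact tendsto_pure_nhds (cmap Q φ) (Q.mark 3)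
  · have h1 : ContinuousWithinAt (fun z => S (φ z)) (closure Q.D \ {Q.mark 3}) z :=
      ContinuousWithinAt.comp (g := S) (f := φ) (t := HB)
        (continuousOn_S _ (hmem z ⟨hz, hz3⟩)) (h.cont z ⟨hz, hz3⟩) hmem
    have h2 : ContinuousWithinAt (cmap Q φ) (closure Q.D \ {Q.mark 3}) z :=
      h1.congr (fun y hy => hg1 y hy.2) (hg1 z hz3)
    have h4 : closure Q.D \ {Q.mark 3} ∈ 𝓝[closure Q.D] z :=
      sdiff_mem self_mem_nhdsWithin (mem_nhdsWithin_of_mem_nhds
        (isOpen_compl_singleton.mem_nhds hz3))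
    exact h2.mono_of_mem_nhdsWithin h4

theorem differentiableOn_cmap : DifferentiableOn ℂ (cmap Q φ) Q.D := by
  have hg1 : ∀ z, z ≠ Q.mark 3 → cmap Q φ z = S (φ z) := fun z hz => cmap_of_ne Q φ hz
  have hDne : ∀ z ∈ Q.D, z ≠ Q.mark 3 := by
    rintro z hz rfl
    exact mark_not_mem Q 3 hz
  intro z hz
  have h1 : DifferentiableAt ℂ φ z := h.hol.differentiableAt ((isOpen_D Q).mem_nhds hz)
  have h2 : DifferentiableAt ℂ (fun z => S (φ z)) z :=
    DifferentiableAt.comp (g := S) (f := φ) z (differentiableAt_S (h.bij.mapsTo hz)) h1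
  exact (h2.differentiableWithinAt).congr (fun y hy => hg1 y (hDne y hy)) (hg1 z (hDne z hz))

theorem cmap_01 {z : ℂ} (hz : z ∈ Q.arc 0 ∪ Q.arc 1) : (cmap Q φ z).im = 0 := by
  have hz3 := (sub_01 h hz).2
  obtain ⟨e0, e1⟩ := re_01 h hz
  have hr : φ z = ((φ z).re : ℂ) :=
    Complex.ext (by simp) (by simp [phi_im_zero h (sub_01 h hz).1 hz3])
  rw [cmap_of_ne Q φ hz3, hr, S_cardy e0 e1, Complex.ofReal_im]

theorem cmap_2 {z : ℂ} (hz : z ∈ Q.arc 2) : L2 (cmap Q φ z) = 0 := by
  by_cases hz3 : z = Q.mark 3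
  · rw [hz3, cmap_mark3, L2, v3]; ring_nf
  · have hr : φ z = ((φ z).re : ℂ) :=
      Complex.ext (by simp) (by simp [phi_im_zero h (arc_subset_frontier Q 2 hz) hz3])
    rw [cmap_of_ne Q φ hz3, hr]
    exact L2_S (re_2 h hz hz3)

theorem cmap_3 {z : ℂ} (hz : z ∈ Q.arc 3) : L3 (cmap Q φ z) = 0 := by
  by_cases hz3 : z = Q.mark 3
  · rw [hz3, cmap_mark3, L3, v3]; ring_nf
  · have hr : φ z = ((φ z).re : ℂ) :=
      Complex.ext (by simp) (by simp [phi_im_zero h (arc_subset_frontier Q 3 hz) hz3])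
    rw [cmap_of_ne Q φ hz3, hr]
    exact L3_S (re_3 h hz hz3)

theorem cmap_mark0 : cmap Q φ (Q.mark 0) = 0 := by
  rw [cmap_of_ne Q φ (mark_ne Q (by decide)), h.at_a, S_zero]

theorem cmap_mark1 : cmap Q φ (Q.mark 1) = (cardy x : ℂ) := by
  rw [cmap_of_ne Q φ (mark_ne Q (by decide)), h.at_b, S_cardy (x_mem h).1 (x_mem h).2]

theorem cmap_mark2 : cmap Q φ (Q.mark 2) = 1 := by
  rw [cmap_of_ne Q φ (mark_ne Q (by decide)), h.at_c, S_one]

/-- **The identification of the limit.** -/
theorem endgame_full {f : ℂ → ℂ} (hf : ContinuousOn f (closure Q.D))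
    (hf' : DifferentiableOn ℂ f Q.D) (h01 : ∀ z ∈ Q.arc 0 ∪ Q.arc 1, (f z).im = 0)
    (h2 : ∀ z ∈ Q.arc 2, L2 (f z) = 0) (h3 : ∀ z ∈ Q.arc 3, L3 (f z) = 0)
    {z : ℂ} (hz : z ∈ closure Q.D) : f z = cmap Q φ z := by
  have hw : DiffContOnCl ℂ (fun z => f z - cmap Q φ z) Q.D :=
    ⟨hf'.sub (differentiableOn_cmap h), hf.sub (continuousOn_cmap h)⟩
  have hkey : ∀ z ∈ frontier Q.D, ((f z - cmap Q φ z) ^ 3).im = 0 := by
    intro z hz
    rw [im_cube]
    rw [frontier_eq_arcs] at hz
    rcases hz with hz | hz | hz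
    · rw [Complex.sub_im, h01 z hz, cmap_01 h hz, sub_zero, zero_mul]
    · have hf2 := h2 z hz
      have hg2 := cmap_2 h hz
      have : √3 * (f z - cmap Q φ z).re + (f z - cmap Q φ z).im = 0 := by
        unfold L2 at hf2 hg2
        rw [Complex.sub_re, Complex.sub_im]
        linear_combination hf2 - hg2
      rw [this, mul_zero, mul_zero]
    · have hf2 := h3 z hz
      have hg2 := cmap_3 h hz
      have : √3 * (f z - cmap Q φ z).re - (f z - cmap Q φ z).im = 0 := by
        unfold L3 at hf2 hg2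
        rw [Complex.sub_re, Complex.sub_im]
        linear_combination hf2 - hg2
      rw [this, zero_mul, mul_zero]
  have ha : f (Q.mark 0) = 0 := by
    have e1 := h01 _ (Or.inl (mark_mem_arc Q 0))
    have e2 := h3 _ (show Q.mark 0 ∈ Q.arc 3 from mark_mem_arc' Q 3)
    unfold L3 at e2
    rw [e1, sub_zero] at e2
    have h3' : (√3 : ℝ) ≠ 0 := by positivity
    exact Complex.ext ((mul_eq_zero.1 e2).resolve_left h3') e1
  have hz0 : f (Q.mark 0) - cmap Q φ (Q.mark 0) = 0 := by
    rw [ha, cmap_mark0 h, sub_zero]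
  exact sub_eq_zero.1 (cube_unique (isOpen_D Q) (preconn_D Q) (isBounded_D Q) hw hkey
    (mark_mem_closure Q 0) hz0 z hz)

end

/-- **The identification of the limit at `b`.** -/
theorem endgame {Q : Quad} {φ : ℂ → ℂ} {x : ℝ} (h : Q.IsUniformizer φ x) {f : ℂ → ℂ}
    (hf : ContinuousOn f (closure Q.D)) (hf' : DifferentiableOn ℂ f Q.D)
    (h01 : ∀ z ∈ Q.arc 0 ∪ Q.arc 1, (f z).im = 0) (h2 : ∀ z ∈ Q.arc 2, L2 (f z) = 0)
    (h3 : ∀ z ∈ Q.arc 3, L3 (f z) = 0) :
    f (Q.mark 1) = (cardy x : ℂ) := by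
  rw [endgame_full h hf hf' h01 h2 h3 (mark_mem_closure Q 1), cmap_mark1 h]

/-! ### Antiholomorphic solutions do not exist -/

/-- A function on the closed upper half-plane, holomorphic inside, real on `[0,1]` and with
nonpositive imaginary part does not increase from `0` to `1`. -/
theorem half_anti {g : ℂ → ℂ} (hg : ContinuousOn g HB)
    (hg' : DifferentiableOn ℂ g {z | 0 < z.im}) (hneg : ∀ z ∈ HB, (g z).im ≤ 0)
    (hreal : ∀ t : ℝ, 0 ≤ t → t ≤ 1 → (g t).im = 0) : (g 1).re ≤ (g 0).re := by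
  by_contra hlt
  push Not at hlt
  set c := ((g 1).re - (g 0).re) / 3 with hc
  have hc0 : 0 < c := by rw [hc]; linarith
  -- vertical segments
  have hmem : ∀ a t : ℝ, 0 ≤ t → (⟨a, t⟩ : ℂ) ∈ HB := fun a t ht => ht
  have hcont : ∀ a : ℝ, ContinuousWithinAt (fun t : ℝ => (g ⟨a, t⟩).re) (Ici 0) 0 := by
    intro a
    have h1 : ContinuousWithinAt g HB ⟨a, 0⟩ := hg _ (hmem a 0 le_rfl)
    have h2 : ContinuousWithinAt (fun t : ℝ => (⟨a, t⟩ : ℂ)) (Ici 0) 0 := by
      have : Continuous fun t : ℝ => (⟨a, t⟩ : ℂ) := by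
        have e : (fun t : ℝ => (⟨a, t⟩ : ℂ)) = fun t : ℝ => (a : ℂ) + t * Complex.I := by
          funext t; apply Complex.ext <;> simp
        rw [e]; fun_prop
      exact this.continuousWithinAt
    exact Complex.continuous_re.continuousAt.comp_continuousWithinAt
      (ContinuousWithinAt.comp (t := HB) h1 h2 fun t ht => hmem a t ht)
  have hz0 : (⟨0, 0⟩ : ℂ) = 0 := rfl
  have hz1 : (⟨1, 0⟩ : ℂ) = 1 := rfl
  have e0 : ∀ᶠ t in 𝓝[Ici 0] (0 : ℝ), (g ⟨0, t⟩).re < (g 0).re + c := by
    have := (hcont 0).eventually_lt_const (u := (g 0).re + c)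
      (by show (g ⟨0, 0⟩).re < _; rw [hz0]; linarith)
    exact this
  have e1 : ∀ᶠ t in 𝓝[Ici 0] (0 : ℝ), (g 1).re - c < (g ⟨1, t⟩).re := by
    have := (hcont 1).eventually_const_lt (u := (g 1).re - c)
      (by show _ < (g ⟨1, 0⟩).re; rw [hz1]; linarith)
    exact this
  obtain ⟨y, hy, hyt⟩ : ∃ y : ℝ, 0 < y ∧ ∀ t ∈ Icc 0 y,
      (g ⟨0, t⟩).re < (g 0).re + c ∧ (g 1).re - c < (g ⟨1, t⟩).re := by
    have h1 := e0.and e1
    rw [eventually_nhdsWithin_iff, Metric.eventually_nhds_iff] at h1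
    obtain ⟨δ, hδ, hδt⟩ := h1
    refine ⟨δ / 2, by positivity, fun t ht => hδt ?_ ht.1⟩
    rw [Real.dist_eq, sub_zero, abs_of_nonneg ht.1]
    linarith [ht.2]
  have hrect := Complex.integral_boundary_rect_eq_zero_of_continuousOn_of_differentiableOn g
    (0 : ℂ) (⟨1, y⟩ : ℂ) (hg.mono ?_) (hg'.mono ?_)
  · simp only [Complex.zero_re, Complex.zero_im] at hrect
    have hic : ∀ a : ℝ, 0 ≤ a →
        ContinuousOn (fun t : ℝ => g (t + a * Complex.I)) (uIcc 0 1) := by
      intro a ha
      refine hg.comp (by fun_prop) fun t _ => ?_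
      show 0 ≤ ((t : ℂ) + a * Complex.I).im
      simpa using ha
    have hi := fun (a : ℝ) (ha : 0 ≤ a) =>
      (hic a ha).intervalIntegrable (μ := MeasureTheory.volume)
    have hjc : ∀ a : ℝ, ContinuousOn (fun t : ℝ => g (a + t * Complex.I)) (uIcc 0 y) := by
      intro a
      refine hg.comp (by fun_prop) fun t ht => ?_
      rw [uIcc_of_le hy.le] at ht
      show 0 ≤ ((a : ℂ) + t * Complex.I).im
      simpa using ht.1
    have hj := fun (a : ℝ) => (hjc a).intervalIntegrable (μ := MeasureTheory.volume)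
    have him := congrArg Complex.im hrect
    simp only [Complex.add_im, Complex.sub_im, smul_eq_mul, Complex.mul_im, Complex.I_re,
      Complex.I_im, zero_mul, one_mul, zero_add, Complex.zero_im] at him
    have k1 : (∫ t : ℝ in (0 : ℝ)..1, g (t + (0 : ℝ) * Complex.I)).im = 0 := by
      rw [← Complex.imCLM_apply, ← Complex.imCLM.intervalIntegral_comp_comm (hi 0 le_rfl)]
      rw [intervalIntegral.integral_congr (g := fun _ => (0 : ℝ))]
      · simp
      · intro t ht
        rw [uIcc_of_le zero_le_one] at ht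
        simp only [Complex.imCLM_apply, Complex.ofReal_zero, zero_mul, add_zero]
        exact hreal t ht.1 ht.2
    have k2 : (∫ t : ℝ in (0 : ℝ)..1, g (t + y * Complex.I)).im ≤ 0 := by
      rw [← Complex.imCLM_apply, ← Complex.imCLM.intervalIntegral_comp_comm (hi y hy.le)]
      have h1 := (Complex.imCLM.continuous.comp_continuousOn
        (hic y hy.le)).intervalIntegrable (μ := MeasureTheory.volume)
      have := intervalIntegral.integral_mono_on (f := (⇑Complex.imCLM) ∘ fun t : ℝ => g (t + y * Complex.I))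
        (g := fun _ => (0 : ℝ)) zero_le_one h1 intervalIntegrable_const (fun t _ => ?_)
      · simpa using this
      · refine hneg _ ?_
        show 0 ≤ ((t : ℂ) + y * Complex.I).im
        simpa using hy.le
    have k3 : y * ((g 1).re - c) ≤ (∫ t : ℝ in (0 : ℝ)..y, g ((1 : ℝ) + t * Complex.I)).re := by
      rw [← Complex.reCLM_apply (∫ t : ℝ in (0 : ℝ)..y, g ((1 : ℝ) + t * Complex.I)),
        ← Complex.reCLM.intervalIntegral_comp_comm (hj 1)]
      have h1 := (Complex.reCLM.continuous.comp_continuousOn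
        (hjc 1)).intervalIntegrable (μ := MeasureTheory.volume)
      have := intervalIntegral.integral_mono_on (g := (⇑Complex.reCLM) ∘ fun t : ℝ => g ((1 : ℝ) + t * Complex.I))
        (f := fun _ => (g 1).re - c) hy.le intervalIntegrable_const h1 (fun t ht => ?_)
      · rwa [intervalIntegral.integral_const, smul_eq_mul, sub_zero] at this
      · have := (hyt t ht).2.le
        have e : (⟨1, t⟩ : ℂ) = (1 : ℝ) + t * Complex.I := by apply Complex.ext <;> simp
        rw [e] at this
        exact this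
    have k4 : (∫ t : ℝ in (0 : ℝ)..y, g ((0 : ℝ) + t * Complex.I)).re ≤ y * ((g 0).re + c) := by
      rw [← Complex.reCLM_apply, ← Complex.reCLM.intervalIntegral_comp_comm (hj 0)]
      have h1 := (Complex.reCLM.continuous.comp_continuousOn
        (hjc 0)).intervalIntegrable (μ := MeasureTheory.volume)
      have := intervalIntegral.integral_mono_on (f := (⇑Complex.reCLM) ∘ fun t : ℝ => g ((0 : ℝ) + t * Complex.I))
        (g := fun _ => (g 0).re + c) hy.le h1 intervalIntegrable_const (fun t ht => ?_)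
      · rwa [intervalIntegral.integral_const, smul_eq_mul, sub_zero] at this
      · have := (hyt t ht).1.le
        have e : (⟨0, t⟩ : ℂ) = (0 : ℝ) + t * Complex.I := by apply Complex.ext <;> simp
        rw [e] at this
        exact this
    have k5 : y * ((g 0).re + c) < y * ((g 1).re - c) :=
      mul_lt_mul_of_pos_left (by rw [hc]; linarith) hy
    linarith
  · intro z hz
    rw [Complex.mem_reProdIm] at hz
    have := hz.2
    simp only [Complex.zero_im] at this
    rw [uIcc_of_le hy.le] at this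
    exact this.1
  · intro z hz
    rw [Complex.mem_reProdIm] at hz
    have := hz.2
    simp only [Complex.zero_im] at this
    rw [min_eq_left hy.le] at this
    exact this.1

/-- **There is no antiholomorphic solution.** -/
theorem no_anti {Q : Quad} {φ : ℂ → ℂ} {x : ℝ} (h : Q.IsUniformizer φ x) {f : ℂ → ℂ}
    (hf : ContinuousOn f (closure Q.D)) (hf' : DifferentiableOn ℂ (fun z => conj (f z)) Q.D)
    (hpos : ∀ z ∈ closure Q.D, 0 ≤ (f z).im) (h01 : ∀ z ∈ Q.arc 0 ∪ Q.arc 1, (f z).im = 0) :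
    (f (Q.mark 2)).re ≤ (f (Q.mark 0)).re := by
  obtain ⟨Φ, hΦ, hinj, hΦ1, hΦφ⟩ := exists_param h
  have hI := I_im_pos
  set m : ℂ → ℂ := mb 1 Complex.I with hm
  have hmB : ∀ z ∈ HB, m z ∈ closedBall (0 : ℂ) 1 := fun z hz => mb_mem_closedBall norm_one hI hz
  have hm1 : ∀ z ∈ HB, m z ≠ 1 := fun z hz => mb_ne norm_one hI hz
  have hcl : ∀ z ∈ HB, Φ (m z) ∈ closure Q.D := fun z hz => by
    rw [← hΦ.closure_eq]; exact mem_image_of_mem _ (hmB z hz)
  have hφm : ∀ z ∈ HB, φ (Φ (m z)) = z := fun z hz => by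
    rw [hΦφ _ (hmB z hz) (hm1 z hz), imb_mb norm_one hI hz]
  have hne3 : ∀ z ∈ HB, Φ (m z) ≠ Q.mark 3 := by
    intro z hz he
    rw [← hΦ1] at he
    exact hm1 z hz (hinj (hmB z hz) (by simp) he)
  have hcont : ContinuousOn (fun z => conj (f (Φ (m z)))) HB := by
    refine Complex.continuous_conj.comp_continuousOn ?_
    exact hf.comp (hΦ.cont.comp (mb_continuousOn hI) hmB) hcl
  have hdiff : DifferentiableOn ℂ (fun z => conj (f (Φ (m z)))) {z | 0 < z.im} := by
    intro z hz
    have hb : m z ∈ ball (0 : ℂ) 1 := by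
      rw [mem_ball_zero_iff]; exact norm_mb_lt norm_one hI hz
    have h1 : DifferentiableAt ℂ Φ (m z) := hΦ.diff.differentiableAt (isOpen_ball.mem_nhds hb)
    have h2 : DifferentiableAt ℂ m z := mb_differentiableAt hI (le_of_lt hz)
    have h3 : DifferentiableAt ℂ (fun z => conj (f z)) (Φ (m z)) :=
      hf'.differentiableAt ((isOpen_D Q).mem_nhds (hΦ.mem hb))
    have h4 : DifferentiableAt ℂ (fun z => Φ (m z)) z := h1.comp z h2
    exact (DifferentiableAt.comp (g := fun z => conj (f z)) z h3 h4).differentiableWithinAt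
  have hinv : ∀ t : ℝ, 0 ≤ t → t ≤ 1 → Φ (m t) ∈ Q.arc 0 ∪ Q.arc 1 := by
    intro t h0 h1
    obtain ⟨p, hp, hpt⟩ := Icc_sub_01 h ⟨h0, h1⟩
    have htB : (t : ℂ) ∈ HB := by show (0 : ℝ) ≤ (t : ℂ).im; simp
    have hp3 := (sub_01 h hp).2
    have e : φ p = t := Complex.ext (by simpa using hpt)
      (by simp [phi_im_zero h (sub_01 h hp).1 hp3])
    have : Φ (m t) = p := by
      refine phi_injOn h ⟨hcl _ htB, hne3 _ htB⟩ ⟨(frontier_subset_closure (sub_01 h hp).1), hp3⟩ ?_
      rw [hφm _ htB, e]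
    rw [this]; exact hp
  have key := half_anti hcont hdiff (fun z hz => by
      rw [Complex.conj_im]; exact neg_nonpos.2 (hpos _ (hcl z hz)))
    (fun t h0 h1 => by rw [Complex.conj_im, h01 _ (hinv t h0 h1), neg_zero])
  have h0B : (0 : ℂ) ∈ HB := by show (0 : ℝ) ≤ (0 : ℂ).im; simp
  have h1B : (1 : ℂ) ∈ HB := by show (0 : ℝ) ≤ (1 : ℂ).im; simp
  have hm0 : Φ (m 0) = Q.mark 0 := by
    refine phi_injOn h ⟨hcl _ h0B, hne3 _ h0B⟩ ⟨mark_mem_closure Q 0, mark_ne Q (by decide)⟩ ?_
    rw [hφm _ h0B, h.at_a]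
  have hm2 : Φ (m 1) = Q.mark 2 := by
    refine phi_injOn h ⟨hcl _ h1B, hne3 _ h1B⟩ ⟨mark_mem_closure Q 2, mark_ne Q (by decide)⟩ ?_
    rw [hφm _ h1B, h.at_c]
  simp only [Complex.conj_re] at key
  rwa [hm0, hm2] at key

end Vale.Agent.P148.R2.H219
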