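import Mathlib

/-!
# Weyl's lemma for the Cauchy–Riemann operator

A continuous function whose integral against `∂̄ χ` vanishes for every test function `χ` is
holomorphic; the same for `∂ χ` and antiholomorphic functions.
-/

open Set Metric Filter Topology MeasureTheory Function
open scoped ComplexConjugate Convolution ContDiff

namespace Vale.Agent.P148.R2.H219

/-- Twice the Cauchy–Riemann operator `∂̄` applied to the real function `χ`. -/
noncomputable def dbar (χ : ℂ → ℝ) (z : ℂ) : ℂ :=
  (fderiv ℝ χ z 1 : ℂ) + Complex.I * (fderiv ℝ χ z Complex.I : ℂ)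

/-- Twice the operator `∂` applied to the real function `χ`. -/
noncomputable def ddd (χ : ℂ → ℝ) (z : ℂ) : ℂ :=
  (fderiv ℝ χ z 1 : ℂ) - Complex.I * (fderiv ℝ χ z Complex.I : ℂ)

/-- A smooth real test function with compact support in `D`. -/
structure IsTest (D : Set ℂ) (χ : ℂ → ℝ) : Prop where
  smooth : ContDiff ℝ ∞ χ
  compact : HasCompactSupport χ
  supp : tsupport χ ⊆ D

theorem conj_dbar (χ : ℂ → ℝ) (z : ℂ) : conj (dbar χ z) = ddd χ z := by
  simp [dbar, ddd, sub_eq_add_neg]

theorem conj_ddd (χ : ℂ → ℝ) (z : ℂ) : conj (ddd χ z) = dbar χ z := by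
  simp [dbar, ddd]

theorem IsTest.continuous_dbar {D : Set ℂ} {χ : ℂ → ℝ} (h : IsTest D χ) :
    Continuous (dbar χ) := by
  have h1 : Continuous (fderiv ℝ χ) := h.smooth.continuous_fderiv (by simp)
  have h2 : ∀ v : ℂ, Continuous fun z => (fderiv ℝ χ z v : ℝ) := fun v =>
    h1.clm_apply continuous_const
  exact (Complex.continuous_ofReal.comp (h2 1)).add
    (continuous_const.mul (Complex.continuous_ofReal.comp (h2 Complex.I)))

theorem dbar_eq_zero {χ : ℂ → ℝ} {z : ℂ} (h : z ∉ tsupport χ) : dbar χ z = 0 := by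
  have h1 : fderiv ℝ χ z = 0 := by
    by_contra h2
    exact h (support_fderiv_subset ℝ h2)
  simp [dbar, h1]

theorem IsTest.compact_dbar {D : Set ℂ} {χ : ℂ → ℝ} (h : IsTest D χ) :
    HasCompactSupport (dbar χ) :=
  HasCompactSupport.intro h.compact fun _ hz => dbar_eq_zero hz

theorem IsTest.bound_dbar {D : Set ℂ} {χ : ℂ → ℝ} (h : IsTest D χ) :
    ∃ C : ℝ, 0 ≤ C ∧ ∀ z, ‖dbar χ z‖ ≤ C := by
  obtain ⟨C, hC⟩ := h.continuous_dbar.norm.bddAbove_range_of_hasCompactSupport h.compact_dbar.norm
  exact ⟨max C 0, le_max_right _ _, fun z => (hC ⟨z, rfl⟩).trans (le_max_left _ _)⟩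

theorem norm_ddd (χ : ℂ → ℝ) (z : ℂ) : ‖ddd χ z‖ = ‖dbar χ z‖ := by
  rw [← conj_dbar, RCLike.norm_conj]

/-- The smoothing of a function supported in a ball is holomorphic when the function has weak
`∂̄` derivative zero. -/
theorem conv_holo {f : ℂ → ℂ} {D : Set ℂ} {z0 : ℂ} {r : ℝ}
    (hB : closedBall z0 (2 * r) ⊆ D) (hf : ContinuousOn f D)
    (hw : ∀ χ : ℂ → ℝ, IsTest D χ → ∫ z, dbar χ z * f z = 0)
    (φ : ContDiffBump (0 : ℂ)) (hφ : φ.rOut < r) {x : ℂ} (hx : x ∈ ball z0 r) :
    DifferentiableAt ℂ (φ.normed volume ⋆[ContinuousLinearMap.lsmul ℝ ℝ, volume]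
      ((closedBall z0 (2 * r)).indicator f)) x := by
  set g : ℂ → ℂ := (closedBall z0 (2 * r)).indicator f with hg
  set ρ : ℂ → ℝ := φ.normed volume with hρ
  have hρc : ContDiff ℝ ∞ ρ := φ.contDiff_normed
  have hρs : HasCompactSupport ρ := φ.hasCompactSupport_normed
  have hgi : Integrable g volume := by
    rw [hg, integrable_indicator_iff measurableSet_closedBall]
    exact (hf.mono hB).integrableOn_compact (isCompact_closedBall _ _)
  have hgl : LocallyIntegrable g volume := hgi.locallyIntegrable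
  have hd := hρs.hasFDerivAt_convolution_left (μ := volume) (ContinuousLinearMap.lsmul ℝ ℝ : ℝ →L[ℝ] ℂ →L[ℝ] ℂ)
    (hρc.of_le (by simp)) hgl x
  -- the value of the derivative
  have hval : ∀ v : ℂ, ((fderiv ℝ ρ ⋆[(ContinuousLinearMap.lsmul ℝ ℝ : ℝ →L[ℝ] ℂ →L[ℝ] ℂ).precompL ℂ, volume] g) x) v
      = ∫ t, (fderiv ℝ ρ (x - t) v : ℂ) * g t := by
    intro v
    have hex : ConvolutionExistsAt (fderiv ℝ ρ) g x ((ContinuousLinearMap.lsmul ℝ ℝ : ℝ →L[ℝ] ℂ →L[ℝ] ℂ).precompL ℂ) volume :=
      (hρs.fderiv ℝ).convolutionExists_left _ (hρc.continuous_fderiv (by simp)) hgl x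
    rw [convolution, ContinuousLinearMap.integral_apply hex]
    rw [← integral_sub_left_eq_self (fun t => (fderiv ℝ ρ (x - t) v : ℂ) * g t) volume x]
    refine integral_congr_ae (Eventually.of_forall fun t => ?_)
    simp [ContinuousLinearMap.precompL_apply]
  rw [differentiableAt_complex_iff_differentiableAt_real]
  refine ⟨hd.differentiableAt, ?_⟩
  rw [hd.fderiv, hval, hval]
  -- the test function
  set χ : ℂ → ℝ := fun t => ρ (x - t) with hχ
  have hts : tsupport χ ⊆ closedBall x φ.rOut := by
    refine closure_minimal ?_ isClosed_closedBall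
    intro t ht
    have h1 : x - t ∈ support ρ := ht
    rw [hρ, φ.support_normed_eq, mem_ball_zero_iff] at h1
    rw [mem_closedBall, dist_comm, dist_eq_norm]
    exact h1.le
  have hsub : closedBall x φ.rOut ⊆ closedBall z0 (2 * r) := by
    intro t ht
    rw [mem_closedBall] at ht ⊢
    rw [mem_ball] at hx
    have := dist_triangle t x z0
    linarith
  have hT : IsTest D χ := by
    refine ⟨hρc.comp (contDiff_const.sub contDiff_id), ?_, hts.trans (hsub.trans hB)⟩
    exact HasCompactSupport.of_support_subset_isCompact (isCompact_closedBall x φ.rOut)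
      (subset_closure.trans hts)
  have hfd : ∀ t v : ℂ, fderiv ℝ χ t v = -fderiv ℝ ρ (x - t) v := by
    intro t v
    have h1 : HasFDerivAt χ ((fderiv ℝ ρ (x - t)).comp (-(ContinuousLinearMap.id ℝ ℂ))) t := by
      have h2 : HasFDerivAt ρ (fderiv ℝ ρ (x - t)) (x - t) :=
        (hρc.differentiable (by simp)).differentiableAt.hasFDerivAt
      have h3 : HasFDerivAt (fun t : ℂ => x - t) (-(ContinuousLinearMap.id ℝ ℂ)) t := by
        simpa using (hasFDerivAt_id (𝕜 := ℝ) t).const_sub x
      exact h2.comp t h3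
    rw [h1.fderiv]
    simp
  have hw' := hw χ hT
  have hint : ∀ v : ℂ, Integrable (fun t => (fderiv ℝ ρ (x - t) v : ℂ) * g t) volume := by
    intro v
    have hc : Continuous fun t => (fderiv ℝ ρ (x - t) v : ℂ) := by
      have h1 : Continuous (fderiv ℝ ρ) := hρc.continuous_fderiv (by simp)
      exact Complex.continuous_ofReal.comp
        ((h1.comp (continuous_const.sub continuous_id)).clm_apply continuous_const)
    obtain ⟨C, hC⟩ : ∃ C, ∀ t, ‖((fderiv ℝ ρ (x - t) v : ℝ) : ℂ)‖ ≤ C := by
      have hcs : HasCompactSupport fun t => ((fderiv ℝ ρ (x - t) v : ℝ) : ℂ) := by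
        refine HasCompactSupport.intro hT.compact fun t ht => ?_
        have h1 : fderiv ℝ χ t = 0 := by
          by_contra h2
          exact ht (support_fderiv_subset ℝ h2)
        have h2 := hfd t v
        rw [h1] at h2
        simp only [zero_apply, zero_eq_neg] at h2
        rw [h2]; simp
      obtain ⟨C, hC⟩ := hc.norm.bddAbove_range_of_hasCompactSupport hcs.norm
      exact ⟨C, fun t => hC ⟨t, rfl⟩⟩
    exact hgi.bdd_mul hc.aestronglyMeasurable (Eventually.of_forall hC)
  have hz : (∫ t, (fderiv ℝ ρ (x - t) 1 : ℂ) * g t)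
      + Complex.I * (∫ t, (fderiv ℝ ρ (x - t) Complex.I : ℂ) * g t) = 0 := by
    rw [← integral_const_mul, ← integral_add (hint 1) ((hint Complex.I).const_mul _)]
    have h1 : (∫ t, ((fderiv ℝ ρ (x - t) 1 : ℂ) * g t
        + Complex.I * ((fderiv ℝ ρ (x - t) Complex.I : ℂ) * g t))) = ∫ t, -(dbar χ t * f t) := by
      refine integral_congr_ae (Eventually.of_forall fun t => ?_)
      by_cases ht : t ∈ closedBall z0 (2 * r)
      · simp only [hg, indicator_of_mem ht, dbar, hfd]
        push_cast
        ring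
      · have h2 : t ∉ tsupport χ := fun h => ht (hsub (hts h))
        simp only [hg, indicator_of_notMem ht, dbar_eq_zero h2]
        simp
    rw [h1, integral_neg, hw', neg_zero]
  rw [smul_eq_mul]
  have hI : Complex.I * Complex.I = -1 := Complex.I_mul_I
  linear_combination (-Complex.I) * hz + (∫ t, (fderiv ℝ ρ (x - t) Complex.I : ℂ) * g t) * hI

/-- **Weyl's lemma for `∂̄`.** -/
theorem holo_of_weak {D : Set ℂ} (hD : IsOpen D) {f : ℂ → ℂ} (hf : ContinuousOn f D)
    (hw : ∀ χ : ℂ → ℝ, IsTest D χ → ∫ z, dbar χ z * f z = 0) : DifferentiableOn ℂ f D := by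
  intro z0 hz0
  obtain ⟨R, hR, hRD⟩ := Metric.isOpen_iff.1 hD z0 hz0
  set r := R / 3 with hr
  have hr0 : 0 < r := by positivity
  have hB : closedBall z0 (2 * r) ⊆ D := by
    refine (closedBall_subset_ball ?_).trans hRD
    rw [hr]; linarith
  set g : ℂ → ℂ := (closedBall z0 (2 * r)).indicator f with hg
  have hu : UniformContinuousOn f (closedBall z0 (2 * r)) :=
    (isCompact_closedBall _ _).uniformContinuousOn_of_continuous (hf.mono hB)
  -- the bumps
  have hbump : ∀ n : ℕ, 0 < r / (n + 2) := fun n => by positivity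
  let φ : ℕ → ContDiffBump (0 : ℂ) := fun n =>
    ⟨r / (n + 2) / 2, r / (n + 2), by have := hbump n; positivity, by have := hbump n; linarith⟩
  have hφ : ∀ n, (φ n).rOut < r := by
    intro n
    show r / (n + 2) < r
    rw [div_lt_iff₀ (by positivity)]
    nlinarith [(n.cast_nonneg : (0 : ℝ) ≤ n)]
  have hgm : AEStronglyMeasurable g volume := by
    have : Integrable g volume := by
      rw [hg, integrable_indicator_iff measurableSet_closedBall]
      exact (hf.mono hB).integrableOn_compact (isCompact_closedBall _ _)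
    exact this.aestronglyMeasurable
  set F : ℕ → ℂ → ℂ := fun n =>
    ((φ n).normed volume ⋆[ContinuousLinearMap.lsmul ℝ ℝ, volume] g) with hF
  have hlim : TendstoUniformlyOn F f atTop (ball z0 r) := by
    rw [Metric.tendstoUniformlyOn_iff]
    intro ε hε
    obtain ⟨δ, hδ, hδf⟩ := Metric.uniformContinuousOn_iff.1 hu (ε / 2) (by positivity)
    have h1 : Tendsto (fun n : ℕ => r / ((n : ℝ) + 2)) atTop (𝓝 0) :=
      tendsto_const_nhds.div_atTop (tendsto_atTop_add_const_right _ _ tendsto_natCast_atTop_atTop)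
    filter_upwards [h1.eventually_lt_const hδ] with n hn x hx
    have hxB : x ∈ closedBall z0 (2 * r) := by
      rw [mem_closedBall]; rw [mem_ball] at hx; linarith
    have hgx : g x = f x := by rw [hg, indicator_of_mem hxB]
    have h2 : dist (F n x) (g x) ≤ ε / 2 := by
      refine (φ n).dist_normed_convolution_le hgm fun y hy => ?_
      have hyB : y ∈ closedBall z0 (2 * r) := by
        rw [mem_ball] at hx hy
        rw [mem_closedBall]
        have := dist_triangle y x z0
        have h3 := hφ n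
        linarith
      rw [hgx, hg, indicator_of_mem hyB]
      refine (hδf y hyB x hxB ?_).le
      rw [mem_ball] at hy
      exact hy.trans hn
    rw [dist_comm, ← hgx]
    linarith
  have hdF : ∀ n, DifferentiableOn ℂ (F n) (ball z0 r) := fun n x hx =>
    (conv_holo hB hf hw (φ n) (hφ n) hx).differentiableWithinAt
  have hdf : DifferentiableOn ℂ f (ball z0 r) :=
    hlim.tendstoLocallyUniformlyOn.differentiableOn (Eventually.of_forall hdF) isOpen_ball
  exact ((hdf z0 (mem_ball_self hr0)).differentiableAt (ball_mem_nhds z0 hr0)).differentiableWithinAt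

/-- **Weyl's lemma for `∂`.** -/
theorem antiholo_of_weak {D : Set ℂ} (hD : IsOpen D) {f : ℂ → ℂ} (hf : ContinuousOn f D)
    (hw : ∀ χ : ℂ → ℝ, IsTest D χ → ∫ z, ddd χ z * f z = 0) :
    DifferentiableOn ℂ (fun z => conj (f z)) D := by
  refine holo_of_weak hD (Complex.continuous_conj.comp_continuousOn hf) fun χ hχ => ?_
  have h1 := congrArg conj (hw χ hχ)
  rw [map_zero, ← integral_conj] at h1
  rw [← h1]
  refine integral_congr_ae (Eventually.of_forall fun z => ?_)
  simp only [map_mul, conj_ddd]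

end Vale.Agent.P148.R2.H219
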