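import Vale.Agent.P148.R2.H219.End1
import Vale.Agent.P148.R2.H219.End2

/-!
# The limit theorem

Functions `F i` on `D`, bounded, asymptotically equicontinuous up to the boundary, with asymptotic
boundary conditions, and asymptotically holomorphic in the weak sense, converge to the conformal
map onto the equilateral triangle.
-/

open Set Metric Filter Topology Bornology MeasureTheory
open scoped ComplexConjugate

namespace Vale.Agent.P148.R2.H219

open _root_.P148 _root_.P148.Half Vale.Agent.P153.R2.R1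

variable {ι : Type*}

/-- Asymptotic equicontinuity on `D` up to the boundary. -/
def AEqui (l : Filter ι) (D : Set ℂ) (F : ι → ℂ → ℂ) : Prop :=
  ∀ p ∈ closure D, ∀ η > 0, ∃ δ > 0, ∀ᶠ i in l, ∀ z ∈ D, ∀ w ∈ D, dist z p < δ → dist w p < δ →
    dist (F i z) (F i w) ≤ η

/-- `T (F i z)` tends to zero when `z` tends to a point of `B`. -/
def BdZero (l : Filter ι) (D : Set ℂ) (F : ι → ℂ → ℂ) (T : ℂ → ℝ) (B : Set ℂ) : Prop :=
  ∀ b ∈ B, ∀ η > 0, ∃ δ > 0, ∀ᶠ i in l, ∀ z ∈ D, dist z b < δ → |T (F i z)| ≤ η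

/-- The integral of `F i` against `k` tends to zero (up to uniformly small changes of `F i`). -/
def WeakSmall (l : Filter ι) (F : ι → ℂ → ℂ) (k : ℂ → ℂ) : Prop :=
  ∀ η > 0, ∀ᶠ i in l, ∃ G : ℂ → ℂ, Integrable (fun z => k z * G z) ∧
    (∀ z ∈ tsupport k, ‖G z - F i z‖ ≤ η) ∧ ‖∫ z, k z * G z‖ ≤ η

/-- `F i` tends to `f` locally uniformly up to the boundary. -/
def LimAt (l : Filter ι) (D : Set ℂ) (F : ι → ℂ → ℂ) (f : ℂ → ℂ) (p : ℂ) : Prop :=
  ∀ η > 0, ∃ δ > 0, ∀ᶠ i in l, ∀ z ∈ D, dist z p < δ → dist (F i z) (f p) ≤ η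

theorem AEqui.mono {l l' : Filter ι} (h : l' ≤ l) {D : Set ℂ} {F : ι → ℂ → ℂ} (hF : AEqui l D F) :
    AEqui l' D F := fun p hp η hη => by
  obtain ⟨δ, hδ, h1⟩ := hF p hp η hη
  exact ⟨δ, hδ, h1.filter_mono h⟩

theorem BdZero.mono {l l' : Filter ι} (h : l' ≤ l) {D : Set ℂ} {F : ι → ℂ → ℂ} {T : ℂ → ℝ}
    {B : Set ℂ} (hF : BdZero l D F T B) : BdZero l' D F T B := fun p hp η hη => by
  obtain ⟨δ, hδ, h1⟩ := hF p hp η hη
  exact ⟨δ, hδ, h1.filter_mono h⟩

theorem WeakSmall.mono {l l' : Filter ι} (h : l' ≤ l) {F : ι → ℂ → ℂ} {k : ℂ → ℂ}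
    (hF : WeakSmall l F k) : WeakSmall l' F k := fun η hη => (hF η hη).filter_mono h

/-- Existence of the limit along an ultrafilter. -/
theorem exists_limit (u : Ultrafilter ι) {D : Set ℂ} {F : ι → ℂ → ℂ} {C : ℝ}
    (hb : ∀ᶠ i in (u : Filter ι), ∀ z ∈ D, ‖F i z‖ ≤ C) (he : AEqui (u : Filter ι) D F) :
    ∃ f : ℂ → ℂ, ContinuousOn f (closure D) ∧ ∀ p ∈ closure D, LimAt (u : Filter ι) D F f p := by
  -- pointwise limits
  have hpt : ∀ z ∈ D, ∃ y, Tendsto (fun i => F i z) u (𝓝 y) := by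
    intro z hz
    have h1 : ∀ᶠ i in (u : Filter ι), F i z ∈ closedBall (0 : ℂ) C := by
      filter_upwards [hb] with i hi
      rw [mem_closedBall_zero_iff]; exact hi z hz
    obtain ⟨y, -, hy⟩ := (isCompact_closedBall (0 : ℂ) C).ultrafilter_le_nhds
      (u.map fun i => F i z) (by
        rw [le_principal_iff]; exact h1)
    exact ⟨y, hy⟩
  choose! g hg using hpt
  -- limits at the points of the closure
  have hext : ∀ p ∈ closure D, ∃ y, ∀ η > 0, ∃ δ > 0, ∀ᶠ i in (u : Filter ι), ∀ z ∈ D,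
      dist z p < δ → dist (F i z) y ≤ η := by
    intro p hp
    have hne : (𝓝[D] p).NeBot := mem_closure_iff_nhdsWithin_neBot.1 hp
    have hcau : Cauchy (map g (𝓝[D] p)) := by
      rw [Metric.cauchy_iff]
      refine ⟨hne.map g, fun ε hε => ?_⟩
      obtain ⟨δ, hδ, h1⟩ := he p hp (ε / 2) (by positivity)
      refine ⟨g '' (D ∩ ball p δ), image_mem_map (inter_mem_nhdsWithin D (ball_mem_nhds p hδ)), ?_⟩
      rintro _ ⟨z, hz, rfl⟩ _ ⟨w, hw, rfl⟩
      have h2 : dist (g z) (g w) ≤ ε / 2 := by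
        refine le_of_tendsto ((hg z hz.1).dist (hg w hw.1)) ?_
        filter_upwards [h1] with i hi
        exact hi z hz.1 w hw.1 hz.2 hw.2
      linarith
    obtain ⟨y, hy⟩ := CompleteSpace.complete hcau
    refine ⟨y, fun η hη => ?_⟩
    obtain ⟨δ, hδ, h1⟩ := he p hp (η / 3) (by positivity)
    have h2 : ∀ᶠ z in 𝓝[D] p, dist (g z) y < η / 3 :=
      (show Tendsto g (𝓝[D] p) (𝓝 y) from hy).eventually (ball_mem_nhds y (by positivity))
    have h3 : ∀ᶠ z in 𝓝[D] p, z ∈ D ∧ dist z p < δ :=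
      inter_mem_nhdsWithin D (ball_mem_nhds p hδ)
    obtain ⟨z0, h4, h5, h6⟩ := (h2.and h3).exists
    refine ⟨δ, hδ, ?_⟩
    have h7 : ∀ᶠ i in (u : Filter ι), dist (F i z0) (g z0) < η / 3 :=
      (hg z0 h5).eventually (ball_mem_nhds _ (by positivity))
    filter_upwards [h1, h7] with i h8 h9 z hz hzp
    have h10 := h8 z hz z0 h5 hzp h6
    have := dist_triangle (F i z) (F i z0) y
    have := dist_triangle (F i z0) (g z0) y
    linarith
  choose! f hf using hext
  refine ⟨f, ?_, hf⟩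
  intro p hp
  rw [Metric.continuousWithinAt_iff]
  intro ε hε
  obtain ⟨δ, hδ, h1⟩ := hf p hp (ε / 3) (by positivity)
  refine ⟨δ, hδ, fun {q} hq hqp => ?_⟩
  obtain ⟨δ', hδ', h2⟩ := hf q hq (ε / 3) (by positivity)
  have h3 : ∀ᶠ z in 𝓝[D] q, z ∈ D ∧ dist z q < δ' :=
    inter_mem_nhdsWithin D (ball_mem_nhds q hδ')
  have h4 : ∀ᶠ z in 𝓝[D] q, dist z p < δ :=
    mem_nhdsWithin_of_mem_nhds (isOpen_ball.mem_nhds (show q ∈ ball p δ from hqp))
  have hne : (𝓝[D] q).NeBot := mem_closure_iff_nhdsWithin_neBot.1 hq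
  obtain ⟨z, ⟨h5, h6⟩, h7⟩ := (h3.and h4).exists
  obtain ⟨i, h8, h9⟩ := (h1.and h2).exists
  have h10 := h8 z h5 h7
  have h11 := h9 z h5 h6
  have := dist_triangle (f q) (F i z) (f p)
  rw [dist_comm (f q) (F i z)] at this
  linarith

/-- Locally uniform limits up to the boundary are uniform. -/
theorem LimAt.uniform {l : Filter ι} {D : Set ℂ} (hD : IsCompact (closure D)) {F : ι → ℂ → ℂ}
    {f : ℂ → ℂ} (hf : ContinuousOn f (closure D)) (h : ∀ p ∈ closure D, LimAt l D F f p)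
    {η : ℝ} (hη : 0 < η) : ∀ᶠ i in l, ∀ z ∈ D, dist (F i z) (f z) ≤ η := by
  have h1 : ∀ p ∈ closure D, ∃ t ∈ 𝓝[closure D] p, ∀ᶠ i in l, ∀ z ∈ D, z ∈ t →
      dist (F i z) (f z) ≤ η := by
    intro p hp
    obtain ⟨δ, hδ, h2⟩ := h p hp (η / 2) (by positivity)
    have h3 : ∀ᶠ z in 𝓝[closure D] p, dist (f z) (f p) < η / 2 :=
      (hf p hp).eventually (ball_mem_nhds _ (by positivity))
    have h4 : ∀ᶠ z in 𝓝[closure D] p, dist z p < δ :=
      mem_nhdsWithin_of_mem_nhds (ball_mem_nhds p hδ)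
    refine ⟨_, h3.and h4, ?_⟩
    filter_upwards [h2] with i hi z hz hzt
    have h5 := hi z hz hzt.2
    have h6 : dist (f z) (f p) < η / 2 := hzt.1
    have := dist_triangle_right (F i z) (f z) (f p)
    linarith
  choose! t ht ht' using h1
  obtain ⟨s, hs, hcov⟩ := hD.elim_nhdsWithin_subcover t ht
  have h2 : ∀ᶠ i in l, ∀ p ∈ s, ∀ z ∈ D, z ∈ t p → dist (F i z) (f z) ≤ η :=
    (Filter.eventually_all_finset s).2 fun p hp => ht' p (hs p hp)
  filter_upwards [h2] with i hi z hz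
  obtain ⟨p, hp, hzp⟩ := mem_iUnion₂.1 (hcov (subset_closure hz))
  exact hi p hp z hz hzp

theorem LimAt.tendsto {l : Filter ι} {D : Set ℂ} {F : ι → ℂ → ℂ} {f : ℂ → ℂ} {p : ℂ}
    (h : LimAt l D F f p) (hp : p ∈ D) : Tendsto (fun i => F i p) l (𝓝 (f p)) := by
  rw [Metric.tendsto_nhds]
  intro ε hε
  obtain ⟨δ, hδ, h1⟩ := h (ε / 2) (by positivity)
  filter_upwards [h1] with i hi
  have := hi p hp (by rw [dist_self]; exact hδ)
  linarith

theorem BdZero.limit {l : Filter ι} [l.NeBot] {D : Set ℂ} {F : ι → ℂ → ℂ} {f : ℂ → ℂ}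
    {T : ℂ → ℝ} {B : Set ℂ} (hT : Continuous T) (hB : BdZero l D F T B) {b : ℂ} (hb : b ∈ B)
    (hbD : b ∈ closure D) (h : LimAt l D F f b) : T (f b) = 0 := by
  by_contra hne
  have hpos : 0 < |T (f b)| := abs_pos.2 hne
  obtain ⟨η, hη, h1⟩ := Metric.continuous_iff.1 hT (f b) (|T (f b)| / 2) (by positivity)
  obtain ⟨δ, hδ, h2⟩ := h (η / 2) (by positivity)
  obtain ⟨δ', hδ', h3⟩ := hB b hb (|T (f b)| / 3) (by positivity)
  have hne : (𝓝[D] b).NeBot := mem_closure_iff_nhdsWithin_neBot.1 hbD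
  have h4 : ∀ᶠ z in 𝓝[D] b, z ∈ D ∧ dist z b < min δ δ' :=
    inter_mem_nhdsWithin D (ball_mem_nhds b (lt_min hδ hδ'))
  obtain ⟨z, hz, hzb⟩ := h4.exists
  obtain ⟨i, h5, h6⟩ := (h2.and h3).exists
  have h7 := h5 z hz (hzb.trans_le (min_le_left _ _))
  have h8 := h6 z hz (hzb.trans_le (min_le_right _ _))
  have h9 := h1 (F i z) (by linarith)
  rw [Real.dist_eq] at h9
  have h10 := abs_sub_abs_le_abs_sub (T (f b)) (T (F i z))
  rw [abs_sub_comm] at h10
  linarith

/-- The weak condition passes to the limit. -/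
theorem WeakSmall.limit {l : Filter ι} [l.NeBot] {D : Set ℂ} {F : ι → ℂ → ℂ}
    {f : ℂ → ℂ} (hD : IsCompact (closure D)) (hf : ContinuousOn f (closure D))
    (h : ∀ p ∈ closure D, LimAt l D F f p) {k : ℂ → ℂ} (hk : Continuous k)
    (hkc : HasCompactSupport k) (hkD : tsupport k ⊆ D) (hw : WeakSmall l F k) :
    ∫ z, k z * f z = 0 := by
  have hki : Integrable k := hk.integrable_of_hasCompactSupport hkc
  have hkf : Integrable (fun z => k z * f z) := by
    rw [← integrableOn_iff_integrable_of_support_subset (s := tsupport k)]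
    · exact (hk.continuousOn.mul (hf.mono (hkD.trans subset_closure))).integrableOn_compact
        hkc.isCompact
    · intro z hz
      refine subset_tsupport k ?_
      rw [Function.mem_support] at hz ⊢
      exact fun h0 => hz (by rw [h0, zero_mul])
  have hN : 0 ≤ ∫ z, ‖k z‖ := integral_nonneg fun _ => norm_nonneg _
  -- the bound
  have key : ∀ η > 0, ‖∫ z, k z * f z‖ ≤ η * (1 + 2 * ∫ z, ‖k z‖) := by
    intro η hη
    obtain ⟨i, hi, G, hG, hGF, hGk⟩ := ((LimAt.uniform hD hf h hη).and (hw η hη)).exists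
    have e : ∫ z, k z * f z = (∫ z, k z * G z) + ∫ z, (k z * f z - k z * G z) := by
      rw [integral_sub hkf hG]; ring
    have hb : ‖∫ z, (k z * f z - k z * G z)‖ ≤ ∫ z, 2 * η * ‖k z‖ := by
      refine norm_integral_le_of_norm_le (hki.norm.const_mul _) (Eventually.of_forall fun z => ?_)
      by_cases hz : z ∈ tsupport k
      · rw [← mul_sub, norm_mul, mul_comm]
        refine mul_le_mul_of_nonneg_right ?_ (norm_nonneg _)
        have h1 := hGF z hz
        have h2 := hi z (hkD hz)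
        rw [dist_eq_norm] at h2
        calc ‖f z - G z‖ = ‖-((F i z - f z) + (G z - F i z))‖ := by congr 1; ring
          _ ≤ ‖F i z - f z‖ + ‖G z - F i z‖ := by rw [norm_neg]; exact norm_add_le _ _
          _ ≤ 2 * η := by linarith
      · have h0 : k z = 0 := image_eq_zero_of_notMem_tsupport hz
        simp [h0]
    rw [integral_const_mul] at hb
    rw [e]
    refine (norm_add_le _ _).trans ?_
    nlinarith [hb, hGk]
  by_contra hne
  have hpos : 0 < ‖∫ z, k z * f z‖ := norm_pos_iff.2 hne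
  set M := 1 + 2 * ∫ z, ‖k z‖ with hM
  have hM0 : 0 < M := by rw [hM]; linarith
  have := key (‖∫ z, k z * f z‖ / (2 * M)) (by positivity)
  have e : ‖∫ z, k z * f z‖ / (2 * M) * M = ‖∫ z, k z * f z‖ / 2 := by field_simp
  rw [e] at this
  linarith

theorem IsTest.compact_ddd {D : Set ℂ} {χ : ℂ → ℝ} (h : IsTest D χ) :
    HasCompactSupport (ddd χ) := by
  have : ddd χ = fun z => conj (dbar χ z) := by funext z; rw [conj_dbar]
  rw [this]
  exact h.compact_dbar.comp_left (map_zero _)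

theorem IsTest.continuous_ddd {D : Set ℂ} {χ : ℂ → ℝ} (h : IsTest D χ) :
    Continuous (ddd χ) := by
  have : ddd χ = fun z => conj (dbar χ z) := by funext z; rw [conj_dbar]
  rw [this]
  exact Complex.continuous_conj.comp h.continuous_dbar

theorem tsupport_dbar (χ : ℂ → ℝ) : tsupport (dbar χ) ⊆ tsupport χ := by
  refine closure_minimal (fun z hz => ?_) (isClosed_tsupport χ)
  by_contra h
  exact hz (dbar_eq_zero h)

theorem tsupport_ddd (χ : ℂ → ℝ) : tsupport (ddd χ) ⊆ tsupport χ := by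
  refine closure_minimal (fun z hz => ?_) (isClosed_tsupport χ)
  by_contra h
  refine hz ?_
  rw [← conj_dbar, dbar_eq_zero h, map_zero]

theorem continuous_L2 : Continuous L2 := by
  unfold L2
  exact (continuous_const.mul (Complex.continuous_re.sub continuous_const)).add
    Complex.continuous_im

theorem continuous_L3 : Continuous L3 := by
  unfold L3
  exact (continuous_const.mul Complex.continuous_re).sub Complex.continuous_im

/-- **Limit theorem, one complex function.** The functions `F i` on the domain are bounded,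
asymptotically equicontinuous up to the boundary, satisfy the three boundary conditions
asymptotically and are asymptotically holomorphic in the weak sense; then they converge to the
conformal map onto the triangle. In a part of the indices the functions may be asymptotically
antiholomorphic instead (this cannot happen): then one needs that the imaginary parts are
asymptotically nonnegative. -/
theorem limit_cmap {Q : Quad} {φ : ℂ → ℂ} {x : ℝ} (h : Q.IsUniformizer φ x) {l : Filter ι}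
    {F : ι → ℂ → ℂ} {C : ℝ} (hb : ∀ᶠ i in l, ∀ z ∈ Q.D, ‖F i z‖ ≤ C) (he : AEqui l Q.D F)
    (h01 : BdZero l Q.D F Complex.im (Q.arc 0 ∪ Q.arc 1)) (h2 : BdZero l Q.D F L2 (Q.arc 2))
    (h3 : BdZero l Q.D F L3 (Q.arc 3)) {A : Set ι}
    (hA : ∀ χ : ℂ → ℝ, IsTest Q.D χ → WeakSmall (l ⊓ 𝓟 A) F (dbar χ))
    (hB : ∀ χ : ℂ → ℝ, IsTest Q.D χ → WeakSmall (l ⊓ 𝓟 Aᶜ) F (ddd χ))
    (hpos : ∀ z ∈ Q.D, ∀ η > 0, ∀ᶠ i in l ⊓ 𝓟 Aᶜ, -η ≤ (F i z).im) :
    ∀ p ∈ closure Q.D, LimAt l Q.D F (cmap Q φ) p := by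
  have hcD := isCompact_closure_D Q
  -- pointwise convergence
  have hpt : ∀ z ∈ Q.D, Tendsto (fun i => F i z) l (𝓝 (cmap Q φ z)) := by
    intro z hz
    rw [tendsto_iff_ultrafilter]
    intro u hu
    obtain ⟨f, hf, hlim⟩ := exists_limit u (hb.filter_mono hu) (he.mono hu)
    have b01 : ∀ z ∈ Q.arc 0 ∪ Q.arc 1, (f z).im = 0 := fun z hz =>
      (h01.mono hu).limit Complex.continuous_im hz
        (hz.elim (fun h => arc_sub_cl Q 0 h) fun h => arc_sub_cl Q 1 h)
        (hlim z (hz.elim (fun h => arc_sub_cl Q 0 h) fun h => arc_sub_cl Q 1 h))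
    have b2 : ∀ z ∈ Q.arc 2, L2 (f z) = 0 := fun z hz =>
      (h2.mono hu).limit continuous_L2 hz (arc_sub_cl Q 2 hz) (hlim z (arc_sub_cl Q 2 hz))
    have b3 : ∀ z ∈ Q.arc 3, L3 (f z) = 0 := fun z hz =>
      (h3.mono hu).limit continuous_L3 hz (arc_sub_cl Q 3 hz) (hlim z (arc_sub_cl Q 3 hz))
    have hcase : (u : Filter ι) ≤ l ⊓ 𝓟 A ∨ (u : Filter ι) ≤ l ⊓ 𝓟 Aᶜ := by
      rcases u.mem_or_compl_mem A with hA | hA
      · exact Or.inl (le_inf hu (le_principal_iff.2 hA))
      · exact Or.inr (le_inf hu (le_principal_iff.2 hA))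
    rcases hcase with hu' | hu'
    · have hhol : DifferentiableOn ℂ f Q.D := by
        refine holo_of_weak (isOpen_D Q) (hf.mono subset_closure) fun χ hχ => ?_
        exact ((hA χ hχ).mono hu').limit hcD hf hlim hχ.continuous_dbar hχ.compact_dbar
          ((tsupport_dbar χ).trans hχ.supp)
      have e := endgame_full h hf hhol b01 b2 b3 (subset_closure hz)
      have := (hlim z (subset_closure hz)).tendsto hz
      rwa [e] at this
    · exfalso
      have hhol : DifferentiableOn ℂ (fun z => conj (f z)) Q.D := by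
        refine antiholo_of_weak (isOpen_D Q) (hf.mono subset_closure) fun χ hχ => ?_
        exact ((hB χ hχ).mono hu').limit hcD hf hlim hχ.continuous_ddd hχ.compact_ddd
          ((tsupport_ddd χ).trans hχ.supp)
      have hpos1 : ∀ z ∈ Q.D, 0 ≤ (f z).im := by
        intro z hz
        have h4 := (hlim z (subset_closure hz)).tendsto hz
        have h5 : Tendsto (fun i => (F i z).im) u (𝓝 (f z).im) :=
          (Complex.continuous_im.tendsto _).comp h4
        refine le_of_forall_pos_le_add fun η hη => ?_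
        have h6 := ge_of_tendsto h5 ((hpos z hz η hη).filter_mono hu')
        linarith
      have hpos2 : ∀ z ∈ closure Q.D, 0 ≤ (f z).im := by
        intro z hz
        have h4 : ContinuousOn (fun z => (f z).im) (closure Q.D) :=
          Complex.continuous_im.comp_continuousOn hf
        have hne : (𝓝[Q.D] z).NeBot := mem_closure_iff_nhdsWithin_neBot.1 hz
        have h5 : Tendsto (fun z => (f z).im) (𝓝[Q.D] z) (𝓝 (f z).im) :=
          (h4 z hz).mono_left (nhdsWithin_mono _ subset_closure)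
        exact ge_of_tendsto h5 (by filter_upwards [self_mem_nhdsWithin] with w hw using hpos1 w hw)
      have key := no_anti h hf hhol hpos2 b01
      have s3 : (0 : ℝ) < √3 := by positivity
      have e0 : (f (Q.mark 0)).re = 0 := by
        have e1 := b01 _ (Or.inl (mark_mem_arc Q 0))
        have e2 := b3 _ (show Q.mark 0 ∈ Q.arc 3 from mark_mem_arc' Q 3)
        unfold L3 at e2
        rw [e1, sub_zero] at e2
        exact (mul_eq_zero.1 e2).resolve_left s3.ne'
      have e2 : (f (Q.mark 2)).re = 1 := by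
        have e1 := b01 _ (Or.inr (show Q.mark 2 ∈ Q.arc 1 from mark_mem_arc' Q 1))
        have e2 := b2 _ (mark_mem_arc Q 2)
        unfold L2 at e2
        rw [e1, add_zero] at e2
        linarith [(mul_eq_zero.1 e2).resolve_left s3.ne']
      linarith
  -- up to the boundary
  intro p hp η hη
  obtain ⟨δ, hδ, h4⟩ := he p hp (η / 3) (by positivity)
  have h5 : ∀ᶠ z in 𝓝[closure Q.D] p, dist (cmap Q φ z) (cmap Q φ p) < η / 3 :=
    (continuousOn_cmap h p hp).eventually (ball_mem_nhds _ (by positivity))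
  have h6 : ∀ᶠ z in 𝓝[Q.D] p, dist (cmap Q φ z) (cmap Q φ p) < η / 3 :=
    h5.filter_mono (nhdsWithin_mono _ subset_closure)
  have h7 : ∀ᶠ z in 𝓝[Q.D] p, z ∈ Q.D ∧ dist z p < δ :=
    inter_mem_nhdsWithin Q.D (ball_mem_nhds p hδ)
  have hne : (𝓝[Q.D] p).NeBot := mem_closure_iff_nhdsWithin_neBot.1 hp
  obtain ⟨z0, h8, h9, h10⟩ := (h6.and h7).exists
  refine ⟨δ, hδ, ?_⟩
  have h11 : ∀ᶠ i in l, dist (F i z0) (cmap Q φ z0) < η / 3 :=
    (hpt z0 h9).eventually (ball_mem_nhds _ (by positivity))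
  filter_upwards [h4, h11] with i h12 h13 z hz hzp
  have h14 := h12 z hz z0 h9 hzp h10
  have := dist_triangle (F i z) (F i z0) (cmap Q φ p)
  have := dist_triangle (F i z0) (cmap Q φ z0) (cmap Q φ p)
  linarith

end Vale.Agent.P148.R2.H219
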