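import Vale.Agent.P148.R2.H219.End3

/-!
# The limit theorem for the three arc functions

`H i j z` is the probability that `z` is separated from the arc `B j` by a crossing between the two
other arcs, where `B 0 = ab ∪ bc`, `B 1 = cd`, `B 2 = da`.
-/

open Set Metric Filter Topology Bornology MeasureTheory
open scoped ComplexConjugate

namespace Vale.Agent.P148.R2.H219

open _root_.P148 _root_.P148.Half Vale.Agent.P153.R2.R1

variable {ι : Type*}

/-- The cube root of unity `exp (2πi/3)`. -/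
noncomputable def tau : ℂ := ⟨-(1 / 2), √3 / 2⟩

theorem s3_sq : √3 * √3 = (3 : ℝ) := Real.mul_self_sqrt (by norm_num)

theorem tau_sq : tau ^ 2 = ⟨-(1 / 2), -(√3 / 2)⟩ := by
  have := s3_sq
  rw [_root_.sq]
  apply Complex.ext
  · simp only [tau, Complex.mul_re]; linarith
  · simp only [tau, Complex.mul_im]; ring

/-- The vector function `H 0 + τ H 1 + τ² H 2`. -/
noncomputable def vec (h : Fin 3 → ℂ → ℝ) (z : ℂ) : ℂ :=
  (h 0 z : ℂ) + tau * (h 1 z : ℂ) + tau ^ 2 * (h 2 z : ℂ)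

/-- The sum `H 0 + H 1 + H 2`. -/
noncomputable def sum3 (h : Fin 3 → ℂ → ℝ) (z : ℂ) : ℂ := (h 0 z : ℂ) + (h 1 z : ℂ) + (h 2 z : ℂ)

/-- The map into the triangle with the vertices `0, 1, v3`. -/
noncomputable def tri (h : Fin 3 → ℂ → ℝ) (z : ℂ) : ℂ := (h 2 z : ℂ) + v3 * (h 0 z : ℂ)

theorem tri_re (h : Fin 3 → ℂ → ℝ) (z : ℂ) : (tri h z).re = h 2 z + h 0 z / 2 := by
  simp only [tri, v3, Complex.add_re, Complex.mul_re, Complex.ofReal_re, Complex.ofReal_im]; ring

theorem tri_im (h : Fin 3 → ℂ → ℝ) (z : ℂ) : (tri h z).im = √3 / 2 * h 0 z := by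
  simp only [tri, v3, Complex.add_im, Complex.mul_im, Complex.ofReal_re, Complex.ofReal_im]; ring

/-- The coefficients of `tri` in terms of `vec` and `tot`. -/
noncomputable def cA : ℂ := ⟨0, √3 / 3⟩
/-- The coefficients of `tri` in terms of `vec` and `tot`. -/
noncomputable def cB : ℂ := ⟨1 / 2, √3 / 6⟩

theorem tri_eq (h : Fin 3 → ℂ → ℝ) (z : ℂ) : tri h z = cA * vec h z + cB * sum3 h z := by
  have := s3_sq
  unfold vec sum3
  rw [tau_sq]
  apply Complex.ext
  · rw [tri_re]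
    simp only [cA, cB, tau, Complex.add_re, Complex.mul_re, Complex.mul_im, Complex.add_im,
      Complex.ofReal_re, Complex.ofReal_im]
    linear_combination (h 1 z / 6 - h 2 z / 6) * this
  · rw [tri_im]
    simp only [cA, cB, tau, Complex.add_re, Complex.mul_re, Complex.mul_im, Complex.add_im,
      Complex.ofReal_re, Complex.ofReal_im]
    ring

theorem WeakSmall.lin {l : Filter ι} {F G : ι → ℂ → ℂ} {k : ℂ → ℂ} (hF : WeakSmall l F k)
    (hG : WeakSmall l G k) (a b : ℂ) : WeakSmall l (fun i z => a * F i z + b * G i z) k := by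
  intro η hη
  set M := ‖a‖ + ‖b‖ + 1 with hM
  have hM0 : 0 < M := by positivity
  filter_upwards [hF (η / M) (by positivity), hG (η / M) (by positivity)] with i h1 h2
  obtain ⟨F', f1, f2, f3⟩ := h1
  obtain ⟨G', g1, g2, g3⟩ := h2
  have hbd : ‖a‖ * (η / M) + ‖b‖ * (η / M) ≤ η := by
    rw [← add_mul, ← mul_div_assoc, div_le_iff₀ hM0, hM]
    nlinarith
  have e : (fun z => k z * (a * F' z + b * G' z)) =
      fun z => a * (k z * F' z) + b * (k z * G' z) := by funext z; ring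
  refine ⟨fun z => a * F' z + b * G' z, ?_, ?_, ?_⟩
  · rw [e]; exact (f1.const_mul a).add (g1.const_mul b)
  · intro z hz
    have e2 : a * F' z + b * G' z - (a * F i z + b * G i z) =
        a * (F' z - F i z) + b * (G' z - G i z) := by ring
    rw [e2]
    refine (norm_add_le _ _).trans (le_trans ?_ hbd)
    rw [norm_mul, norm_mul]
    exact add_le_add (mul_le_mul_of_nonneg_left (f2 z hz) (norm_nonneg _))
      (mul_le_mul_of_nonneg_left (g2 z hz) (norm_nonneg _))
  · rw [e, integral_add (f1.const_mul a) (g1.const_mul b), integral_const_mul, integral_const_mul]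
    refine (norm_add_le _ _).trans (le_trans ?_ hbd)
    rw [norm_mul, norm_mul]
    exact add_le_add (mul_le_mul_of_nonneg_left f3 (norm_nonneg _))
      (mul_le_mul_of_nonneg_left g3 (norm_nonneg _))

theorem integral_fderiv_zero {D : Set ℂ} {χ : ℂ → ℝ} (h : IsTest D χ) (v : ℂ) :
    ∫ z, fderiv ℝ χ z v = 0 := by
  have hc : Continuous fun z => fderiv ℝ χ z v :=
    (h.smooth.continuous_fderiv (by simp)).clm_apply continuous_const
  have hcs : HasCompactSupport fun z => fderiv ℝ χ z v := by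
    refine HasCompactSupport.intro h.compact fun z hz => ?_
    have h1 : fderiv ℝ χ z = 0 := by
      by_contra h2
      exact hz (support_fderiv_subset ℝ h2)
    rw [h1]; rfl
  have := integral_mul_fderiv_eq_neg_fderiv_mul_of_integrable (𝕜 := ℝ) (μ := (volume : Measure ℂ))
    (f := fun _ => (1 : ℝ)) (g := χ) (v := v) ?_ ?_ ?_ ?_ ?_
  · simpa using this
  · simp
  · simpa using hc.integrable_of_hasCompactSupport hcs
  · simpa using h.smooth.continuous.integrable_of_hasCompactSupport h.compact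
  · intro z _; exact differentiableAt_const _
  · intro z _; exact (h.smooth.differentiable (by simp)).differentiableAt

theorem integral_dbar_zero {D : Set ℂ} {χ : ℂ → ℝ} (h : IsTest D χ) : ∫ z, dbar χ z = 0 := by
  have hi : ∀ v : ℂ, Integrable fun z => ((fderiv ℝ χ z v : ℝ) : ℂ) := by
    intro v
    have hc : Continuous fun z => ((fderiv ℝ χ z v : ℝ) : ℂ) :=
      Complex.continuous_ofReal.comp
        ((h.smooth.continuous_fderiv (by simp)).clm_apply continuous_const)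
    refine hc.integrable_of_hasCompactSupport ?_
    refine HasCompactSupport.intro h.compact fun z hz => ?_
    have h1 : fderiv ℝ χ z = 0 := by
      by_contra h2
      exact hz (support_fderiv_subset ℝ h2)
    simp [h1]
  unfold dbar
  rw [integral_add (hi 1) ((hi Complex.I).const_mul _), integral_const_mul,
    integral_complex_ofReal, integral_complex_ofReal, integral_fderiv_zero h,
    integral_fderiv_zero h]
  simp

theorem integral_ddd_zero {D : Set ℂ} {χ : ℂ → ℝ} (h : IsTest D χ) : ∫ z, ddd χ z = 0 := by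
  have h1 := congrArg conj (integral_dbar_zero h)
  rw [map_zero, ← integral_conj] at h1
  rw [← h1]
  exact integral_congr_ae (Eventually.of_forall fun z => (conj_dbar χ z).symm)

/-- The properties of the three functions which come from the crossing estimates. -/
structure ArcLimit (Q : Quad) (l : Filter ι) (H : ι → Fin 3 → ℂ → ℝ) : Prop where
  bdd : ∀ᶠ i in l, ∀ j, ∀ z ∈ Q.D, 0 ≤ H i j z ∧ H i j z ≤ 1
  equi : ∀ j, ∀ p ∈ closure Q.D, ∀ η > 0, ∃ δ > 0, ∀ᶠ i in l, ∀ z ∈ Q.D, ∀ w ∈ Q.D,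
    dist z p < δ → dist w p < δ → |H i j z - H i j w| ≤ η
  bd0 : ∀ b ∈ Q.arc 0 ∪ Q.arc 1, ∀ η > 0, ∃ δ > 0, ∀ᶠ i in l, ∀ z ∈ Q.D, dist z b < δ →
    H i 0 z ≤ η
  bd1 : ∀ b ∈ Q.arc 2, ∀ η > 0, ∃ δ > 0, ∀ᶠ i in l, ∀ z ∈ Q.D, dist z b < δ → H i 1 z ≤ η
  bd2 : ∀ b ∈ Q.arc 3, ∀ η > 0, ∃ δ > 0, ∀ᶠ i in l, ∀ z ∈ Q.D, dist z b < δ → H i 2 z ≤ η
  tot : ∀ p ∈ closure Q.D, ∀ η > 0, ∃ δ > 0, ∀ᶠ i in l, ∀ z ∈ Q.D, dist z p < δ →
    |H i 0 z + H i 1 z + H i 2 z - 1| ≤ η

theorem norm_v3 : ‖v3‖ = 1 := by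
  have h : ‖v3‖ ^ 2 = 1 := by
    rw [← Complex.normSq_eq_norm_sq, Complex.normSq_apply]
    simp only [v3]
    have := s3_sq
    linear_combination this / 4
  nlinarith [norm_nonneg v3]

theorem tri_dist (h : Fin 3 → ℂ → ℝ) (z w : ℂ) :
    dist (tri h z) (tri h w) ≤ |h 2 z - h 2 w| + |h 0 z - h 0 w| := by
  rw [dist_eq_norm]
  have e : tri h z - tri h w = ((h 2 z - h 2 w : ℝ) : ℂ) + v3 * ((h 0 z - h 0 w : ℝ) : ℂ) := by
    unfold tri; push_cast; ring
  rw [e]
  refine (norm_add_le _ _).trans ?_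
  rw [norm_mul, norm_v3, one_mul, Complex.norm_real, Complex.norm_real, Real.norm_eq_abs,
    Real.norm_eq_abs]

namespace ArcLimit

variable {Q : Quad} {φ : ℂ → ℂ} {x : ℝ} {l : Filter ι} {H : ι → Fin 3 → ℂ → ℝ}

/-- The uniform form of `tot`. -/
theorem tot_uniform (hH : ArcLimit Q l H) {η : ℝ} (hη : 0 < η) :
    ∀ᶠ i in l, ∀ z ∈ Q.D, |H i 0 z + H i 1 z + H i 2 z - 1| ≤ η := by
  have h1 := LimAt.uniform (l := l) (D := Q.D) (isCompact_closure_D Q)
    (F := fun i z => ((H i 0 z + H i 1 z + H i 2 z : ℝ) : ℂ)) (f := fun _ => 1)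
    continuousOn_const ?_ hη
  · filter_upwards [h1] with i hi z hz
    have := hi z hz
    rwa [dist_eq_norm, ← Complex.ofReal_one, ← Complex.ofReal_sub, Complex.norm_real,
      Real.norm_eq_abs] at this
  · intro p hp η hη
    obtain ⟨δ, hδ, h2⟩ := hH.tot p hp η hη
    refine ⟨δ, hδ, ?_⟩
    filter_upwards [h2] with i hi z hz hzp
    rw [dist_eq_norm, ← Complex.ofReal_one, ← Complex.ofReal_sub, Complex.norm_real,
      Real.norm_eq_abs]
    exact hi z hz hzp

theorem weak_tot (hH : ArcLimit Q l H) {k : ℂ → ℂ} (hk : Integrable k) (hkD : tsupport k ⊆ Q.D)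
    (hk0 : ∫ z, k z = 0) : WeakSmall l (fun i => sum3 (H i)) k := by
  intro η hη
  filter_upwards [hH.tot_uniform hη] with i hi
  refine ⟨fun _ => 1, by simpa using hk, fun z hz => ?_, by simp [hk0, hη.le]⟩
  have := hi z (hkD hz)
  rw [abs_sub_comm] at this
  rw [sum3, ← Complex.ofReal_add, ← Complex.ofReal_add, ← Complex.ofReal_one,
    ← Complex.ofReal_sub, Complex.norm_real, Real.norm_eq_abs]
  exact this

/-- **Limit theorem, three functions.** -/
theorem limit_tri (hH : ArcLimit Q l H) (h : Q.IsUniformizer φ x) {A : Set ι}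
    (hA : ∀ χ : ℂ → ℝ, IsTest Q.D χ → WeakSmall (l ⊓ 𝓟 A) (fun i => vec (H i)) (dbar χ))
    (hB : ∀ χ : ℂ → ℝ, IsTest Q.D χ → WeakSmall (l ⊓ 𝓟 Aᶜ) (fun i => vec (H i)) (ddd χ)) :
    ∀ p ∈ closure Q.D, LimAt l Q.D (fun i => tri (H i)) (cmap Q φ) p := by
  have s3 : (0 : ℝ) < √3 := by positivity
  have s3' := s3_sq
  have s3u : √3 ≤ 2 := by nlinarith
  refine limit_cmap h (C := 2) (A := A) ?_ ?_ ?_ ?_ ?_ ?_ ?_ ?_
  · filter_upwards [hH.bdd] with i hi z hz
    refine (norm_add_le _ _).trans ?_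
    rw [norm_mul, norm_v3, one_mul, Complex.norm_real, Complex.norm_real, Real.norm_eq_abs,
      Real.norm_eq_abs, abs_of_nonneg (hi 2 z hz).1, abs_of_nonneg (hi 0 z hz).1]
    linarith [(hi 2 z hz).2, (hi 0 z hz).2]
  · intro p hp η hη
    obtain ⟨δ, hδ, h1⟩ := hH.equi 2 p hp (η / 2) (by positivity)
    obtain ⟨δ', hδ', h2⟩ := hH.equi 0 p hp (η / 2) (by positivity)
    refine ⟨min δ δ', lt_min hδ hδ', ?_⟩
    filter_upwards [h1, h2] with i h3 h4 z hz w hw hzp hwp
    refine (tri_dist (H i) z w).trans ?_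
    have := h3 z hz w hw (hzp.trans_le (min_le_left _ _)) (hwp.trans_le (min_le_left _ _))
    have := h4 z hz w hw (hzp.trans_le (min_le_right _ _)) (hwp.trans_le (min_le_right _ _))
    linarith
  · intro b hb η hη
    obtain ⟨δ, hδ, h1⟩ := hH.bd0 b hb η hη
    refine ⟨δ, hδ, ?_⟩
    filter_upwards [h1, hH.bdd] with i h2 h3 z hz hzb
    rw [tri_im, abs_of_nonneg (by have := (h3 0 z hz).1; positivity)]
    have := h2 z hz hzb
    nlinarith [(h3 0 z hz).1]
  · intro b hb η hη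
    obtain ⟨δ, hδ, h1⟩ := hH.bd1 b hb (η / 4) (by positivity)
    obtain ⟨δ', hδ', h2⟩ := hH.tot b (arc_sub_cl Q 2 hb) (η / 4) (by positivity)
    refine ⟨min δ δ', lt_min hδ hδ', ?_⟩
    filter_upwards [h1, h2, hH.bdd] with i h3 h4 h5 z hz hzb
    have e3 := h3 z hz (hzb.trans_le (min_le_left _ _))
    have e4 := abs_le.1 (h4 z hz (hzb.trans_le (min_le_right _ _)))
    have e5 := (h5 1 z hz).1
    have e : L2 (tri (H i) z) = √3 * ((H i 0 z + H i 1 z + H i 2 z - 1) - H i 1 z) := by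
      rw [L2, tri_re, tri_im]; ring
    rw [e, abs_mul, abs_of_pos s3]
    have e6 : |H i 0 z + H i 1 z + H i 2 z - 1 - H i 1 z| ≤ η / 2 := by
      rw [abs_le]; constructor <;> linarith
    nlinarith [abs_nonneg (H i 0 z + H i 1 z + H i 2 z - 1 - H i 1 z)]
  · intro b hb η hη
    obtain ⟨δ, hδ, h1⟩ := hH.bd2 b hb (η / 2) (by positivity)
    refine ⟨δ, hδ, ?_⟩
    filter_upwards [h1, hH.bdd] with i h2 h3 z hz hzb
    have e : L3 (tri (H i) z) = √3 * H i 2 z := by
      rw [L3, tri_re, tri_im]; ring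
    have e1 := (h3 2 z hz).1
    rw [e, abs_of_nonneg (by positivity)]
    have := h2 z hz hzb
    nlinarith
  · intro χ hχ
    have h1 := (hA χ hχ).lin ((hH.weak_tot
      (hχ.continuous_dbar.integrable_of_hasCompactSupport hχ.compact_dbar)
      ((tsupport_dbar χ).trans hχ.supp) (integral_dbar_zero hχ)).mono
        (l' := l ⊓ 𝓟 A) inf_le_left) cA cB
    have e : (fun i => tri (H i)) = fun i z => cA * vec (H i) z + cB * sum3 (H i) z := by
      funext i z; exact tri_eq _ _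
    rw [e]; exact h1
  · intro χ hχ
    have h1 := (hB χ hχ).lin ((hH.weak_tot
      (hχ.continuous_ddd.integrable_of_hasCompactSupport hχ.compact_ddd)
      ((tsupport_ddd χ).trans hχ.supp) (integral_ddd_zero hχ)).mono
        (l' := l ⊓ 𝓟 Aᶜ) inf_le_left) cA cB
    have e : (fun i => tri (H i)) = fun i z => cA * vec (H i) z + cB * sum3 (H i) z := by
      funext i z; exact tri_eq _ _
    rw [e]; exact h1
  · intro z hz η hη
    filter_upwards [hH.bdd.filter_mono (inf_le_left (a := l) (b := 𝓟 Aᶜ))] with i hi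
    rw [tri_im]
    have := (hi 0 z hz).1
    have : 0 ≤ √3 / 2 * H i 0 z := by positivity
    linarith

/-- **Cardy's formula from the three functions.** At the fourth marked point `b`, which lies on the
arc `B 0`, the function `H 2` tends to Cardy's function. -/
theorem limit_cardy (hH : ArcLimit Q l H) (h : Q.IsUniformizer φ x) {A : Set ι}
    (hA : ∀ χ : ℂ → ℝ, IsTest Q.D χ → WeakSmall (l ⊓ 𝓟 A) (fun i => vec (H i)) (dbar χ))
    (hB : ∀ χ : ℂ → ℝ, IsTest Q.D χ → WeakSmall (l ⊓ 𝓟 Aᶜ) (fun i => vec (H i)) (ddd χ)) :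
    ∀ η > 0, ∃ δ > 0, ∀ᶠ i in l, ∀ z ∈ Q.D, dist z (Q.mark 1) < δ → |H i 2 z - cardy x| ≤ η := by
  intro η hη
  obtain ⟨δ, hδ, h1⟩ := hH.limit_tri h hA hB _ (mark_mem_closure Q 1) (η / 2) (by positivity)
  obtain ⟨δ', hδ', h2⟩ := hH.bd0 _ (Or.inl (show Q.mark 1 ∈ Q.arc 0 from mark_mem_arc' Q 0))
    (η / 2) (by positivity)
  refine ⟨min δ δ', lt_min hδ hδ', ?_⟩
  filter_upwards [h1, h2, hH.bdd] with i h3 h4 h5 z hz hzb
  have e3 := h3 z hz (hzb.trans_le (min_le_left _ _))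
  have e4 := h4 z hz (hzb.trans_le (min_le_right _ _))
  have e5 := (h5 0 z hz).1
  rw [cmap_mark1 h, dist_eq_norm] at e3
  have e6 := (Complex.abs_re_le_norm _).trans e3
  rw [Complex.sub_re, tri_re, Complex.ofReal_re] at e6
  rw [abs_le] at e6 ⊢
  constructor <;> linarith

end ArcLimit

/-- The total sum tends to one, from weak holomorphy of the sum. -/
theorem tot_limit {Q : Quad} {l : Filter ι} {H : ι → Fin 3 → ℂ → ℝ}
    (hbdd : ∀ᶠ i in l, ∀ j, ∀ z ∈ Q.D, 0 ≤ H i j z ∧ H i j z ≤ 1)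
    (hequi : ∀ j, ∀ p ∈ closure Q.D, ∀ η > 0, ∃ δ > 0, ∀ᶠ i in l, ∀ z ∈ Q.D, ∀ w ∈ Q.D,
      dist z p < δ → dist w p < δ → |H i j z - H i j w| ≤ η)
    (hw : ∀ χ : ℂ → ℝ, IsTest Q.D χ → WeakSmall l (fun i => sum3 (H i)) (dbar χ))
    {a : ℂ} (ha : a ∈ closure Q.D)
    (hca : ∀ η > 0, ∃ δ > 0, ∀ᶠ i in l, ∀ z ∈ Q.D, dist z a < δ →
      |H i 0 z + H i 1 z + H i 2 z - 1| ≤ η) :
    ∀ p ∈ closure Q.D, ∀ η > 0, ∃ δ > 0, ∀ᶠ i in l, ∀ z ∈ Q.D, dist z p < δ →
      |H i 0 z + H i 1 z + H i 2 z - 1| ≤ η := by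
  have hcD := isCompact_closure_D Q
  have etot : ∀ i z, sum3 (H i) z = ((H i 0 z + H i 1 z + H i 2 z : ℝ) : ℂ) := by
    intro i z; unfold sum3; push_cast; ring
  have he : AEqui l Q.D (fun i => sum3 (H i)) := by
    intro p hp η hη
    obtain ⟨δ0, hδ0, h0⟩ := hequi 0 p hp (η / 3) (by positivity)
    obtain ⟨δ1, hδ1, h1⟩ := hequi 1 p hp (η / 3) (by positivity)
    obtain ⟨δ2, hδ2, h2⟩ := hequi 2 p hp (η / 3) (by positivity)
    refine ⟨min δ0 (min δ1 δ2), lt_min hδ0 (lt_min hδ1 hδ2), ?_⟩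
    filter_upwards [h0, h1, h2] with i g0 g1 g2 z hz w hw hzp hwp
    rw [etot, etot, dist_eq_norm, ← Complex.ofReal_sub, Complex.norm_real, Real.norm_eq_abs]
    have e0 := abs_le.1 (g0 z hz w hw (hzp.trans_le (min_le_left _ _))
      (hwp.trans_le (min_le_left _ _)))
    have m1 : min δ0 (min δ1 δ2) ≤ δ1 := (min_le_right _ _).trans (min_le_left _ _)
    have m2 : min δ0 (min δ1 δ2) ≤ δ2 := (min_le_right _ _).trans (min_le_right _ _)
    have e1 := abs_le.1 (g1 z hz w hw (hzp.trans_le m1) (hwp.trans_le m1))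
    have e2 := abs_le.1 (g2 z hz w hw (hzp.trans_le m2) (hwp.trans_le m2))
    rw [abs_le]
    constructor <;> linarith
  have hb : ∀ᶠ i in l, ∀ z ∈ Q.D, ‖sum3 (H i) z‖ ≤ 3 := by
    filter_upwards [hbdd] with i hi z hz
    rw [etot, Complex.norm_real, Real.norm_eq_abs, abs_le]
    have := hi 0 z hz
    have := hi 1 z hz
    have := hi 2 z hz
    constructor <;> linarith
  -- pointwise convergence
  have hpt : ∀ z ∈ Q.D, Tendsto (fun i => sum3 (H i) z) l (𝓝 1) := by
    intro z hz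
    rw [tendsto_iff_ultrafilter]
    intro u hu
    obtain ⟨f, hf, hlim⟩ := exists_limit u (hb.filter_mono hu) (he.mono hu)
    have hhol : DifferentiableOn ℂ f Q.D := by
      refine holo_of_weak (isOpen_D Q) (hf.mono subset_closure) fun χ hχ => ?_
      exact ((hw χ hχ).mono hu).limit hcD hf hlim hχ.continuous_dbar hχ.compact_dbar
        ((tsupport_dbar χ).trans hχ.supp)
    have him : ∀ p ∈ closure Q.D, (f p).im = 0 := by
      intro p hp
      have : BdZero l Q.D (fun i => sum3 (H i)) Complex.im {p} := by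
        intro b _ η hη
        refine ⟨1, one_pos, Eventually.of_forall fun i z _ _ => ?_⟩
        show |(sum3 (H i) z).im| ≤ η
        rw [etot, Complex.ofReal_im, abs_zero]; exact hη.le
      exact (this.mono hu).limit Complex.continuous_im (mem_singleton p) hp (hlim p hp)
    have hfa : f a = 1 := by
      have h1 : BdZero l Q.D (fun i => sum3 (H i)) (fun w => w.re - 1) {a} := by
        rintro b rfl η hη
        obtain ⟨δ, hδ, h2⟩ := hca η hη
        refine ⟨δ, hδ, ?_⟩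
        filter_upwards [h2] with i hi z hz hzb
        show |(sum3 (H i) z).re - 1| ≤ η
        rw [etot, Complex.ofReal_re]
        exact hi z hz hzb
      have h2 := (h1.mono hu).limit (by fun_prop) (mem_singleton a) ha (hlim a ha)
      exact Complex.ext (by rw [Complex.one_re]; linarith) (by rw [him a ha, Complex.one_im])
    have hdc : DiffContOnCl ℂ (fun z => f z - 1) Q.D := ⟨hhol.sub_const 1, hf.sub continuousOn_const⟩
    have key := cube_unique (isOpen_D Q) (preconn_D Q) (isBounded_D Q) hdc (fun z hz => by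
      rw [im_cube, Complex.sub_im, him z (frontier_subset_closure hz), Complex.one_im, sub_zero,
        zero_mul]) ha (by rw [hfa, sub_self]) z (subset_closure hz)
    have := (hlim z (subset_closure hz)).tendsto hz
    rwa [sub_eq_zero.1 key] at this
  intro p hp η hη
  obtain ⟨δ, hδ, h4⟩ := he p hp (η / 2) (by positivity)
  have h7 : ∀ᶠ z in 𝓝[Q.D] p, z ∈ Q.D ∧ dist z p < δ :=
    inter_mem_nhdsWithin Q.D (ball_mem_nhds p hδ)
  have hne : (𝓝[Q.D] p).NeBot := mem_closure_iff_nhdsWithin_neBot.1 hp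
  obtain ⟨z0, h9, h10⟩ := h7.exists
  refine ⟨δ, hδ, ?_⟩
  have h11 : ∀ᶠ i in l, dist (sum3 (H i) z0) 1 < η / 2 :=
    (hpt z0 h9).eventually (ball_mem_nhds _ (by positivity))
  filter_upwards [h4, h11] with i h12 h13 z hz hzp
  have h14 := h12 z hz z0 h9 hzp h10
  have h15 := dist_triangle (sum3 (H i) z) (sum3 (H i) z0) 1
  have h16 : dist (sum3 (H i) z) 1 = |H i 0 z + H i 1 z + H i 2 z - 1| := by
    rw [etot, dist_eq_norm, ← Complex.ofReal_one, ← Complex.ofReal_sub, Complex.norm_real,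
      Real.norm_eq_abs]
  rw [← h16]
  linarith

end Vale.Agent.P148.R2.H219
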