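import Mathlib

/-!
# The Schwarz-Christoffel map of the half-plane onto the equilateral triangle

`dn w = w^(-2/3) (1-w)^(-2/3)` on the closed upper half-plane; `J z = ∫_0^∞ dn (z + t i) dt`
is continuous on the closed half-plane, holomorphic inside with `J' = i dn`, and tends to `0` at
infinity.
-/

open MeasureTheory Set Filter Topology Complex

namespace Vale.Agent.P148.R2.H219

/-- the closed upper half-plane -/
def HB : Set ℂ := {z | 0 ≤ z.im}

/-- The density `w^(-2/3) (1-w)^(-2/3)` with the branch for `Im w ≥ 0`. -/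
noncomputable def dn (w : ℂ) : ℂ := exp (-(2 / 3) * (log w + log (w - 1) - Real.pi * I))

/-- The vertical integral. -/
noncomputable def J (z : ℂ) : ℂ := ∫ t in Ioi (0 : ℝ), dn (z + t * I)

theorem norm_dn {w : ℂ} (h0 : w ≠ 0) (h1 : w ≠ 1) :
    ‖dn w‖ = (‖w‖ * ‖w - 1‖) ^ (-(2 / 3) : ℝ) := by
  have n0 : 0 < ‖w‖ := norm_pos_iff.2 h0
  have n1 : 0 < ‖w - 1‖ := norm_pos_iff.2 (sub_ne_zero.2 h1)
  rw [dn, norm_exp, Real.rpow_def_of_pos (mul_pos n0 n1), Real.log_mul n0.ne' n1.ne']
  congr 1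
  have e : (-(2 / 3) * (log w + log (w - 1) - Real.pi * I) : ℂ) =
      ((-(2 / 3) : ℝ) : ℂ) * (log w + log (w - 1) - Real.pi * I) := by push_cast; ring
  rw [e, re_ofReal_mul]
  simp only [sub_re, add_re, log_re, mul_re, ofReal_re, I_re, ofReal_im, I_im]
  ring

theorem rpow_anti {x y : ℝ} (hx : 0 < x) (hxy : x ≤ y) :
    y ^ (-(2 / 3) : ℝ) ≤ x ^ (-(2 / 3) : ℝ) :=
  Real.rpow_le_rpow_of_nonpos hx hxy (by norm_num)

theorem half_rpow_le : (1 / 2 : ℝ) ^ (-(2 / 3) : ℝ) ≤ 2 := by
  rw [Real.rpow_neg (by norm_num), one_div, Real.inv_rpow (by norm_num), inv_inv]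
  calc (2 : ℝ) ^ (2 / 3 : ℝ) ≤ 2 ^ (1 : ℝ) :=
        Real.rpow_le_rpow_of_exponent_le (by norm_num) (by norm_num)
    _ = 2 := by simp

theorem half_le_max (w : ℂ) : 1 / 2 ≤ ‖w‖ ∨ 1 / 2 ≤ ‖w - 1‖ := by
  by_contra h
  rw [not_or, not_le, not_le] at h
  have h1 : ‖(1 : ℂ)‖ ≤ ‖w‖ + ‖w - 1‖ := by
    have := norm_sub_le w (w - 1)
    simpa using this
  rw [norm_one] at h1
  linarith [h.1, h.2]

theorem norm_dn_le_sum {w : ℂ} (h0 : w ≠ 0) (h1 : w ≠ 1) :
    ‖dn w‖ ≤ 2 * (‖w‖ ^ (-(2 / 3) : ℝ) + ‖w - 1‖ ^ (-(2 / 3) : ℝ)) := by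
  have n0 : 0 < ‖w‖ := norm_pos_iff.2 h0
  have n1 : 0 < ‖w - 1‖ := norm_pos_iff.2 (sub_ne_zero.2 h1)
  rw [norm_dn h0 h1, Real.mul_rpow n0.le n1.le]
  have a0 : 0 ≤ ‖w‖ ^ (-(2 / 3) : ℝ) := Real.rpow_nonneg n0.le _
  have a1 : 0 ≤ ‖w - 1‖ ^ (-(2 / 3) : ℝ) := Real.rpow_nonneg n1.le _
  rcases half_le_max w with h | h
  · have := (rpow_anti (by norm_num) h).trans half_rpow_le
    nlinarith
  · have := (rpow_anti (by norm_num) h).trans half_rpow_le
    nlinarith

/-- The dominating function. -/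
noncomputable def G (t : ℝ) : ℝ := if t ≤ 1 then 2 * t ^ (-(2 / 3) : ℝ) else t ^ (-(4 / 3) : ℝ)

theorem G_nonneg {t : ℝ} (ht : 0 < t) : 0 ≤ G t := by
  unfold G
  split_ifs <;> positivity

theorem norm_dn_le {w : ℂ} {t : ℝ} (ht : 0 < t) (hw : t ≤ w.im) : ‖dn w‖ ≤ G t := by
  have hw0 : t ≤ ‖w‖ := hw.trans ((le_abs_self _).trans (abs_im_le_norm w))
  have hw1 : t ≤ ‖w - 1‖ := by
    refine le_trans ?_ ((le_abs_self _).trans (abs_im_le_norm (w - 1)))
    simpa using hw
  have h0 : w ≠ 0 := norm_pos_iff.1 (ht.trans_le hw0)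
  have h1 : w ≠ 1 := sub_ne_zero.1 (norm_pos_iff.1 (ht.trans_le hw1))
  rw [norm_dn h0 h1]
  have e2 : t ^ (-(4 / 3) : ℝ) = (t * t) ^ (-(2 / 3) : ℝ) := by
    rw [Real.mul_rpow ht.le ht.le, ← Real.rpow_add ht]
    norm_num
  unfold G
  split_ifs with h
  · rw [Real.mul_rpow (norm_nonneg _) (norm_nonneg _)]
    have a0 : 0 ≤ t ^ (-(2 / 3) : ℝ) := Real.rpow_nonneg ht.le _
    have b0 := rpow_anti ht hw0
    have b1 := rpow_anti ht hw1
    have c0 : 0 ≤ ‖w‖ ^ (-(2 / 3) : ℝ) := Real.rpow_nonneg (norm_nonneg _) _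
    have c1 : 0 ≤ ‖w - 1‖ ^ (-(2 / 3) : ℝ) := Real.rpow_nonneg (norm_nonneg _) _
    rcases half_le_max w with hh | hh
    · have := (rpow_anti (by norm_num) hh).trans half_rpow_le
      nlinarith
    · have := (rpow_anti (by norm_num) hh).trans half_rpow_le
      nlinarith
  · rw [e2]
    exact rpow_anti (mul_pos ht ht) (mul_le_mul hw0 hw1 ht.le (norm_nonneg _))

theorem integrableOn_G : IntegrableOn G (Ioi 0) := by
  have e : Ioi (0 : ℝ) = Ioc 0 1 ∪ Ioi 1 := (Ioc_union_Ioi_eq_Ioi zero_le_one).symm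
  rw [e]
  refine IntegrableOn.union ?_ ?_
  · have h1 : IntervalIntegrable (fun t : ℝ => 2 * t ^ (-(2 / 3) : ℝ)) volume 0 1 :=
      (intervalIntegral.intervalIntegrable_rpow' (by norm_num)).const_mul 2
    rw [intervalIntegrable_iff_integrableOn_Ioc_of_le zero_le_one] at h1
    refine h1.congr_fun (fun t ht => ?_) measurableSet_Ioc
    simp [G, ht.2]
  · have h1 : IntegrableOn (fun t : ℝ => t ^ (-(4 / 3) : ℝ)) (Ioi 1) :=
      integrableOn_Ioi_rpow_of_lt (by norm_num) one_pos
    refine h1.congr_fun (fun t ht => ?_) measurableSet_Ioi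
    simp [G, not_le.2 (mem_Ioi.1 ht)]

theorem slit_of_im {w : ℂ} (h : 0 < w.im) : w ∈ slitPlane := Or.inr h.ne'

theorem im_add {z : ℂ} (t : ℝ) : (z + t * I).im = z.im + t := by simp

theorem hasDerivAt_dn {w : ℂ} (h : 0 < w.im) :
    HasDerivAt dn (dn w * (-(2 / 3) * (w⁻¹ + (w - 1)⁻¹))) w := by
  have h1 : HasDerivAt log w⁻¹ w := hasDerivAt_log (slit_of_im h)
  have h2 : HasDerivAt (fun w : ℂ => log (w - 1)) (w - 1)⁻¹ w := by
    have h3 : HasDerivAt (fun w : ℂ => w - 1) 1 w := (hasDerivAt_id w).sub_const 1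
    have h4 := h3.clog (slit_of_im (by simpa using h))
    simpa [one_div] using h4
  have h3 := (((h1.add h2).sub_const (Real.pi * I)).const_mul (-(2 / 3) : ℂ)).cexp
  exact h3

theorem continuousOn_dn : ContinuousOn dn {w | 0 < w.im} :=
  fun _ h => (hasDerivAt_dn h).continuousAt.continuousWithinAt

theorem cont_line {z : ℂ} (hz : z ∈ HB) : ContinuousOn (fun t : ℝ => dn (z + t * I)) (Ioi 0) := by
  refine continuousOn_dn.comp (by fun_prop) (fun t ht => ?_)
  have hz' : 0 ≤ z.im := hz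
  have ht' : 0 < t := ht
  show 0 < (z + t * I).im
  rw [im_add]
  linarith

theorem meas_line {z : ℂ} (hz : z ∈ HB) :
    AEStronglyMeasurable (fun t : ℝ => dn (z + t * I)) (volume.restrict (Ioi 0)) :=
  (cont_line hz).aestronglyMeasurable measurableSet_Ioi

theorem bound_line {z : ℂ} (hz : z ∈ HB) :
    ∀ᵐ t : ℝ ∂(volume.restrict (Ioi (0 : ℝ))), ‖dn (z + t * I)‖ ≤ G t := by
  refine (ae_restrict_iff' measurableSet_Ioi).2 (Eventually.of_forall fun t ht => ?_)
  refine norm_dn_le ht ?_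
  rw [im_add]
  have hz' : 0 ≤ z.im := hz
  linarith

theorem integrable_line {z : ℂ} (hz : z ∈ HB) :
    Integrable (fun t : ℝ => dn (z + t * I)) (volume.restrict (Ioi 0)) :=
  integrableOn_G.mono' (meas_line hz) (bound_line hz)

theorem continuousOn_J : ContinuousOn J HB := by
  refine continuousOn_of_dominated (fun z hz => meas_line hz) (fun z hz => bound_line hz)
    integrableOn_G ?_
  refine (ae_restrict_iff' measurableSet_Ioi).2 (Eventually.of_forall fun t ht => ?_)
  refine continuousOn_dn.comp (by fun_prop) (fun z hz => ?_)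
  have hz' : 0 ≤ z.im := hz
  have ht' : 0 < t := ht
  show 0 < (z + t * I).im
  rw [im_add]
  linarith

/-- `J` tends to zero at infinity. -/
theorem tendsto_J : Tendsto J (comap norm atTop ⊓ 𝓟 HB) (𝓝 0) := by
  have h0 : ∫ t in Ioi (0 : ℝ), (0 : ℂ) = 0 := by simp
  rw [← h0]
  refine tendsto_integral_filter_of_dominated_convergence G ?_ ?_ integrableOn_G ?_
  · filter_upwards [mem_inf_of_right (mem_principal_self HB)] with z hz
    exact meas_line hz
  · filter_upwards [mem_inf_of_right (mem_principal_self HB)] with z hz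
    exact bound_line hz
  · refine (ae_restrict_iff' measurableSet_Ioi).2 (Eventually.of_forall fun t ht => ?_)
    have ht' : 0 < t := ht
    have hn : Tendsto (fun z : ℂ => ‖z‖) (comap norm atTop ⊓ 𝓟 HB) atTop :=
      tendsto_comap.mono_left inf_le_left
    have h1 : Tendsto (fun z : ℂ => ‖z + t * I‖) (comap norm atTop ⊓ 𝓟 HB) atTop := by
      refine tendsto_atTop_mono (fun z => ?_) (tendsto_atTop_add_const_right _ (-t) hn)
      have h2 : ‖z‖ ≤ ‖z + t * I‖ + ‖(t : ℂ) * I‖ := by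
        have := norm_sub_le (z + t * I) (t * I)
        simpa using this
      have h3 : ‖(t : ℂ) * I‖ = t := by
        rw [norm_mul, norm_I, mul_one, norm_real, Real.norm_of_nonneg ht'.le]
      rw [h3] at h2
      linarith
    have h2 : Tendsto (fun z : ℂ => ‖z + t * I - 1‖) (comap norm atTop ⊓ 𝓟 HB) atTop := by
      refine tendsto_atTop_mono (fun z => ?_) (tendsto_atTop_add_const_right _ (-1) h1)
      have h2 : ‖z + t * I‖ ≤ ‖z + t * I - 1‖ + ‖(1 : ℂ)‖ := by
        have := norm_add_le (z + t * I - 1) 1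
        simpa using this
      rw [norm_one] at h2
      linarith
    have h3 := (tendsto_rpow_neg_atTop (y := 2 / 3) (by norm_num)).comp
      (h1.atTop_mul_atTop₀ h2)
    rw [tendsto_zero_iff_norm_tendsto_zero]
    refine h3.congr' ?_
    filter_upwards [mem_inf_of_right (mem_principal_self HB)] with z hz
    have hz' : 0 ≤ z.im := hz
    have him : 0 < (z + t * I).im := by rw [im_add]; linarith
    have e0 : z + t * I ≠ 0 := fun h => by rw [h] at him; simp at him
    have e1 : z + t * I ≠ 1 := fun h => by rw [h] at him; simp at him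
    rw [norm_dn e0 e1]
    simp

/-- The derivative of `J`. -/
theorem hasDerivAt_J {z : ℂ} (hz : 0 < z.im) : HasDerivAt J (I * dn z) z := by
  set F' : ℂ → ℝ → ℂ := fun w t => dn (w + t * I) * (-(2 / 3) * ((w + t * I)⁻¹ + (w + t * I - 1)⁻¹))
    with hF'
  have hs : {w : ℂ | z.im / 2 < w.im} ∈ 𝓝 z :=
    (isOpen_lt continuous_const continuous_im).mem_nhds (by show z.im / 2 < z.im; linarith)
  have hd : ∀ t : ℝ, 0 < t → ∀ w ∈ {w : ℂ | z.im / 2 < w.im},
      HasDerivAt (fun w => dn (w + t * I)) (F' w t) w := by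
    intro t ht w hw
    have hw' : z.im / 2 < w.im := hw
    have h1 : HasDerivAt (fun w : ℂ => w + t * I) 1 w := (hasDerivAt_id w).add_const _
    have h2 := (hasDerivAt_dn (w := w + t * I) (by rw [im_add]; linarith)).comp w h1
    exact h2.congr_deriv (by simp only [hF', mul_one])
  have hb : ∀ t : ℝ, 0 < t → ∀ w ∈ {w : ℂ | z.im / 2 < w.im},
      ‖F' w t‖ ≤ 4 / z.im * G t := by
    intro t ht w hw
    have hw' : z.im / 2 < w.im := hw
    have him : (w + t * I).im = w.im + t := im_add t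
    have h1 : ‖dn (w + t * I)‖ ≤ G t := norm_dn_le ht (by rw [him]; linarith)
    have h2 : z.im / 2 ≤ ‖w + t * I‖ := by
      refine le_trans ?_ ((le_abs_self _).trans (abs_im_le_norm _))
      rw [him]; linarith
    have h3 : z.im / 2 ≤ ‖w + t * I - 1‖ := by
      refine le_trans ?_ ((le_abs_self _).trans (abs_im_le_norm _))
      rw [sub_im, him, one_im]; linarith
    have h4 : ‖(w + t * I)⁻¹‖ ≤ 2 / z.im := by
      rw [norm_inv, inv_le_comm₀ (by linarith) (by positivity), inv_div]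
      exact h2
    have h5 : ‖(w + t * I - 1)⁻¹‖ ≤ 2 / z.im := by
      rw [norm_inv, inv_le_comm₀ (by linarith) (by positivity), inv_div]
      exact h3
    have h6 : ‖(-(2 / 3) * ((w + t * I)⁻¹ + (w + t * I - 1)⁻¹) : ℂ)‖ ≤ 4 / z.im := by
      rw [norm_mul]
      have h7 := (norm_add_le (w + t * I)⁻¹ (w + t * I - 1)⁻¹).trans (add_le_add h4 h5)
      have h8 : ‖(-(2 / 3) : ℂ)‖ = 2 / 3 := by
        rw [norm_neg, norm_div]; norm_num
      rw [h8]
      have h9 : (0 : ℝ) ≤ 2 / z.im := by positivity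
      have h10 : 4 / z.im = 2 / z.im + 2 / z.im := by ring
      rw [h10]
      nlinarith
    rw [hF']
    simp only
    rw [norm_mul, mul_comm]
    exact mul_le_mul h6 h1 (norm_nonneg _) (by positivity)
  have hzHB : z ∈ HB := hz.le
  have hmeas : ∀ᶠ w in 𝓝 z, AEStronglyMeasurable (fun t : ℝ => dn (w + t * I))
      (volume.restrict (Ioi 0)) := by
    filter_upwards [hs] with w hw
    have hw' : z.im / 2 < w.im := hw
    exact meas_line (show 0 ≤ w.im by linarith)
  have hcF' : ContinuousOn (F' z) (Ici 0) := by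
    have hmap : MapsTo (fun t : ℝ => z + t * I) (Ici 0) {w | 0 < w.im} := fun t ht => by
      show 0 < (z + t * I).im
      rw [im_add]
      have : 0 ≤ t := ht
      linarith
    have h1 : ContinuousOn (fun t : ℝ => dn (z + t * I)) (Ici 0) :=
      continuousOn_dn.comp (by fun_prop) hmap
    refine h1.mul (continuousOn_const.mul (ContinuousOn.add ?_ ?_))
    · refine ContinuousOn.inv₀ (by fun_prop) (fun t ht => ?_)
      intro h
      have h2 : 0 < (z + t * I).im := hmap ht
      rw [h] at h2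
      simp at h2
    · refine ContinuousOn.inv₀ (by fun_prop) (fun t ht => ?_)
      intro h
      have h2 : 0 < (z + t * I).im := hmap ht
      rw [sub_eq_zero.1 h] at h2
      simp at h2
  have hmeas' : AEStronglyMeasurable (F' z) (volume.restrict (Ioi 0)) :=
    (hcF'.mono Ioi_subset_Ici_self).aestronglyMeasurable measurableSet_Ioi
  obtain ⟨hint, hder⟩ := hasDerivAt_integral_of_dominated_loc_of_deriv_le (F' := F')
    (bound := fun t => 4 / z.im * G t) hs hmeas (integrable_line hzHB) hmeas'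
    ((ae_restrict_iff' measurableSet_Ioi).2 (Eventually.of_forall fun t ht => hb t ht))
    (integrableOn_G.const_mul _)
    ((ae_restrict_iff' measurableSet_Ioi).2 (Eventually.of_forall fun t ht => hd t ht))
  have hval : ∫ t in Ioi (0 : ℝ), F' z t = I * dn z := by
    have h1 : ∀ t ∈ Ici (0 : ℝ), HasDerivAt (fun t : ℝ => dn (z + t * I)) (F' z t * I) t := by
      intro t ht
      have ht' : 0 ≤ t := ht
      have h2 : HasDerivAt (fun t : ℝ => z + t * I) I t := by
        have := ((ofRealCLM.hasDerivAt (x := t)).mul_const I).const_add z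
        simpa using this
      have h3 := (hasDerivAt_dn (w := z + t * I) (by rw [im_add]; linarith)).comp t h2
      exact h3
    have h2 : IntegrableOn (fun t => F' z t * I) (Ioi 0) := hint.mul_const I
    have h3 : Tendsto (fun t : ℝ => dn (z + t * I)) atTop (𝓝 0) := by
      rw [tendsto_zero_iff_norm_tendsto_zero]
      have h4 : Tendsto (fun t : ℝ => t ^ (-(4 / 3) : ℝ)) atTop (𝓝 0) :=
        tendsto_rpow_neg_atTop (by norm_num)
      refine squeeze_zero' (Eventually.of_forall fun _ => norm_nonneg _) ?_ h4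
      filter_upwards [eventually_gt_atTop 1] with t ht
      have h5 : ‖dn (z + t * I)‖ ≤ G t := norm_dn_le (by linarith) (by rw [im_add]; linarith)
      rw [G, if_neg (not_le.2 ht)] at h5
      exact h5
    have h4 := integral_Ioi_of_hasDerivAt_of_tendsto' h1 h2 h3
    rw [integral_mul_const] at h4
    have h5 : (∫ t in Ioi (0 : ℝ), F' z t) * I = -dn z := by
      rw [h4]; simp
    calc _ = ((∫ t in Ioi (0 : ℝ), F' z t) * I) * (-I) := by
            linear_combination (∫ t in Ioi (0 : ℝ), F' z t) * I_mul_I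
      _ = _ := by rw [h5]; ring
  rw [← hval]
  exact hder

end Vale.Agent.P148.R2.H219
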