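import Vale.Agent.P148.R2.H219.SC

/-!
# Boundary values of the Schwarz-Christoffel integral
-/

open MeasureTheory Set Filter Topology Complex

namespace Vale.Agent.P148.R2.H219

theorem intInt_abs (c a b : ℝ) :
    IntervalIntegrable (fun s : ℝ => |s - c| ^ (-(2 / 3) : ℝ)) volume a b := by
  have h : ∀ a b : ℝ, IntervalIntegrable (fun s : ℝ => |s| ^ (-(2 / 3) : ℝ)) volume a b := by
    intro a b
    refine intervalIntegrable_of_even (fun x => by simp) (fun x hx => ?_)
    refine (intervalIntegral.intervalIntegrable_rpow' (r := -(2 / 3)) (by norm_num)).congr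
      (fun t ht => ?_)
    rw [uIoc_of_le hx.le] at ht
    simp only [abs_of_pos ht.1]
  have h2 := (h (a - c) (b - c)).comp_sub_right c
  simpa using h2

/-- the dominating function on the line -/
noncomputable def g2 (s : ℝ) : ℝ :=
  2 * (|s - 0| ^ (-(2 / 3) : ℝ) + |s - 1| ^ (-(2 / 3) : ℝ))

theorem intInt_g2 (a b : ℝ) : IntervalIntegrable g2 volume a b :=
  ((intInt_abs 0 a b).add (intInt_abs 1 a b)).const_mul 2

theorem norm_dn_le_g2 {s δ : ℝ} (hs0 : s ≠ 0) (hs1 : s ≠ 1) : ‖dn (s + δ * I)‖ ≤ g2 s := by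
  have a0 : |s| ≤ ‖(s + δ * I : ℂ)‖ := by
    have := abs_re_le_norm (s + δ * I : ℂ)
    simpa using this
  have a1 : |s - 1| ≤ ‖(s + δ * I - 1 : ℂ)‖ := by
    have := abs_re_le_norm (s + δ * I - 1 : ℂ)
    simpa using this
  have p0 : 0 < |s| := abs_pos.2 hs0
  have p1 : 0 < |s - 1| := abs_pos.2 (sub_ne_zero.2 hs1)
  have n0 : (s + δ * I : ℂ) ≠ 0 := norm_pos_iff.1 (p0.trans_le a0)
  have n1 : (s + δ * I : ℂ) ≠ 1 := sub_ne_zero.1 (norm_pos_iff.1 (p1.trans_le a1))
  refine (norm_dn_le_sum n0 n1).trans ?_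
  unfold g2
  rw [sub_zero]
  have := rpow_anti p0 a0
  have := rpow_anti p1 a1
  linarith

theorem continuousWithinAt_log {s : ℝ} (hs : s ≠ 0) : ContinuousWithinAt log HB (s : ℂ) := by
  rcases lt_or_gt_of_ne hs with h | h
  · exact continuousWithinAt_log_of_re_neg_of_im_zero (by simpa using h) (by simp)
  · exact (continuousAt_clog (Or.inl (by simpa using h))).continuousWithinAt

theorem continuousWithinAt_dn {s : ℝ} (hs0 : s ≠ 0) (hs1 : s ≠ 1) :
    ContinuousWithinAt dn HB (s : ℂ) := by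
  have h1 : ContinuousWithinAt (fun w : ℂ => log (w - 1)) HB (s : ℂ) := by
    have h2 : ContinuousWithinAt (fun w : ℂ => w - 1) HB (s : ℂ) := by fun_prop
    have h3 : ContinuousWithinAt log HB ((s : ℂ) - 1) := by
      have := continuousWithinAt_log (sub_ne_zero.2 hs1)
      simpa using this
    refine ContinuousWithinAt.comp (g := log) (f := fun w : ℂ => w - 1) (t := HB) h3 h2
      (fun w hw => ?_)
    have : 0 ≤ w.im := hw
    show 0 ≤ (w - 1).im
    simpa using this
  have h4 := ((continuousWithinAt_log hs0).add h1).sub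
    (continuousWithinAt_const (b := (Real.pi * I : ℂ)))
  exact ((continuousWithinAt_const (b := (-(2 / 3) : ℂ))).mul h4).cexp

/-- The boundary values: the increment of `J` along the real line. -/
theorem J_sub (a b : ℝ) : J b - J a = ∫ s in a..b, I * dn s := by
  have hl : ∀ x : ℝ, Tendsto (fun δ : ℝ => J (x + δ * I)) (𝓝[>] 0) (𝓝 (J x)) := by
    intro x
    have h1 : Tendsto (fun δ : ℝ => (x + δ * I : ℂ)) (𝓝[>] 0) (𝓝[HB] (x : ℂ)) := by
      refine tendsto_nhdsWithin_iff.2 ⟨?_, ?_⟩
      · have h2 : Continuous fun δ : ℝ => (x + δ * I : ℂ) := by fun_prop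
        have h3 := h2.tendsto 0
        simp only [ofReal_zero, zero_mul, add_zero] at h3
        exact h3.mono_left nhdsWithin_le_nhds
      · filter_upwards [self_mem_nhdsWithin] with δ hδ
        have : 0 < δ := hδ
        show 0 ≤ (x + δ * I : ℂ).im
        simpa using this.le
    exact (continuousOn_J (x : ℂ) (by show 0 ≤ (x : ℂ).im; simp)).tendsto.comp h1
  have hL : Tendsto (fun δ : ℝ => J (b + δ * I) - J (a + δ * I)) (𝓝[>] 0) (𝓝 (J b - J a)) :=
    (hl b).sub (hl a)
  have hR : Tendsto (fun δ : ℝ => ∫ s in a..b, I * dn (s + δ * I)) (𝓝[>] 0)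
      (𝓝 (∫ s in a..b, I * dn s)) := by
    refine intervalIntegral.tendsto_integral_filter_of_dominated_convergence g2 ?_ ?_
      (intInt_g2 a b) ?_
    · filter_upwards [self_mem_nhdsWithin] with δ hδ
      have hδ' : 0 < δ := hδ
      have hc : Continuous fun s : ℝ => I * dn (s + δ * I) := by
        refine continuous_const.mul (continuousOn_dn.comp_continuous (by fun_prop) (fun s => ?_))
        show 0 < (s + δ * I : ℂ).im
        simpa using hδ'
      exact hc.aestronglyMeasurable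
    · refine Eventually.of_forall fun δ => ?_
      have h0 : ∀ᵐ s : ℝ, s ≠ 0 := by simp [ae_iff, measure_singleton]
      have h1 : ∀ᵐ s : ℝ, s ≠ 1 := by simp [ae_iff, measure_singleton]
      filter_upwards [h0, h1] with s e0 e1 _
      rw [norm_mul, norm_I, one_mul]
      exact norm_dn_le_g2 e0 e1
    · have h0 : ∀ᵐ s : ℝ, s ≠ 0 := by simp [ae_iff, measure_singleton]
      have h1 : ∀ᵐ s : ℝ, s ≠ 1 := by simp [ae_iff, measure_singleton]
      filter_upwards [h0, h1] with s e0 e1 _
      refine Tendsto.const_mul I ?_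
      have h3 : Tendsto (fun δ : ℝ => (s + δ * I : ℂ)) (𝓝[>] 0) (𝓝[HB] (s : ℂ)) := by
        refine tendsto_nhdsWithin_iff.2 ⟨?_, ?_⟩
        · have h2 : Continuous fun δ : ℝ => (s + δ * I : ℂ) := by fun_prop
          have h3 := h2.tendsto 0
          simp only [ofReal_zero, zero_mul, add_zero] at h3
          exact h3.mono_left nhdsWithin_le_nhds
        · filter_upwards [self_mem_nhdsWithin] with δ hδ
          have : 0 < δ := hδ
          show 0 ≤ (s + δ * I : ℂ).im
          simpa using this.le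
      exact (continuousWithinAt_dn e0 e1).tendsto.comp h3
  refine tendsto_nhds_unique (hL.congr' ?_) hR
  filter_upwards [self_mem_nhdsWithin] with δ hδ
  have hδ' : 0 < δ := hδ
  symm
  have hc : Continuous fun s : ℝ => I * dn (s + δ * I) := by
    refine continuous_const.mul (continuousOn_dn.comp_continuous (by fun_prop) (fun s => ?_))
    show 0 < (s + δ * I : ℂ).im
    simpa using hδ'
  refine intervalIntegral.integral_eq_sub_of_hasDerivAt (f := fun s : ℝ => J (s + δ * I))
    (fun s _ => ?_) (hc.intervalIntegrable _ _)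
  have h1 : HasDerivAt (fun s : ℝ => (s + δ * I : ℂ)) 1 s := by
    have := (ofRealCLM.hasDerivAt (x := s)).add_const (δ * I : ℂ)
    simpa using this
  have h2 := (hasDerivAt_J (z := s + δ * I) (by simpa using hδ')).comp s h1
  rw [mul_one] at h2
  exact h2

/-- the real density -/
noncomputable def rd (s : ℝ) : ℝ := (|s| * |s - 1|) ^ (-(2 / 3) : ℝ)

theorem log_pos' {s : ℝ} (hs : 0 < s) : log (s : ℂ) = (Real.log |s| : ℂ) := by
  rw [abs_of_pos hs, ofReal_log hs.le]

theorem log_neg' {s : ℝ} (hs : s < 0) : log (s : ℂ) = Real.log |s| + Real.pi * I := by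
  rw [Complex.log, arg_ofReal_of_neg hs, norm_real, Real.norm_eq_abs]

theorem dn_of {s θ : ℝ} (hs0 : s ≠ 0) (hs1 : s ≠ 1)
    (h : log (s : ℂ) + log (s - 1 : ℂ) = Real.log |s| + Real.log |s - 1| + θ * I) :
    dn s = rd s * exp (-(2 / 3) * ((θ - Real.pi) * I)) := by
  have p0 : 0 < |s| := abs_pos.2 hs0
  have p1 : 0 < |s - 1| := abs_pos.2 (sub_ne_zero.2 hs1)
  rw [dn, h, rd, Real.rpow_def_of_pos (mul_pos p0 p1), Real.log_mul p0.ne' p1.ne', ofReal_exp,
    ← Complex.exp_add]
  congr 1
  push_cast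
  ring

theorem dn_mid {s : ℝ} (h0 : 0 < s) (h1 : s < 1) : dn s = rd s := by
  have e : (s - 1 : ℂ) = ((s - 1 : ℝ) : ℂ) := by push_cast; rfl
  rw [dn_of (θ := Real.pi) h0.ne' h1.ne (by
    rw [log_pos' h0, e, log_neg' (by linarith)]; ring)]
  simp

theorem dn_right {s : ℝ} (h1 : 1 < s) : dn s = rd s * exp (2 * Real.pi / 3 * I) := by
  have e : (s - 1 : ℂ) = ((s - 1 : ℝ) : ℂ) := by push_cast; rfl
  rw [dn_of (θ := 0) (by linarith) h1.ne' (by
    rw [log_pos' (by linarith), e, log_pos' (by linarith)]; simp)]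
  congr 2
  push_cast
  ring

theorem dn_left {s : ℝ} (h0 : s < 0) : dn s = rd s * (-exp (Real.pi / 3 * I)) := by
  have e : (s - 1 : ℂ) = ((s - 1 : ℝ) : ℂ) := by push_cast; rfl
  rw [dn_of (θ := 2 * Real.pi) h0.ne (by linarith) (by
    rw [log_neg' h0, e, log_neg' (by linarith)]; push_cast; ring)]
  congr 1
  have h : (-(2 / 3) * ((((2 * Real.pi : ℝ) : ℂ) - Real.pi) * I)) =
      Real.pi / 3 * I - Real.pi * I := by push_cast; ring
  rw [h, Complex.exp_sub, Complex.exp_pi_mul_I]
  ring

end Vale.Agent.P148.R2.H219
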