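import Vale.Agent.P148.R2.H219.SC2
import Vale.Agent.P148.Defs

/-!
# The Schwarz-Christoffel map of the half-plane onto the equilateral triangle

`S` is continuous on the closed half-plane, holomorphic inside, `S = cardy` on `[0,1]`, maps
`[1,∞)` and `(-∞,0]` into the two other lines, and tends to `exp (iπ/3)` at infinity.
-/

open MeasureTheory Set Filter Topology Complex

namespace Vale.Agent.P148.R2.H219

open _root_.P148 (cardy)

/-- The third vertex of the triangle. -/
noncomputable def v3 : ℂ := ⟨1 / 2, √3 / 2⟩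

/-- The linear form vanishing on the line through `1` and `v3`. -/
noncomputable def L2 (w : ℂ) : ℝ := √3 * (w.re - 1) + w.im

/-- The linear form vanishing on the line through `0` and `v3`. -/
noncomputable def L3 (w : ℂ) : ℝ := √3 * w.re - w.im

theorem v3_eq : v3 = exp (Real.pi / 3 * I) := by
  have h : (Real.pi / 3 * I : ℂ) = ((Real.pi / 3 : ℝ) : ℂ) * I := by push_cast; rfl
  rw [h]
  apply Complex.ext
  · rw [exp_ofReal_mul_I_re, Real.cos_pi_div_three, v3]
  · rw [exp_ofReal_mul_I_im, Real.sin_pi_div_three, v3]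

theorem exp_two_third : exp (2 * Real.pi / 3 * I) = ⟨-1 / 2, √3 / 2⟩ := by
  have h : (2 * Real.pi / 3 * I : ℂ) = ((Real.pi - Real.pi / 3 : ℝ) : ℂ) * I := by
    push_cast; ring
  rw [h]
  apply Complex.ext
  · rw [exp_ofReal_mul_I_re, Real.cos_pi_sub, Real.cos_pi_div_three]; norm_num
  · rw [exp_ofReal_mul_I_im, Real.sin_pi_sub, Real.sin_pi_div_three]

/-- The Beta integral. -/
noncomputable def B : ℝ := ∫ u in (0 : ℝ)..1, (u * (1 - u)) ^ (-(2 / 3) : ℝ)

theorem rd_eq {s : ℝ} (h0 : 0 ≤ s) (h1 : s ≤ 1) : rd s = (s * (1 - s)) ^ (-(2 / 3) : ℝ) := by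
  rw [rd, abs_of_nonneg h0, abs_of_nonpos (by linarith), neg_sub]

theorem rd_le_g2 {s : ℝ} (hs0 : s ≠ 0) (hs1 : s ≠ 1) : rd s ≤ g2 s := by
  have h := norm_dn_le_g2 (s := s) (δ := 0) hs0 hs1
  have e : (s + (0 : ℝ) * I : ℂ) = s := by simp
  rw [e, norm_dn (by exact_mod_cast hs0) (by exact_mod_cast hs1)] at h
  have e2 : ‖(s : ℂ) - 1‖ = |s - 1| := by
    rw [show (s : ℂ) - 1 = ((s - 1 : ℝ) : ℂ) by push_cast; rfl, norm_real, Real.norm_eq_abs]
  rw [norm_real, Real.norm_eq_abs, e2] at h
  exact h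

theorem intInt_rd (a b : ℝ) : IntervalIntegrable rd volume a b := by
  refine (intInt_g2 a b).mono_fun ?_ ?_
  · refine Measurable.aestronglyMeasurable ?_
    unfold rd
    fun_prop
  · have h0 : ∀ᵐ s : ℝ ∂(volume.restrict (uIoc a b)), s ≠ 0 :=
      ae_restrict_of_ae (by simp [ae_iff, measure_singleton])
    have h1 : ∀ᵐ s : ℝ ∂(volume.restrict (uIoc a b)), s ≠ 1 :=
      ae_restrict_of_ae (by simp [ae_iff, measure_singleton])
    filter_upwards [h0, h1] with s e0 e1
    have hr : 0 ≤ rd s := Real.rpow_nonneg (by positivity) _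
    rw [Real.norm_of_nonneg hr]
    exact (rd_le_g2 e0 e1).trans (le_abs_self _)

theorem B_eq : B = ∫ s in (0 : ℝ)..1, rd s := by
  unfold B
  refine intervalIntegral.integral_congr (fun s hs => ?_)
  rw [uIcc_of_le zero_le_one] at hs
  exact (rd_eq hs.1 hs.2).symm

theorem B_pos : 0 < B := by
  rw [B_eq]
  refine intervalIntegral.intervalIntegral_pos_of_pos_on (intInt_rd 0 1) (fun s hs => ?_) one_pos
  refine Real.rpow_pos_of_pos (mul_pos (abs_pos.2 hs.1.ne') (abs_pos.2 ?_)) _
  have := hs.2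
  intro h
  linarith

/-- The Schwarz-Christoffel map. -/
noncomputable def S (z : ℂ) : ℂ := v3 - I / B * J z

theorem continuousOn_S : ContinuousOn S HB :=
  continuousOn_const.sub (continuousOn_const.mul continuousOn_J)

theorem differentiableAt_S {z : ℂ} (hz : 0 < z.im) : DifferentiableAt ℂ S z :=
  ((hasDerivAt_J hz).differentiableAt.const_mul _).const_sub _

theorem tendsto_S : Tendsto S (comap norm atTop ⊓ 𝓟 HB) (𝓝 v3) := by
  have := (tendsto_J.const_mul (I / B)).const_sub v3
  rw [mul_zero, sub_zero] at this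
  exact this

theorem S_sub (a b : ℝ) : S b - S a = (∫ s in a..b, dn s) / B := by
  have h := J_sub a b
  rw [intervalIntegral.integral_const_mul] at h
  have e : S b - S a = -(I / B) * (J b - J a) := by unfold S; ring
  rw [e, h]
  have : -(I / B) * (I * ∫ s in a..b, dn s) = -(I * I) * (∫ s in a..b, dn s) / B := by ring
  rw [this, I_mul_I]
  ring

theorem S_sub_of {a b : ℝ} {c : ℂ} (hab : a ≤ b) (h : ∀ s ∈ Ioo a b, dn s = rd s * c) :
    S b - S a = ((∫ s in a..b, rd s) / B : ℝ) * c := by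
  rw [S_sub]
  have e : ∫ s in a..b, dn s = (∫ s in a..b, (rd s : ℂ)) * c := by
    rw [← intervalIntegral.integral_mul_const]
    refine intervalIntegral.integral_congr_ae ?_
    have h0 : ∀ᵐ s : ℝ, s ≠ b := by simp [ae_iff, measure_singleton]
    filter_upwards [h0] with s e0 hs
    rw [uIoc_of_le hab] at hs
    exact h s ⟨hs.1, lt_of_le_of_ne hs.2 e0⟩
  rw [e, intervalIntegral.integral_ofReal]
  push_cast
  ring

theorem S_mid {x : ℝ} (h0 : 0 ≤ x) (h1 : x ≤ 1) : S x - S 0 = (cardy x : ℂ) := by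
  have h := S_sub_of (a := 0) (b := x) (c := 1) h0 (fun s hs => by
    rw [dn_mid hs.1 (hs.2.trans_le h1), mul_one])
  rw [ofReal_zero, mul_one] at h
  rw [h]
  congr 1
  unfold cardy
  congr 1
  refine intervalIntegral.integral_congr (fun s hs => ?_)
  rw [uIcc_of_le h0] at hs
  exact rd_eq hs.1 (hs.2.trans h1)

theorem S_right {s : ℝ} (hs : 1 ≤ s) : ∃ r : ℝ, S s - S 1 = r * exp (2 * Real.pi / 3 * I) := by
  have h := S_sub_of (a := 1) (b := s) hs (fun t ht => dn_right ht.1)
  rw [ofReal_one] at h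
  exact ⟨_, h⟩

theorem S_left {s : ℝ} (hs : s ≤ 0) : ∃ r : ℝ, S s - S 0 = r * exp (Real.pi / 3 * I) := by
  have h := S_sub_of (a := s) (b := 0) hs (fun t ht => dn_left ht.2)
  rw [ofReal_zero] at h
  refine ⟨(∫ t in s..0, rd t) / B, ?_⟩
  linear_combination -h

theorem S_one_sub : S 1 - S 0 = 1 := by
  have h := S_mid zero_le_one le_rfl
  rw [ofReal_one] at h
  rw [h]
  have : cardy 1 = 1 := div_self B_pos.ne'
  rw [this, ofReal_one]

theorem mulL {r : ℝ} {u z : ℂ} (h : z = r * u) : z.re * u.im - z.im * u.re = 0 := by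
  rw [h]; simp; ring

theorem S_zero : S 0 = 0 := by
  have s3 : (0 : ℝ) < √3 := by positivity
  have s3' : √3 * √3 = 3 := Real.mul_self_sqrt (by norm_num)
  have htop : Tendsto (fun s : ℝ => S s) atTop (𝓝 v3) := by
    refine tendsto_S.comp (tendsto_inf.2 ⟨?_, ?_⟩)
    · rw [tendsto_comap_iff]
      refine tendsto_atTop_mono (fun s => ?_) tendsto_id
      simp [le_abs_self]
    · exact tendsto_principal.2 (Eventually.of_forall fun s => by show 0 ≤ (s : ℂ).im; simp)
  have hbot : Tendsto (fun s : ℝ => S s) atBot (𝓝 v3) := by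
    refine tendsto_S.comp (tendsto_inf.2 ⟨?_, ?_⟩)
    · rw [tendsto_comap_iff]
      refine tendsto_atTop_mono (fun s => ?_) tendsto_neg_atBot_atTop
      simp [neg_le_abs]
    · exact tendsto_principal.2 (Eventually.of_forall fun s => by show 0 ≤ (s : ℂ).im; simp)
  -- the limit lies on both lines
  have h1 : (v3 - S 1).re * (√3 / 2) - (v3 - S 1).im * (-1 / 2) = 0 := by
    have hc : Continuous fun w : ℂ => (w - S 1).re * (√3 / 2) - (w - S 1).im * (-1 / 2) := by
      fun_prop
    refine tendsto_nhds_unique ((hc.tendsto v3).comp htop) (tendsto_const_nhds.congr' ?_)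
    filter_upwards [eventually_ge_atTop (1 : ℝ)] with s hs
    obtain ⟨r, hr⟩ := S_right hs
    rw [exp_two_third] at hr
    exact (mulL hr).symm
  have h2 : (v3 - S 0).re * (√3 / 2) - (v3 - S 0).im * (1 / 2) = 0 := by
    have hc : Continuous fun w : ℂ => (w - S 0).re * (√3 / 2) - (w - S 0).im * (1 / 2) := by
      fun_prop
    refine tendsto_nhds_unique ((hc.tendsto v3).comp hbot) (tendsto_const_nhds.congr' ?_)
    filter_upwards [eventually_le_atBot (0 : ℝ)] with s hs
    obtain ⟨r, hr⟩ := S_left hs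
    rw [← v3_eq] at hr
    exact (mulL hr).symm
  have h3 := S_one_sub
  have e1 : (S 1).re = (S 0).re + 1 := by
    have := congrArg re h3; simp at this; linarith
  have e2 : (S 1).im = (S 0).im := by
    have := congrArg im h3; simp at this; linarith
  simp only [sub_re, sub_im, e1, e2, v3] at h1 h2
  apply Complex.ext
  · show (S 0).re = 0
    nlinarith
  · show (S 0).im = 0
    nlinarith

theorem S_one : S 1 = 1 := by
  have := S_one_sub
  rw [S_zero, sub_zero] at this
  exact this

theorem S_cardy {x : ℝ} (h0 : 0 ≤ x) (h1 : x ≤ 1) : S x = (cardy x : ℂ) := by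
  have := S_mid h0 h1
  rwa [S_zero, sub_zero] at this

theorem L2_S {s : ℝ} (hs : 1 ≤ s) : L2 (S s) = 0 := by
  obtain ⟨r, hr⟩ := S_right hs
  rw [S_one, exp_two_third] at hr
  have := mulL hr
  simp only [sub_re, sub_im, one_re, one_im] at this
  unfold L2
  linarith

theorem L3_S {s : ℝ} (hs : s ≤ 0) : L3 (S s) = 0 := by
  obtain ⟨r, hr⟩ := S_left hs
  rw [S_zero, ← v3_eq] at hr
  have := mulL hr
  simp only [sub_re, sub_im, zero_re, zero_im, v3] at this
  unfold L3
  linarith

end Vale.Agent.P148.R2.H219
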