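import Vale.Agent.P148.R2.H219.St6

/-!
# The mean weight of the class of `o`: bounds and reduction to squares (P148, module S)
-/

open Set Metric Filter Topology MeasureTheory Function
open scoped ComplexConjugate

namespace Vale.Agent.P148.R2.H219

open Vale.Agent.P148.R2.H592 Vale.Agent.P148.R2.H258

/-- The mean weight of the class of the outer dart is bounded by the energy of the weight. -/
theorem EE_sq_le {V D : Type*} {T : H258.Tri V D} [Fintype V] [Fintype D] (hP : T.Planar) {τ : ℂ}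
    (hτ : τ ^ 2 + τ + 1 = 0) {o : D} (ho : T.Good o) {Θ : D → ℂ}
    (hΘ : ∀ d, Θ (T.nxt d) = τ ^ 2 * Θ d) (hΘo : Θ o = 0) :
    3 * ‖T.EE o Θ‖ ^ 2 ≤ ∑ d, ‖Θ d‖ ^ 2 := by
  classical
  have h3 := Tri.tau_pow_three hτ
  have hτ' : (τ ^ 2) ^ 2 + τ ^ 2 + 1 = 0 := by
    linear_combination (τ ^ 2 - τ + 1) * hτ
  obtain ⟨h1, h2⟩ := T.EE_rot' hP hτ hΘ hΘo
  have hB := T.bessel hP hτ' ho
  have hz : ∀ d, T.InFace o d → Θ d = 0 := by
    intro d hd
    rcases hd with rfl | rfl | rfl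
    · exact hΘo
    · rw [hΘ, hΘo, mul_zero]
    · rw [hΘ, hΘ, hΘo, mul_zero, mul_zero]
  have e1 : 3 * T.EE o Θ = ∑ d, (if T.InFace o d then 0 else T.UU (τ ^ 2) o d) * Θ d := by
    have e2 : ∑ d, (if T.InFace o d then 0 else T.UU (τ ^ 2) o d) * Θ d =
        T.EE o Θ + τ ^ 2 * T.EE (T.nxt o) Θ + (τ ^ 2) ^ 2 * T.EE (T.nxt (T.nxt o)) Θ := by
      unfold Tri.EE Tri.UU
      rw [Finset.mul_sum, Finset.mul_sum, ← Finset.sum_add_distrib, ← Finset.sum_add_distrib]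
      refine Finset.sum_congr rfl fun d _ => ?_
      split_ifs with h
      · rw [hz d h]; ring
      · ring
    rw [e2, h1, h2]
    linear_combination (-(τ ^ 3 + 2) * T.EE o Θ) * h3
  have h4 : ‖3 * T.EE o Θ‖ ^ 2 ≤ 3 * ∑ d, ‖Θ d‖ ^ 2 := by
    rw [e1]
    have h5 : ‖∑ d, (if T.InFace o d then 0 else T.UU (τ ^ 2) o d) * Θ d‖ ≤
        ∑ d, ‖(if T.InFace o d then 0 else T.UU (τ ^ 2) o d)‖ * ‖Θ d‖ := by
      refine (norm_sum_le _ _).trans (le_of_eq ?_)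
      exact Finset.sum_congr rfl fun d _ => norm_mul _ _
    have h6 := Finset.sum_mul_sq_le_sq_mul_sq Finset.univ
      (fun d => ‖(if T.InFace o d then 0 else T.UU (τ ^ 2) o d)‖) (fun d => ‖Θ d‖)
    have h7 : ∑ d, ‖(if T.InFace o d then 0 else T.UU (τ ^ 2) o d)‖ ^ 2 ≤ 3 := by
      refine le_trans (le_of_eq (Finset.sum_congr rfl fun d _ => ?_)) hB
      split_ifs <;> simp
    have h8 : 0 ≤ ∑ d, ‖Θ d‖ ^ 2 := Finset.sum_nonneg fun d _ => by positivity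
    calc ‖∑ d, (if T.InFace o d then 0 else T.UU (τ ^ 2) o d) * Θ d‖ ^ 2
        ≤ (∑ d, ‖(if T.InFace o d then 0 else T.UU (τ ^ 2) o d)‖ * ‖Θ d‖) ^ 2 :=
          pow_le_pow_left₀ (norm_nonneg _) h5 2
      _ ≤ _ := h6
      _ ≤ 3 * ∑ d, ‖Θ d‖ ^ 2 := mul_le_mul_of_nonneg_right h7 h8
  rw [norm_mul, Complex.norm_ofNat] at h4
  nlinarith

theorem PA_nxt {X : Set ℂ} {b : ZMod 3 → ℂ} {τ : ℂ} (hτ : τ ^ 2 + τ + 1 = 0)
    (d : Fc X b × ZMod 3) : PA τ (d.1, d.2 + 1) = τ ^ 2 * PA τ d := by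
  have h3 := Tri.tau_pow_three hτ
  have e1 : d.2 + 1 + 2 = d.2 := by rw [add_assoc]; exact add_eq_left.2 (by decide)
  have e2 : d.2 + 1 + 1 = d.2 + 2 := by rw [add_assoc]; congr 1
  unfold PA head tail
  simp only [e1, e2]
  linear_combination (-vc d.1 d.2 - τ * vc d.1 (d.2 + 1)) * h3

theorem norm_PA_le {X : Set ℂ} {b : ZMod 3 → ℂ} {τ : ℂ} (hτ : τ ^ 2 + τ + 1 = 0)
    (d : Fc X b × ZMod 3) : ‖PA τ d‖ ≤ 2 * dm d.1 := by
  obtain ⟨t, j⟩ := d
  have hn := Tri.norm_tau hτ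
  have e1 : j + 1 + 1 = j + 2 := by rw [add_assoc]; congr 1
  have e3 : j + 2 + 1 = j := by rw [add_assoc]; exact add_eq_left.2 (by decide)
  have e4 : j + 2 + 2 = j + 1 := by rw [add_assoc]; congr 1
  have s0 := sideLe_dm t j
  have s2 := sideLe_dm t (j + 2)
  simp only [head, tail, e3, e4] at s2
  have e : PA τ (t, j) = (head (t, j) - tail (t, j)) + τ * -(vc t (j + 1) - vc t j) := by
    unfold PA head tail
    simp only
    linear_combination (vc t (j + 1)) * hτ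
  rw [e]
  refine (norm_add_le _ _).trans ?_
  rw [norm_mul, hn, one_mul, norm_neg]
  linarith

namespace Cfg

variable {S : Cfg}

theorem mean_add (χ χ' : ℂ → ℝ) (τ : ℂ) : S.mean (fun z => χ z + χ' z) τ =
    S.mean χ τ + S.mean χ' τ := by
  unfold mean Tri.EE
  rw [← Finset.sum_add_distrib]
  refine Finset.sum_congr rfl fun d _ => ?_
  push_cast; ring

theorem mean_smul (a : ℝ) (χ : ℂ → ℝ) (τ : ℂ) : S.mean (fun z => a * χ z) τ =
    a * S.mean χ τ := by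
  unfold mean Tri.EE
  rw [Finset.mul_sum]
  refine Finset.sum_congr rfl fun d _ => ?_
  push_cast; ring

theorem mean_zero (τ : ℂ) : S.mean (fun _ => 0) τ = 0 := by
  unfold mean Tri.EE
  refine Finset.sum_eq_zero fun d _ => ?_
  simp

theorem mean_sum {G : Type*} (s : Finset G) (χ : G → ℂ → ℝ) (τ : ℂ) :
    S.mean (fun z => ∑ g ∈ s, χ g z) τ = ∑ g ∈ s, S.mean (χ g) τ := by
  classical
  induction s using Finset.induction_on with
  | empty => simp [mean_zero]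
  | insert a s ha ih =>
    have e : (fun z => ∑ g ∈ insert a s, χ g z) = fun z => χ a z + ∑ g ∈ s, χ g z := by
      funext z; rw [Finset.sum_insert ha]
    rw [e, mean_add, ih, Finset.sum_insert ha]

/-- Bound of the mean weight by the energy of the triangulation. -/
theorem Fine.mean_sq_le {K : Set ℂ} {C η : ℝ} (hF : S.Fine K C η) {τ : ℂ}
    (hτ : τ ^ 2 + τ + 1 = 0) {χ : ℂ → ℝ} (hχ : ∀ z, z ∉ K → χ z = 0) {m : ℝ}
    (hm : ∀ z, |χ z| ≤ m) : ‖S.mean χ τ‖ ^ 2 ≤ 4 * m ^ 2 * C := by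
  classical
  have hz : ∀ t : Fc S.X S.b, ¬ Near K t → χ (vc t 0) = 0 := fun t ht => hχ _ ((hF.far ht).1 0)
  have hm0 : 0 ≤ m := (abs_nonneg _).trans (hm 0)
  have key := EE_sq_le S.planar hτ S.good (Θ := fun d => (χ (vc d.1 0) : ℂ) * PA τ d) (fun d => by
      have e : S.T.nxt d = (d.1, d.2 + 1) := rfl
      rw [e, PA_nxt hτ]; ring) (by
      have : χ (vc S.o.1 0) = 0 := hz _ fun h => hF.out _ h rfl
      rw [this]; simp)
  set N : Finset (Fc S.X S.b) := Finset.univ.filter fun t => Near K t with hN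
  have hE := hF.energy N fun t ht => (Finset.mem_filter.1 ht).2
  have h1 : ∑ d : Fc S.X S.b × ZMod 3, ‖(χ (vc d.1 0) : ℂ) * PA τ d‖ ^ 2 ≤
      ∑ t ∈ N, 3 * (m ^ 2 * (4 * dm t ^ 2)) := by
    rw [Fintype.sum_prod_type, ← Finset.sum_subset (Finset.subset_univ N)]
    · refine Finset.sum_le_sum fun t _ => ?_
      have h2 : ∀ j ∈ (Finset.univ : Finset (ZMod 3)), ‖(χ (vc t 0) : ℂ) * PA τ (t, j)‖ ^ 2 ≤
          m ^ 2 * (4 * dm t ^ 2) := by
        intro j _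
        rw [norm_mul, Complex.norm_real, Real.norm_eq_abs, mul_pow]
        have h3 := norm_PA_le hτ (t, j)
        have h4 : ‖PA τ (t, j)‖ ^ 2 ≤ (2 * dm t) ^ 2 := pow_le_pow_left₀ (norm_nonneg _) h3 2
        have h5 : |χ (vc t 0)| ^ 2 ≤ m ^ 2 := pow_le_pow_left₀ (abs_nonneg _) (hm _) 2
        have h6 := mul_le_mul h5 h4 (by positivity) (by positivity)
        linarith
      have h7 := Finset.sum_le_card_nsmul _ _ _ h2
      have h8 : (Finset.univ : Finset (ZMod 3)).card = 3 := by decide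
      rw [h8, nsmul_eq_mul] at h7
      exact_mod_cast h7
    · intro t _ ht
      have : χ (vc t 0) = 0 := hz t fun h => ht (Finset.mem_filter.2 ⟨Finset.mem_univ _, h⟩)
      simp only [this]
      simp
  have h2 : ∑ t ∈ N, 3 * (m ^ 2 * (4 * dm t ^ 2)) ≤ 12 * m ^ 2 * C := by
    have : ∑ t ∈ N, 3 * (m ^ 2 * (4 * dm t ^ 2)) = 12 * m ^ 2 * ∑ t ∈ N, dm t ^ 2 := by
      rw [Finset.mul_sum]
      exact Finset.sum_congr rfl fun t _ => by ring
    rw [this]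
    exact mul_le_mul_of_nonneg_left ((Finset.sum_le_sum fun t _ => dm_sq_le t).trans hE)
      (by positivity)
  have key' : 3 * ‖S.mean χ τ‖ ^ 2 ≤
      ∑ d : Fc S.X S.b × ZMod 3, ‖(χ (vc d.1 0) : ℂ) * PA τ d‖ ^ 2 := key
  linarith

end Cfg

/-- The half open square. -/
def sqr (a : ℂ) (r : ℝ) : Set ℂ :=
  {z | a.re ≤ z.re ∧ z.re < a.re + r ∧ a.im ≤ z.im ∧ z.im < a.im + r}

/-- The closed square. -/
def csqr (a : ℂ) (r : ℝ) : Set ℂ :=
  {z | a.re ≤ z.re ∧ z.re ≤ a.re + r ∧ a.im ≤ z.im ∧ z.im ≤ a.im + r}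

theorem sqr_subset_csqr (a : ℂ) (r : ℝ) : sqr a r ⊆ csqr a r :=
  fun _ hz => ⟨hz.1, hz.2.1.le, hz.2.2.1, hz.2.2.2.le⟩

theorem csqr_dist {a : ℂ} {r : ℝ} {z w : ℂ} (hz : z ∈ csqr a r) (hw : w ∈ csqr a r) :
    dist z w ≤ 2 * r := by
  rw [Complex.dist_eq]
  refine (Complex.norm_le_abs_re_add_abs_im _).trans ?_
  obtain ⟨h1, h2, h3, h4⟩ := hz
  obtain ⟨k1, k2, k3, k4⟩ := hw
  rw [Complex.sub_re, Complex.sub_im]
  have e1 : |z.re - w.re| ≤ r := abs_le.2 ⟨by linarith, by linarith⟩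
  have e2 : |z.im - w.im| ≤ r := abs_le.2 ⟨by linarith, by linarith⟩
  linarith

/-- The corner of the square number `g` of the grid with mesh `r`. -/
noncomputable def crn (r : ℝ) (g : ℤ × ℤ) : ℂ := ⟨g.1 * r, g.2 * r⟩

/-- The number of the square of a point. -/
noncomputable def sqn (r : ℝ) (z : ℂ) : ℤ × ℤ := (⌊z.re / r⌋, ⌊z.im / r⌋)

theorem mem_sqr_iff {r : ℝ} (hr : 0 < r) {z : ℂ} {g : ℤ × ℤ} : z ∈ sqr (crn r g) r ↔ g = sqn r z := by
  have h : ∀ (x : ℝ) (n : ℤ), (n * r ≤ x ∧ x < n * r + r) ↔ n = ⌊x / r⌋ := by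
    intro x n
    rw [eq_comm, Int.floor_eq_iff, le_div_iff₀ hr, div_lt_iff₀ hr, add_mul, one_mul]
  unfold sqr crn sqn
  rw [mem_ofPred_eq, Prod.ext_iff]
  simp only
  rw [← h, ← h]
  tauto

open Classical in
/-- The indicator function of a set. -/
noncomputable def ind1 (B : Set ℂ) (z : ℂ) : ℝ := if z ∈ B then 1 else 0

theorem arith1 {K0 r C η x : ℝ} (hK0 : 0 ≤ K0) (hr : 0 ≤ r)
    (hη : 0 < η) (hx : 0 ≤ x) (h1 : x ^ 2 ≤ 4 * (K0 * (2 * r)) ^ 2 * C)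
    (s1 : r ≤ η / (8 * (K0 + 1) * (√|C| + 1))) : x ≤ η / 2 := by
  have hs := Real.sqrt_nonneg |C|
  have s5 : √|C| ^ 2 = |C| := Real.sq_sqrt (abs_nonneg C)
  have s6 : 4 * (K0 * (2 * r)) ^ 2 * C ≤ 4 * (K0 * (2 * r)) ^ 2 * |C| :=
    mul_le_mul_of_nonneg_left (le_abs_self C) (by positivity)
  generalize √|C| = q at *
  have s2 : r * (8 * (K0 + 1) * (q + 1)) ≤ η := by
    rwa [le_div_iff₀ (by positivity)] at s1
  have s3 : 8 * (K0 * r * q) ≤ η := by
    refine le_trans ?_ s2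
    have : K0 * q ≤ (K0 + 1) * (q + 1) := by nlinarith
    nlinarith
  have s4 : (8 * (K0 * r * q)) ^ 2 ≤ η ^ 2 := pow_le_pow_left₀ (by positivity) s3 2
  have s7 : 4 * (K0 * (2 * r)) ^ 2 * |C| = (8 * (K0 * r * q)) ^ 2 / 4 := by
    linear_combination (-16 * K0 ^ 2 * r ^ 2) * s5
  rw [s7] at s6
  have s8 : x ^ 2 ≤ (η / 2) ^ 2 := by nlinarith
  exact (sq_le_sq₀ hx (by positivity)).1 s8

theorem arith2 {K0 η n : ℝ} (hK0 : 0 ≤ K0) (hη : 0 < η) (hn : 0 ≤ n) :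
    n * (K0 * (η / (2 * ((K0 + 1) * (n + 1))))) ≤ η / 2 := by
  rw [mul_div_assoc', mul_div_assoc', div_le_div_iff₀ (by positivity) (by norm_num)]
  have t2 : n * K0 ≤ (K0 + 1) * (n + 1) := by nlinarith
  nlinarith

/-- Finitely many squares of a grid meet a compact set. -/
theorem finite_squares {K : Set ℂ} (hK : IsCompact K) {r : ℝ} (hrp : 0 < r) :
    {g : ℤ × ℤ | (sqr (crn r g) r ∩ K).Nonempty}.Finite := by
  obtain ⟨R, hR⟩ := hK.isBounded.subset_closedBall 0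
  set N : ℤ := ⌈|R| / r⌉ + 1 with hN
  refine (((Set.finite_Icc (-N) N).prod (Set.finite_Icc (-N) N))).subset ?_
  rintro g ⟨z, hz1, hz2⟩
  have hg := (mem_sqr_iff hrp).1 hz1
  have hzR : ‖z‖ ≤ |R| := by
    have := hR hz2
    rw [mem_closedBall, dist_zero_right] at this
    exact this.trans (le_abs_self R)
  have key : ∀ x : ℝ, |x| ≤ |R| → ⌊x / r⌋ ∈ Icc (-N) N := by
    intro x hx
    have h1 : x / r ≤ |R| / r := div_le_div_of_nonneg_right ((le_abs_self x).trans hx) hrp.le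
    have h2 : -(|R| / r) ≤ x / r := by
      rw [← neg_div]
      exact div_le_div_of_nonneg_right (by have := neg_abs_le x; linarith) hrp.le
    have h3 : |R| / r ≤ ⌈|R| / r⌉ := Int.le_ceil _
    constructor
    · rw [Int.le_floor, hN]; push_cast; linarith
    · have : (⌊x / r⌋ : ℝ) ≤ x / r := Int.floor_le _
      have h4 : (⌊x / r⌋ : ℝ) ≤ ((⌈|R| / r⌉ + 1 : ℤ) : ℝ) := by push_cast; linarith
      exact_mod_cast h4
  rw [hg]
  exact ⟨key _ ((Complex.abs_re_le_norm z).trans hzR), key _ ((Complex.abs_im_le_norm z).trans hzR)⟩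

/-- Step functions on a grid approximate a test function. -/
theorem exists_step {D : Set ℂ} {χ : ℂ → ℝ} (hχ : IsTest D χ) {K0 : ℝ} (hK0 : TB χ K0) {r ρ : ℝ}
    (hrp : 0 < r) (hr1 : 2 * r ≤ ρ) : ∃ G : Finset (ℤ × ℤ),
      (∀ g ∈ G, csqr (crn r g) r ⊆ cthickening ρ (tsupport χ)) ∧
      (∀ z, z ∉ cthickening ρ (tsupport χ) →
        χ z + ∑ g ∈ G, -χ (crn r g) * ind1 (sqr (crn r g) r) z = 0) ∧
      ∀ z, |χ z + ∑ g ∈ G, -χ (crn r g) * ind1 (sqr (crn r g) r) z| ≤ K0 * (2 * r) := by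
  classical
  have hK0n := hK0.nonneg
  have hKc : IsCompact (tsupport χ) := hχ.compact
  have hfin := finite_squares hKc hrp
  set G : Finset (ℤ × ℤ) := hfin.toFinset with hG
  have hGm : ∀ g, g ∈ G ↔ (sqr (crn r g) r ∩ tsupport χ).Nonempty := fun g => by
    rw [hG, Set.Finite.mem_toFinset]; rfl
  have hGD : ∀ g ∈ G, csqr (crn r g) r ⊆ cthickening ρ (tsupport χ) := by
    intro g hg z hz
    obtain ⟨w, hw1, hw2⟩ := (hGm g).1 hg
    exact mem_cthickening_of_dist_le z w ρ _ hw2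
      ((csqr_dist hz (sqr_subset_csqr _ _ hw1)).trans hr1)
  have hsum : ∀ z, ∑ g ∈ G, -χ (crn r g) * ind1 (sqr (crn r g) r) z =
      if sqn r z ∈ G then -χ (crn r (sqn r z)) else 0 := by
    intro z
    split_ifs with h
    · rw [Finset.sum_eq_single_of_mem (sqn r z) h]
      · unfold ind1
        rw [if_pos ((mem_sqr_iff hrp).2 rfl), mul_one]
      · intro g _ hne
        unfold ind1
        rw [if_neg fun hh => hne ((mem_sqr_iff hrp).1 hh), mul_zero]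
    · refine Finset.sum_eq_zero fun g hg => ?_
      unfold ind1
      rw [if_neg fun hh => h ((mem_sqr_iff hrp).1 hh ▸ hg), mul_zero]
  refine ⟨G, hGD, ?_, ?_⟩
  · intro z hz
    have h1 : z ∉ tsupport χ := fun h => hz (self_subset_cthickening _ h)
    have h2 : sqn r z ∉ G := fun h => hz (hGD _ h (sqr_subset_csqr _ _ ((mem_sqr_iff hrp).2 rfl)))
    rw [hsum, if_neg h2, image_eq_zero_of_notMem_tsupport h1, add_zero]
  · intro z
    rw [hsum]
    split_ifs with h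
    · have h1 : z ∈ csqr (crn r (sqn r z)) r := sqr_subset_csqr _ _ ((mem_sqr_iff hrp).2 rfl)
      have h2 : crn r (sqn r z) ∈ csqr (crn r (sqn r z)) r :=
        ⟨le_rfl, by linarith, le_rfl, by linarith⟩
      have h3 := hK0.lip z (crn r (sqn r z))
      rw [← sub_eq_add_neg]
      refine h3.trans (mul_le_mul_of_nonneg_left ?_ hK0n)
      rw [← dist_eq_norm]
      exact csqr_dist h1 h2
    · have h1 : z ∉ tsupport χ := fun hh => h ((hGm _).2 ⟨z, (mem_sqr_iff hrp).2 rfl, hh⟩)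
      rw [image_eq_zero_of_notMem_tsupport h1, add_zero, abs_zero]
      positivity

/-- **Reduction to squares**: if the mean weight of the class of `o` in every square tends to zero
then so do the mean weights against the test functions. -/
theorem mean_small_of_squares {ι : Type*} {l : Filter ι} {S : ι → Cfg} {D : Set ℂ} (hD : IsOpen D)
    (fine : ∀ K, IsCompact K → K ⊆ D → ∃ C, ∀ η > 0, ∀ᶠ i in l, (S i).Fine K C η) {τ : ℂ}
    (hτ : τ ^ 2 + τ + 1 = 0)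
    (hsq : ∀ (a : ℂ) (r : ℝ), 0 < r → csqr a r ⊆ D → ∀ η > 0, ∀ᶠ i in l,
      ‖(S i).mean (ind1 (sqr a r)) τ‖ ≤ η)
    {χ : ℂ → ℝ} (hχ : IsTest D χ) {η : ℝ} (hη : 0 < η) :
    ∀ᶠ i in l, ‖(S i).mean χ τ‖ ≤ η := by
  classical
  obtain ⟨K0, hK0⟩ := hχ.exists_TB
  have hK0n := hK0.nonneg
  have hKc : IsCompact (tsupport χ) := hχ.compact
  obtain ⟨ρ, hρ, hρD⟩ := hKc.exists_cthickening_subset_open hD hχ.supp
  obtain ⟨C, hC⟩ := fine _ hKc.cthickening hρD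
  obtain ⟨r, hrp, hr1, hr2⟩ : ∃ r > 0, 2 * r ≤ ρ ∧ r ≤ η / (8 * (K0 + 1) * (√|C| + 1)) := by
    refine ⟨min (ρ / 2) (η / (8 * (K0 + 1) * (√|C| + 1))), lt_min (by positivity) (by positivity),
      ?_, min_le_right _ _⟩
    have := min_le_left (ρ / 2) (η / (8 * (K0 + 1) * (√|C| + 1)))
    linarith
  obtain ⟨G, hGD, hψ0, hψm⟩ := exists_step hχ hK0 hrp hr1
  have hdec : ∀ i, (S i).mean χ τ =
      (S i).mean (fun z => χ z + ∑ g ∈ G, -χ (crn r g) * ind1 (sqr (crn r g) r) z) τ +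
      ∑ g ∈ G, (χ (crn r g) : ℂ) * (S i).mean (ind1 (sqr (crn r g) r)) τ := by
    intro i
    rw [Cfg.mean_add, Cfg.mean_sum, add_assoc, ← Finset.sum_add_distrib]
    have e2 : ∀ g ∈ G, (S i).mean (fun z => -χ (crn r g) * ind1 (sqr (crn r g) r) z) τ +
        (χ (crn r g) : ℂ) * (S i).mean (ind1 (sqr (crn r g) r)) τ = 0 := by
      intro g _
      rw [Cfg.mean_smul]; push_cast; ring
    rw [Finset.sum_eq_zero e2, add_zero]
  -- the end
  have hmp : 0 < η / (2 * ((K0 + 1) * ((G.card : ℝ) + 1))) := by positivity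
  have hev : ∀ᶠ i in l, ∀ g ∈ G, ‖(S i).mean (ind1 (sqr (crn r g) r)) τ‖ ≤
      η / (2 * ((K0 + 1) * ((G.card : ℝ) + 1))) :=
    (Filter.eventually_all_finset G).2 fun g hg =>
      hsq _ _ hrp ((hGD g hg).trans hρD) _ hmp
  filter_upwards [hev, hC 1 one_pos] with i hi hF
  rw [hdec]
  refine (norm_add_le _ _).trans ?_
  have h2 := arith1 hK0n hrp.le hη (norm_nonneg _) (hF.mean_sq_le hτ hψ0 hψm) hr2
  have h3 : ‖∑ g ∈ G, (χ (crn r g) : ℂ) * (S i).mean (ind1 (sqr (crn r g) r)) τ‖ ≤ η / 2 := by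
    have t1 : ∀ g ∈ G, ‖(χ (crn r g) : ℂ) * (S i).mean (ind1 (sqr (crn r g) r)) τ‖ ≤
        K0 * (η / (2 * ((K0 + 1) * ((G.card : ℝ) + 1)))) := by
      intro g hg
      rw [norm_mul, Complex.norm_real]
      exact mul_le_mul (hK0.bd _) (hi g hg) (norm_nonneg _) hK0n
    refine (norm_sum_le_of_le _ t1).trans ?_
    rw [Finset.sum_const, nsmul_eq_mul]
    exact arith2 hK0n hη (Nat.cast_nonneg _)
  linarith

end Vale.Agent.P148.R2.H219
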