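import Vale.Agent.P148.R2.F.Obs
import Vale.Agent.P148.R2.H219.St9
import Vale.Agent.P148.R2.H291.Whp2

/-!
# Module S for the discrete domains of module F: the triangulation is fine
-/

open MeasureTheory Set Metric Topology Filter ProbabilityTheory Function
open scoped ENNReal NNReal ComplexConjugate

namespace Vale.Agent.P148.R2.H219

open _root_.P148
open Vale.Agent.P148.R2.H592 Vale.Agent.P148.R2.H258
open Vale.Agent.P148.R2.F (whp Dom Conv)

universe u

/-- The configuration of a discrete domain. -/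
noncomputable def cfg (D : Dom) : Cfg where
  X := D.X
  b := D.b
  h := D.hull
  V := D.V
  fV := inferInstance
  π := H592.cmap D.X D.O
  hπ := fib_cmap D.disj D.conn D.ne
  o := D.o
  ho := D.good_o

theorem cr_sub (u v x y : ℂ) : cr u v x - cr u v y = (conj (v - u) * (x - y)).im := by
  simp only [cr, Complex.mul_im, Complex.conj_re, Complex.conj_im, Complex.sub_re, Complex.sub_im]
  ring

theorem abs_cr_sub_le (u v x y : ℂ) : |cr u v x - cr u v y| ≤ ‖v - u‖ * dist x y := by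
  rw [cr_sub, dist_eq_norm]
  refine (Complex.abs_im_le_norm _).trans ?_
  rw [norm_mul, Complex.norm_conj]

theorem cr_shift {u v : ℂ} (h : v ≠ u) (w : ℂ) (r : ℝ) :
    cr u v (w - ((r / ‖v - u‖ : ℝ) : ℂ) * (Complex.I * (v - u))) = cr u v w - r * ‖v - u‖ := by
  have hL : 0 < ‖v - u‖ := norm_pos_iff.2 (sub_ne_zero.2 h)
  have e := cr_sub u v (w - ((r / ‖v - u‖ : ℝ) : ℂ) * (Complex.I * (v - u))) w
  have h1 : conj (v - u) * (w - ((r / ‖v - u‖ : ℝ) : ℂ) * (Complex.I * (v - u)) - w) =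
      ((-(r * ‖v - u‖) : ℝ) : ℂ) * Complex.I := by
    have h2 : conj (v - u) * (v - u) = ((‖v - u‖ ^ 2 : ℝ) : ℂ) := by
      rw [← Complex.normSq_eq_conj_mul_self, Complex.normSq_eq_norm_sq]
    have h3 : ((r / ‖v - u‖ : ℝ) : ℂ) * ((‖v - u‖ ^ 2 : ℝ) : ℂ) = ((r * ‖v - u‖ : ℝ) : ℂ) := by
      rw [← Complex.ofReal_mul]
      congr 1
      field_simp
    push_cast at h2 h3 ⊢
    linear_combination (-((r / ‖v - u‖ : ℂ)) * Complex.I) * h2 - Complex.I * h3
  have h4 : (((-(r * ‖v - u‖) : ℝ) : ℂ) * Complex.I).im = -(r * ‖v - u‖) := by simp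
  rw [h1, h4] at e
  linarith

/-- A point of a window with a net is on the inner side of far hull sides. -/
theorem cr_pos_of_net {X : Set ℂ} {b : ZMod 3 → ℂ} (hX : HullTri X b) {R r s : ℝ} (hr : 0 < r)
    (hr1 : r ≤ 1) (hsr : s < r)
    (hnet : ∀ z ∈ closedBall (0 : ℂ) (R + 1), ∃ v ∈ X, dist z v ≤ s)
    (hfar : ∀ j, R + 3 ≤ ‖b j‖) {w : ℂ} (hw : w ∈ closedBall (0 : ℂ) R) (j : ZMod 3) :
    0 < cr (b j) (b (j + 1)) w := by
  by_contra hc
  push Not at hc
  have hne : b (j + 1) ≠ b j := hX.b_ne (by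
    have : ∀ j : ZMod 3, j + 1 ≠ j := by decide
    exact this j)
  have hL : 0 < ‖b (j + 1) - b j‖ := norm_pos_iff.2 (sub_ne_zero.2 hne)
  set w' : ℂ := w - ((r / ‖b (j + 1) - b j‖ : ℝ) : ℂ) * (Complex.I * (b (j + 1) - b j)) with hw'
  have h1 : cr (b j) (b (j + 1)) w' = cr (b j) (b (j + 1)) w - r * ‖b (j + 1) - b j‖ :=
    cr_shift hne w r
  have h2 : dist w' w = r := by
    rw [dist_eq_norm, hw']
    have e : w - ((r / ‖b (j + 1) - b j‖ : ℝ) : ℂ) * (Complex.I * (b (j + 1) - b j)) - w =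
        -(((r / ‖b (j + 1) - b j‖ : ℝ) : ℂ) * (Complex.I * (b (j + 1) - b j))) := by ring
    rw [e, norm_neg, norm_mul, norm_mul, Complex.norm_I, one_mul, Complex.norm_real,
      Real.norm_eq_abs, abs_of_pos (by positivity)]
    field_simp
  rw [mem_closedBall] at hw
  have h3 : w' ∈ closedBall (0 : ℂ) (R + 1) := by
    rw [mem_closedBall]
    have := dist_triangle w' w 0
    linarith
  obtain ⟨v, hv, hvd⟩ := hnet w' h3
  have h4 : dist v 0 ≤ R + 2 := by
    have := dist_triangle v w' 0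
    rw [mem_closedBall] at h3
    rw [dist_comm v w'] at this
    linarith
  have h5 : 0 < cr (b j) (b (j + 1)) v := by
    refine hX.inside v hv (fun k hk => ?_) j
    have := hfar k
    rw [← hk, ← dist_zero_right] at this
    linarith
  have h6 := (abs_le.1 (abs_cr_sub_le (b j) (b (j + 1)) v w')).2
  rw [dist_comm] at hvd
  have h7 := mul_le_mul_of_nonneg_left hvd hL.le
  have h8 : ‖b (j + 1) - b j‖ * s < ‖b (j + 1) - b j‖ * r := mul_lt_mul_of_pos_left hsr hL
  linarith

/-- Points of a triangle with the corners in a closed ball. -/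
theorem Tr_subset_ball {a b c z : ℂ} {ρ : ℝ} (ha : dist a z ≤ ρ) (hb : dist b z ≤ ρ)
    (hc : dist c z ≤ ρ) {w : ℂ} (hw : w ∈ Tr a b c) : dist w z ≤ ρ := by
  obtain ⟨s, t, hs, ht, hst, rfl⟩ := mem_Tr.1 hw
  rw [dist_eq_norm] at *
  have e : a + (s * (b - a) + t * (c - a)) - z =
      ((1 - s - t : ℝ) : ℂ) * (a - z) + (s : ℂ) * (b - z) + (t : ℂ) * (c - z) := by
    push_cast; ring
  rw [e]
  refine norm_add₃_le.trans ?_
  rw [norm_mul, norm_mul, norm_mul, Complex.norm_real, Complex.norm_real, Complex.norm_real,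
    Real.norm_eq_abs, Real.norm_eq_abs, Real.norm_eq_abs, abs_of_nonneg hs, abs_of_nonneg ht,
    abs_of_nonneg (by linarith : 0 ≤ 1 - s - t)]
  have h1 := mul_le_mul_of_nonneg_left ha (by linarith : 0 ≤ 1 - s - t)
  have h2 := mul_le_mul_of_nonneg_left hb hs
  have h3 := mul_le_mul_of_nonneg_left hc ht
  linarith

/-- The corners of the faces which meet a window with a net are near. -/
theorem corner_near {X : Set ℂ} {b : ZMod 3 → ℂ} {R r s : ℝ} (hr : 0 < r)
    (hr1 : r ≤ 1) (hsr : s < r) (hnet : ∀ z ∈ closedBall (0 : ℂ) (R + 1), ∃ v ∈ X, dist z v ≤ s)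
    {t : Fc X b} (ht : Inner t) {w : ℂ} (hw : w ∈ closedBall (0 : ℂ) R) (hwt : w ∈ TF t)
    (j : ZMod 3) : dist (vc t j) w ≤ 3 * r := by
  have m0 : vc t 0 ∈ X := (inner_rot ht 0).1.1.1
  have m1 : vc t 1 ∈ X := (inner_rot ht 1).1.1.1
  have m2 : vc t 2 ∈ X := (inner_rot ht 2).1.1.1
  obtain ⟨⟨-, -, -, -, -, -, z, ⟨hz0, hz1⟩, hz2⟩, -⟩ := ht
  have d1 : dist z (vc t 1) = dist z (vc t 0) := le_antisymm (hz1 _ m0) (hz0 _ m1)
  have d2 : dist z (vc t 2) = dist z (vc t 0) := le_antisymm (hz2 _ m0) (hz0 _ m2)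
  have hwz : dist w z ≤ dist z (vc t 0) :=
    Tr_subset_ball (by rw [dist_comm]) (by rw [dist_comm, d1]) (by rw [dist_comm, d2]) hwt
  rw [mem_closedBall] at hw
  have hlt : dist w z < r := by
    by_contra hc
    push Not at hc
    have hpos : 0 < dist w z := hr.trans_le hc
    set w' : ℂ := w + ((r / dist w z : ℝ) : ℂ) * (z - w) with hw'
    have e1 : dist w' w = r := by
      rw [dist_eq_norm, hw', add_sub_cancel_left, norm_mul, Complex.norm_real, Real.norm_eq_abs,
        abs_of_pos (by positivity), ← dist_eq_norm, dist_comm z w]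
      field_simp
    have e2 : dist w' z = dist w z - r := by
      rw [dist_eq_norm, hw']
      have e : w + ((r / dist w z : ℝ) : ℂ) * (z - w) - z =
          ((1 - r / dist w z : ℝ) : ℂ) * (w - z) := by push_cast; ring
      rw [e, norm_mul, Complex.norm_real, Real.norm_eq_abs, abs_of_nonneg, ← dist_eq_norm]
      · field_simp
      · rw [sub_nonneg, div_le_one hpos]; exact hc
    obtain ⟨v, hv, hvd⟩ := hnet w' (by
      rw [mem_closedBall]
      have := dist_triangle w' w 0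
      linarith)
    have e3 := hz0 v hv
    have e4 := dist_triangle z w' v
    rw [dist_comm z w', e2] at e4
    linarith
  obtain ⟨v, hv, hvd⟩ := hnet w (by rw [mem_closedBall]; linarith)
  have e3 := hz0 v hv
  have e4 := dist_triangle z w v
  rw [dist_comm z w] at e4
  have e5 : dist z (vc t j) = dist z (vc t 0) := by
    rcases z3_all j with rfl | rfl | rfl
    · rfl
    · exact d1
    · exact d2
  have e6 := dist_triangle (vc t j) z w
  rw [dist_comm (vc t j) z, e5, dist_comm z w] at e6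
  linarith

section conv

variable {ι : Type} {Q : Quad} {l : Filter ι} {m : ι → ℝ × Set Pt} {E : ι → Dom}

/-- The corners of the faces near a compact set are free and near, eventually. -/
theorem conv_corner (hm : Tendsto m l whp.{u}) (hC : Conv Q l m E) {K : Set ℂ} (hK : IsCompact K)
    (hKD : K ⊆ Q.D) {r : ℝ} (hr : 0 < r) : ∀ᶠ i in l, ∀ t : Fc (E i).X (E i).b, Inner t →
      ∀ w ∈ K, w ∈ TF t → ∀ j, (E i).Free (vc t j) ∧ dist (vc t j) w ≤ r := by
  obtain ⟨s0, hs0, hsD⟩ := hK.exists_cthickening_subset_open (Half.isOpen_D Q) hKD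
  obtain ⟨R, hR⟩ := hK.isBounded.subset_closedBall (0 : ℂ)
  set ρ : ℝ := min (min r 1 / 3) (s0 / 6) with hρ
  have hρ0 : 0 < ρ := by positivity
  have h1 : 3 * ρ ≤ min r 1 := by
    have := min_le_left (min r 1 / 3) (s0 / 6)
    linarith
  have h1' : 3 * ρ ≤ r := h1.trans (min_le_left _ _)
  have h1'' : 3 * ρ ≤ 1 := h1.trans (min_le_right _ _)
  have h2 : 3 * ρ ≤ s0 / 2 := by
    have := min_le_right (min r 1 / 3) (s0 / 6)
    linarith
  filter_upwards [(H291.agree_conv hC).small hm (R + 1) (half_pos hρ0),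
    hC.inner (s0 / 2) (by positivity)] with i hi hf t ht w hw hwt j
  have h3 := corner_near (b := (E i).b) hρ0 (by linarith) (half_lt_self hρ0) hi.1 ht (hR hw) hwt j
  refine ⟨hf _ (inner_rot ht j).1.1.1 fun y hy => hsD ?_, h3.trans h1'⟩
  refine mem_cthickening_of_dist_le y w s0 _ hw ?_
  rw [mem_ball] at hy
  have := dist_triangle y (vc t j) w
  linarith

/-- **The triangulations are fine.** -/
theorem conv_fine (hm : Tendsto m l whp.{u}) (hC : Conv Q l m E) {K : Set ℂ} (hK : IsCompact K)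
    (hKD : K ⊆ Q.D) : ∃ C, ∀ η > 0, ∀ᶠ i in l, (cfg (E i)).Fine K C η := by
  classical
  obtain ⟨R, hR⟩ := hK.isBounded.subset_closedBall (0 : ℂ)
  have hR0 : K ⊆ closedBall (0 : ℂ) |R| := hR.trans (closedBall_subset_closedBall (le_abs_self R))
  refine ⟨H291.C0 * (|R| + 1) ^ 2, fun η hη => ?_⟩
  have hm1 : 0 < min η (1 / 2) := by positivity
  filter_upwards [(H291.agree_conv hC).small hm (|R| + 1) hm1, conv_corner hm hC hK hKD one_pos,
    hC.far (|R| + 3), H291.conv_edges hm hC 0 (show 0 < |R| + 1 by positivity)] with i h1 h2 h3 h4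
  have hsm : min η (1 / 2) ≤ η := min_le_left _ _
  have hsm2 : min η (1 / 2) ≤ 1 / 2 := min_le_right _ _
  have hcor : ∀ t : Fc (E i).X (E i).b, Near K t → ∀ j, (E i).Free (vc t j) ∧
      dist (vc t j) 0 ≤ |R| + 1 := by
    rintro t ⟨ht, w, hwt, hw⟩ j
    obtain ⟨a, b⟩ := h2 t ht w hw hwt j
    refine ⟨a, ?_⟩
    have h5 := hR0 hw
    rw [mem_closedBall] at h5
    have := dist_triangle (vc t j) w 0
    linarith
  have hout : ∀ t : Fc (E i).X (E i).b, Near K t → t ≠ (E i).o.1 := by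
    rintro t ht rfl
    exact (hcor _ ht ((E i).o.2 + 2)).1.2 0 (E i).head_o
  have hinj : ∀ t t' : Fc (E i).X (E i).b, Near K t → Near K t' → ∀ j j',
      H592.cmap (E i).X (E i).O (vc t j) = H592.cmap (E i).X (E i).O (vc t' j') →
      vc t j = vc t' j' := by
    intro t t' ht ht' j j' he
    have h5 := (hcor t ht j).1
    have e1 := H592.cmap_of_free (O := (E i).O) h5.1 h5.2
    rw [e1] at he
    exact (H592.eq_of_cmap he.symm).symm
  have hmesh : ∀ t : Fc (E i).X (E i).b, Near K t → ∀ j,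
      ‖head ((t, j) : Fc (E i).X (E i).b × ZMod 3) - tail (t, j)‖ ≤ η := by
    intro t ht j
    have h5 := h1.2.2 (tail ((t, j) : Fc (E i).X (E i).b × ZMod 3)) (by
      rw [mem_closedBall]; exact (hcor t ht (j + 1)).2) _ ((E i).hull.nbr_th (t, j))
    rw [← dist_eq_norm, dist_comm]
    exact h5.trans hsm
  have hen : ∀ N : Finset (Fc (E i).X (E i).b), (∀ t ∈ N, Near K t) →
      ∑ t ∈ N, ∑ j, ‖head ((t, j) : Fc (E i).X (E i).b × ZMod 3) - tail (t, j)‖ ^ 2 ≤
        H291.C0 * (|R| + 1) ^ 2 := by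
    intro N hN
    have e1 : ∑ t ∈ N, ∑ j, ‖head ((t, j) : Fc (E i).X (E i).b × ZMod 3) - tail (t, j)‖ ^ 2 =
        ∑ q ∈ N ×ˢ (Finset.univ : Finset (ZMod 3)), dist (tail q) (head q) ^ 2 := by
      rw [Finset.sum_product]
      refine Finset.sum_congr rfl fun t _ => Finset.sum_congr rfl fun j _ => ?_
      rw [dist_comm, dist_eq_norm]
    refine (le_of_eq e1).trans (le_trans ?_ h4)
    refine Finset.sum_le_sum_of_subset_of_nonneg ?_ fun _ _ _ => by positivity
    intro q hq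
    rw [Finset.mem_product] at hq
    rw [Finset.mem_filter]
    exact ⟨Finset.mem_univ _, (hcor q.1 (hN q.1 hq.1) (q.2 + 1)).2⟩
  exact ⟨fun w hw j => cr_pos_of_net (E i).hull (R := |R|) one_pos le_rfl (by linarith) h1.1 h3
    (hR0 hw) j, hout, hinj, hmesh, hen⟩

end conv

end Vale.Agent.P148.R2.H219
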