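import Vale.Agent.P148.R2.H219.End2

/-!
# Stokes' formula for a triangle, with error term (P148, module S)
-/

open Set Metric Filter Topology MeasureTheory Function
open scoped ComplexConjugate ContDiff NNReal

namespace Vale.Agent.P148.R2.H219

/-- Taylor bounds of a test function. -/
structure TB (χ : ℂ → ℝ) (K : ℝ) : Prop where
  nonneg : 0 ≤ K
  bd : ∀ w, |χ w| ≤ K
  lip : ∀ w c, |χ w - χ c| ≤ K * ‖w - c‖
  tay : ∀ w c, |χ w - χ c - fderiv ℝ χ c (w - c)| ≤ K * ‖w - c‖ ^ 2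
  dbd : ∀ w, ‖dbar χ w‖ ≤ K
  dlip : ∀ w c, ‖dbar χ w - dbar χ c‖ ≤ K * ‖w - c‖

theorem IsTest.exists_TB {D : Set ℂ} {χ : ℂ → ℝ} (h : IsTest D χ) : ∃ K, TB χ K := by
  obtain ⟨C0, hC0⟩ := h.smooth.continuous.norm.bddAbove_range_of_hasCompactSupport h.compact.norm
  obtain ⟨C1, hC1⟩ := ContDiff.lipschitzWith_of_hasCompactSupport h.compact h.smooth (by simp)
  obtain ⟨C2, hC2⟩ := ContDiff.lipschitzWith_of_hasCompactSupport (h.compact.fderiv ℝ)
    (h.smooth.fderiv_right (m := 1) (by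
      norm_num; exact WithTop.coe_le_coe.2 (le_top : (2 : ℕ∞) ≤ ⊤))) (by simp)
  obtain ⟨C3, hC3, hC3'⟩ := h.bound_dbar
  set K : ℝ := max (max C0 C1) (max (2 * C2) C3) with hK
  have k0 : C0 ≤ K := (le_max_left _ _).trans (le_max_left _ _)
  have k1 : (C1 : ℝ) ≤ K := (le_max_right _ _).trans (le_max_left _ _)
  have k2 : 2 * (C2 : ℝ) ≤ K := (le_max_left _ _).trans (le_max_right _ _)
  have k3 : C3 ≤ K := (le_max_right _ _).trans (le_max_right _ _)
  have hl : ∀ w c, ‖fderiv ℝ χ w - fderiv ℝ χ c‖ ≤ C2 * ‖w - c‖ := by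
    intro w c
    have := hC2.dist_le_mul w c
    rwa [dist_eq_norm, dist_eq_norm] at this
  refine ⟨K, ?_, ?_, ?_, ?_, ?_, ?_⟩
  · exact hC3.trans k3
  · intro w
    have : ‖χ w‖ ≤ C0 := hC0 ⟨w, rfl⟩
    rw [Real.norm_eq_abs] at this
    exact this.trans k0
  · intro w c
    have := hC1.dist_le_mul w c
    rw [Real.dist_eq, dist_eq_norm] at this
    exact this.trans (mul_le_mul_of_nonneg_right k1 (norm_nonneg _))
  · intro w c
    have h1 : ∀ z ∈ closedBall c ‖w - c‖, DifferentiableAt ℝ χ z := fun z _ =>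
      (h.smooth.differentiable (by simp)).differentiableAt
    have h2 : ∀ z ∈ closedBall c ‖w - c‖, ‖fderiv ℝ χ z - fderiv ℝ χ c‖ ≤ C2 * ‖w - c‖ := by
      intro z hz
      refine (hl z c).trans (mul_le_mul_of_nonneg_left ?_ C2.2)
      rw [← dist_eq_norm]; exact hz
    have h3 := (convex_closedBall c ‖w - c‖).norm_image_sub_le_of_norm_fderiv_le' h1 h2
      (mem_closedBall_self (norm_nonneg _)) (show w ∈ closedBall c ‖w - c‖ by
        rw [mem_closedBall, dist_eq_norm])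
    rw [Real.norm_eq_abs] at h3
    refine h3.trans ?_
    have h4 : (C2 : ℝ) * ‖w - c‖ * ‖w - c‖ = C2 * ‖w - c‖ ^ 2 := by ring
    rw [h4]
    refine mul_le_mul_of_nonneg_right ?_ (by positivity)
    have : (0 : ℝ) ≤ C2 := C2.2
    linarith
  · intro w; exact (hC3' w).trans k3
  · intro w c
    have e : dbar χ w - dbar χ c = (((fderiv ℝ χ w - fderiv ℝ χ c) 1 : ℝ) : ℂ) +
        Complex.I * (((fderiv ℝ χ w - fderiv ℝ χ c) Complex.I : ℝ) : ℂ) := by
      simp only [dbar, sub_apply]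
      push_cast; ring
    rw [e]
    refine (norm_add_le _ _).trans ?_
    rw [norm_mul, Complex.norm_I, one_mul, Complex.norm_real, Complex.norm_real]
    have h1 := (fderiv ℝ χ w - fderiv ℝ χ c).le_opNorm 1
    have h2 := (fderiv ℝ χ w - fderiv ℝ χ c).le_opNorm Complex.I
    rw [norm_one, mul_one] at h1
    rw [Complex.norm_I, mul_one] at h2
    have h3 := hl w c
    have h4 : 2 * (C2 : ℝ) * ‖w - c‖ ≤ K * ‖w - c‖ :=
      mul_le_mul_of_nonneg_right k2 (norm_nonneg _)
    linarith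

/-- Twice the signed area. -/
def crs (u v w : ℂ) : ℝ := (v.re - u.re) * (w.im - u.im) - (v.im - u.im) * (w.re - u.re)

/-- The standard triangle. -/
def T0 : Set ℂ := {z | 0 ≤ z.re ∧ 0 ≤ z.im ∧ z.re + z.im ≤ 1}

/-- The closed triangle with the corners `a, b, c`. -/
def Tr (a b c : ℂ) : Set ℂ := (fun z : ℂ => a + (z.re * (b - a) + z.im * (c - a))) '' T0

theorem mem_Tr {a b c p : ℂ} : p ∈ Tr a b c ↔ ∃ s t : ℝ, 0 ≤ s ∧ 0 ≤ t ∧ s + t ≤ 1 ∧
    p = a + (s * (b - a) + t * (c - a)) := by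
  constructor
  · rintro ⟨z, hz, rfl⟩
    exact ⟨z.re, z.im, hz.1, hz.2.1, hz.2.2, rfl⟩
  · rintro ⟨s, t, hs, ht, hst, rfl⟩
    exact ⟨⟨s, t⟩, ⟨hs, ht, hst⟩, rfl⟩

theorem isCompact_T0 : IsCompact T0 := by
  have h1 : IsClosed T0 := by
    refine (isClosed_le continuous_const Complex.continuous_re).inter
      ((isClosed_le continuous_const Complex.continuous_im).inter
        (isClosed_le (Complex.continuous_re.add Complex.continuous_im) continuous_const))
  refine Metric.isCompact_of_isClosed_isBounded h1 ((Metric.isBounded_iff_subset_closedBall 0).2 ⟨2, ?_⟩)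
  rintro z ⟨h2, h3, h4⟩
  rw [mem_closedBall_zero_iff]
  refine (Complex.norm_le_abs_re_add_abs_im z).trans ?_
  rw [abs_of_nonneg h2, abs_of_nonneg h3]
  linarith

theorem continuous_par (a b c : ℂ) :
    Continuous (fun z : ℂ => a + (z.re * (b - a) + z.im * (c - a))) :=
  continuous_const.add (((Complex.continuous_ofReal.comp Complex.continuous_re).mul
    continuous_const).add ((Complex.continuous_ofReal.comp Complex.continuous_im).mul
    continuous_const))

theorem isCompact_Tr (a b c : ℂ) : IsCompact (Tr a b c) :=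
  isCompact_T0.image (continuous_par a b c)

theorem measurableSet_Tr (a b c : ℂ) : MeasurableSet (Tr a b c) :=
  (isCompact_Tr a b c).isClosed.measurableSet

theorem volume_T0 : volume T0 = ENNReal.ofReal (1 / 2) := by
  have h1 : T0 = Complex.measurableEquivRealProd ⁻¹'
      {p : ℝ × ℝ | p.1 ∈ Icc (0 : ℝ) 1 ∧ p.2 ∈ Icc (0 : ℝ) (1 - p.1)} := by
    ext z
    simp only [T0, mem_ofPred_eq, mem_preimage, Complex.measurableEquivRealProd_apply, mem_Icc]
    constructor
    · rintro ⟨h2, h3, h4⟩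
      exact ⟨⟨h2, by linarith⟩, h3, by linarith⟩
    · rintro ⟨⟨h2, _⟩, h3, h4⟩
      exact ⟨h2, h3, by linarith⟩
  have h2 : MeasurableSet {p : ℝ × ℝ | p.1 ∈ Icc (0 : ℝ) 1 ∧ p.2 ∈ Icc (0 : ℝ) (1 - p.1)} := by
    refine IsClosed.measurableSet ?_
    have e : {p : ℝ × ℝ | p.1 ∈ Icc (0 : ℝ) 1 ∧ p.2 ∈ Icc (0 : ℝ) (1 - p.1)} =
        {p : ℝ × ℝ | 0 ≤ p.1} ∩ ({p : ℝ × ℝ | p.1 ≤ 1} ∩ ({p : ℝ × ℝ | 0 ≤ p.2} ∩
          {p : ℝ × ℝ | p.2 ≤ 1 - p.1})) := by
      ext p; simp only [mem_ofPred_eq, mem_Icc, mem_inter_iff]; tauto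
    rw [e]
    exact (isClosed_le continuous_const continuous_fst).inter
      ((isClosed_le continuous_fst continuous_const).inter
        ((isClosed_le continuous_const continuous_snd).inter
          (isClosed_le continuous_snd (continuous_const.sub continuous_fst))))
  rw [h1, Complex.volume_preserving_equiv_real_prod.measure_preimage h2.nullMeasurableSet]
  rw [Measure.volume_eq_prod, Measure.prod_apply h2]
  have h3 : ∀ x : ℝ, volume (Prod.mk x ⁻¹' {p : ℝ × ℝ | p.1 ∈ Icc (0 : ℝ) 1 ∧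
      p.2 ∈ Icc (0 : ℝ) (1 - p.1)}) = (Icc (0 : ℝ) 1).indicator
        (fun x => ENNReal.ofReal (1 - x)) x := by
    intro x
    by_cases hx : x ∈ Icc (0 : ℝ) 1
    · rw [indicator_of_mem hx]
      have : Prod.mk x ⁻¹' {p : ℝ × ℝ | p.1 ∈ Icc (0 : ℝ) 1 ∧ p.2 ∈ Icc (0 : ℝ) (1 - p.1)} =
          Icc 0 (1 - x) := by
        ext y; simp only [mem_preimage, mem_ofPred_eq]; tauto
      rw [this, Real.volume_Icc, sub_zero]
    · rw [indicator_of_notMem hx]
      have : Prod.mk x ⁻¹' {p : ℝ × ℝ | p.1 ∈ Icc (0 : ℝ) 1 ∧ p.2 ∈ Icc (0 : ℝ) (1 - p.1)} = ∅ := by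
        ext y; simp only [mem_preimage, mem_ofPred_eq, mem_empty_iff_false]; tauto
      rw [this, measure_empty]
  simp_rw [h3]
  rw [lintegral_indicator measurableSet_Icc]
  rw [← ofReal_integral_eq_lintegral_ofReal]
  · congr 1
    rw [integral_Icc_eq_integral_Ioc, ← intervalIntegral.integral_of_le zero_le_one]
    rw [intervalIntegral.integral_sub intervalIntegrable_const intervalIntegral.intervalIntegrable_id]
    simp
    norm_num
  · exact (continuous_const.sub continuous_id).continuousOn.integrableOn_compact isCompact_Icc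
  · rw [Filter.EventuallyLE, ae_restrict_iff' measurableSet_Icc]
    exact Eventually.of_forall fun x hx => by simp; exact hx.2

/-- The linear map with the given columns. -/
noncomputable def lin2 (u v : ℂ) : ℂ →ₗ[ℝ] ℂ where
  toFun z := z.re * u + z.im * v
  map_add' z w := by simp only [Complex.add_re, Complex.add_im]; push_cast; ring
  map_smul' r z := by
    simp only [Complex.smul_re, Complex.smul_im, smul_eq_mul, RingHom.id_apply]
    rw [Complex.real_smul]
    push_cast; ring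

theorem det_lin2 (u v : ℂ) : LinearMap.det (lin2 u v) = u.re * v.im - v.re * u.im := by
  rw [← LinearMap.det_toMatrix Complex.basisOneI, Matrix.det_fin_two]
  simp [LinearMap.toMatrix_apply, lin2]

theorem volume_Tr (a b c : ℂ) : volume (Tr a b c) = ENNReal.ofReal (|crs a b c| / 2) := by
  have h1 : Tr a b c = (fun w => a + w) '' (lin2 (b - a) (c - a) '' T0) := by
    rw [image_image]; rfl
  rw [h1, image_add_left, measure_preimage_add, Measure.addHaar_image_linearMap, det_lin2, volume_T0,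
    ← ENNReal.ofReal_mul (abs_nonneg _)]
  congr 1
  have : (b - a).re * (c - a).im - (c - a).re * (b - a).im = crs a b c := by
    simp only [crs, Complex.sub_re, Complex.sub_im]; ring
  rw [this]
  ring

theorem Tr_subset {a b c : ℂ} {δ : ℝ} (hb : ‖b - a‖ ≤ δ) (hc : ‖c - a‖ ≤ δ) :
    Tr a b c ⊆ closedBall a δ := by
  intro p hp
  obtain ⟨s, t, hs, ht, hst, rfl⟩ := mem_Tr.1 hp
  rw [mem_closedBall, dist_eq_norm, add_sub_cancel_left]
  refine (norm_add_le _ _).trans ?_
  rw [norm_mul, norm_mul, Complex.norm_real, Complex.norm_real, Real.norm_eq_abs, Real.norm_eq_abs,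
    abs_of_nonneg hs, abs_of_nonneg ht]
  have h0 : 0 ≤ δ := (norm_nonneg _).trans hb
  nlinarith

theorem crs_le {a b c : ℂ} {δ : ℝ} (hb : ‖b - a‖ ≤ δ) (hc : ‖c - a‖ ≤ δ) : |crs a b c| ≤ δ ^ 2 := by
  have e : crs a b c = (conj (b - a) * (c - a)).im := by
    simp only [crs, Complex.mul_im, Complex.conj_re, Complex.conj_im, Complex.sub_re,
      Complex.sub_im]
    ring
  rw [e]
  refine (Complex.abs_im_le_norm _).trans ?_
  rw [norm_mul, RCLike.norm_conj, sq]
  exact mul_le_mul hb hc (norm_nonneg _) ((norm_nonneg _).trans hb)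

/-- The exact formula for affine functions. -/
theorem stokes_affine (a b c : ℂ) (k : ℝ) (L : ℂ →L[ℝ] ℝ) :
    ((k + L ((a + b) / 2 - a) : ℝ) : ℂ) * (b - a) + ((k + L ((b + c) / 2 - a) : ℝ) : ℂ) * (c - b) +
      ((k + L ((c + a) / 2 - a) : ℝ) : ℂ) * (a - c) =
      Complex.I * ((crs a b c / 2 : ℝ) : ℂ) * ((L 1 : ℂ) + Complex.I * (L Complex.I : ℂ)) := by
  have hL : ∀ z : ℂ, L z = z.re * L 1 + z.im * L Complex.I := by
    intro z
    have : z = z.re • (1 : ℂ) + z.im • Complex.I := by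
      simp only [Complex.real_smul, mul_one]
      exact (Complex.re_add_im z).symm
    conv_lhs => rw [this]
    rw [map_add, map_smul, map_smul, smul_eq_mul, smul_eq_mul]
  rw [hL, hL ((b + c) / 2 - a), hL ((c + a) / 2 - a)]
  have h2 : ∀ z w : ℂ, ((z + w) / 2 - a).re = (z.re + w.re) / 2 - a.re := by
    intro z w
    rw [Complex.sub_re, show (z + w) / 2 = ((1 / 2 : ℝ) : ℂ) * (z + w) by push_cast; ring,
      Complex.re_ofReal_mul, Complex.add_re]
    ring
  have h3 : ∀ z w : ℂ, ((z + w) / 2 - a).im = (z.im + w.im) / 2 - a.im := by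
    intro z w
    rw [Complex.sub_im, show (z + w) / 2 = ((1 / 2 : ℝ) : ℂ) * (z + w) by push_cast; ring,
      Complex.im_ofReal_mul, Complex.add_im]
    ring
  rw [h2, h2, h2, h3, h3, h3]
  apply Complex.ext
  · simp only [crs, Complex.add_re, Complex.mul_re, Complex.mul_im, Complex.ofReal_re,
      Complex.ofReal_im, Complex.I_re, Complex.I_im, Complex.sub_re, Complex.sub_im, Complex.add_im]
    ring
  · simp only [crs, Complex.add_re, Complex.mul_re, Complex.mul_im, Complex.ofReal_re,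
      Complex.ofReal_im, Complex.I_re, Complex.I_im, Complex.sub_re, Complex.sub_im, Complex.add_im]
    ring

/-- The boundary sum of a triangle. -/
noncomputable def bsum (χ : ℂ → ℝ) (a b c : ℂ) : ℂ :=
  (χ ((a + b) / 2) : ℂ) * (b - a) + (χ ((b + c) / 2) : ℂ) * (c - b) +
    (χ ((c + a) / 2) : ℂ) * (a - c)

/-- **Stokes' formula for a triangle with error term.** -/
theorem stokes_tri {χ : ℂ → ℝ} {K : ℝ} (h : TB χ K) (hc : Continuous (dbar χ)) {a b c : ℂ} {δ : ℝ}
    (hab : ‖b - a‖ ≤ δ) (hac : ‖c - a‖ ≤ δ) (hbc : ‖c - b‖ ≤ δ) (hor : 0 ≤ crs a b c) :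
    ‖bsum χ a b c - Complex.I * ∫ w in Tr a b c, dbar χ w‖ ≤ 4 * K * δ ^ 3 := by
  have hδ : 0 ≤ δ := (norm_nonneg _).trans hab
  have hK := h.nonneg
  -- the integral
  have hvol : (volume (Tr a b c)).toReal = crs a b c / 2 := by
    rw [volume_Tr, ENNReal.toReal_ofReal (by positivity), abs_of_nonneg hor]
  have hfin : volume (Tr a b c) ≠ ⊤ := (isCompact_Tr a b c).measure_lt_top.ne
  have hint : IntegrableOn (dbar χ) (Tr a b c) := hc.continuousOn.integrableOn_compact
    (isCompact_Tr a b c)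
  have h1 : ‖(∫ w in Tr a b c, dbar χ w) - ((crs a b c / 2 : ℝ) : ℂ) * dbar χ a‖ ≤
      K * δ * (crs a b c / 2) := by
    have e : ((crs a b c / 2 : ℝ) : ℂ) * dbar χ a = ∫ w in Tr a b c, dbar χ a := by
      rw [setIntegral_const, measureReal_def, hvol, Complex.real_smul]
    rw [e, ← integral_sub hint (integrableOn_const hfin)]
    have := norm_setIntegral_le_of_norm_le_const (μ := volume) (s := Tr a b c) (C := K * δ)
      (f := fun w => dbar χ w - dbar χ a) hfin.lt_top (fun w hw => ?_)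
    · rwa [measureReal_def, hvol] at this
    · refine (h.dlip w a).trans (mul_le_mul_of_nonneg_left ?_ hK)
      have := Tr_subset hab hac hw
      rwa [mem_closedBall, dist_eq_norm] at this
  -- the boundary sum
  have hmid : ∀ z w : ℂ, ‖z - a‖ ≤ δ → ‖w - a‖ ≤ δ → ‖(z + w) / 2 - a‖ ≤ δ := by
    intro z w hz hw
    have e : (z + w) / 2 - a = ((z - a) + (w - a)) / 2 := by ring
    rw [e, norm_div, Complex.norm_ofNat]
    have := norm_add_le (z - a) (w - a)
    linarith
  have haa : ‖a - a‖ ≤ δ := by rw [sub_self, norm_zero]; exact hδ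
  set L := fderiv ℝ χ a with hL
  have hT : ∀ z : ℂ, ‖z - a‖ ≤ δ → |χ z - (χ a + L (z - a))| ≤ K * δ ^ 2 := by
    intro z hz
    have h2 := h.tay z a
    rw [← hL] at h2
    have e : χ z - (χ a + L (z - a)) = χ z - χ a - L (z - a) := by ring
    rw [e]
    refine h2.trans (mul_le_mul_of_nonneg_left ?_ hK)
    exact pow_le_pow_left₀ (norm_nonneg _) hz 2
  have key : bsum χ a b c - Complex.I * ∫ w in Tr a b c, dbar χ w =
      ((χ ((a + b) / 2) - (χ a + L ((a + b) / 2 - a)) : ℝ) : ℂ) * (b - a) +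
      ((χ ((b + c) / 2) - (χ a + L ((b + c) / 2 - a)) : ℝ) : ℂ) * (c - b) +
      ((χ ((c + a) / 2) - (χ a + L ((c + a) / 2 - a)) : ℝ) : ℂ) * (a - c) -
      Complex.I * ((∫ w in Tr a b c, dbar χ w) - ((crs a b c / 2 : ℝ) : ℂ) * dbar χ a) := by
    have e := stokes_affine a b c (χ a) L
    have e2 : dbar χ a = (L 1 : ℂ) + Complex.I * (L Complex.I : ℂ) := rfl
    rw [e2]
    unfold bsum
    push_cast at e ⊢
    linear_combination e
  rw [key]
  have t1 : ‖((χ ((a + b) / 2) - (χ a + L ((a + b) / 2 - a)) : ℝ) : ℂ) * (b - a)‖ ≤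
      K * δ ^ 2 * δ := by
    rw [norm_mul, Complex.norm_real, Real.norm_eq_abs]
    exact mul_le_mul (hT _ (hmid a b haa hab)) hab (norm_nonneg _) (by positivity)
  have t2 : ‖((χ ((b + c) / 2) - (χ a + L ((b + c) / 2 - a)) : ℝ) : ℂ) * (c - b)‖ ≤
      K * δ ^ 2 * δ := by
    rw [norm_mul, Complex.norm_real, Real.norm_eq_abs]
    exact mul_le_mul (hT _ (hmid b c hab hac)) hbc (norm_nonneg _) (by positivity)
  have t3 : ‖((χ ((c + a) / 2) - (χ a + L ((c + a) / 2 - a)) : ℝ) : ℂ) * (a - c)‖ ≤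
      K * δ ^ 2 * δ := by
    rw [norm_mul, Complex.norm_real, Real.norm_eq_abs]
    refine mul_le_mul (hT _ (hmid c a hac haa)) ?_ (norm_nonneg _) (by positivity)
    rw [← norm_neg, neg_sub]; exact hac
  have t4 : ‖Complex.I * ((∫ w in Tr a b c, dbar χ w) - ((crs a b c / 2 : ℝ) : ℂ) * dbar χ a)‖ ≤
      K * δ ^ 2 * δ := by
    rw [norm_mul, Complex.norm_I, one_mul]
    refine h1.trans ?_
    have := crs_le hab hac
    rw [abs_of_nonneg hor] at this
    have h5 : crs a b c / 2 ≤ δ ^ 2 := by linarith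
    calc K * δ * (crs a b c / 2) ≤ K * δ * δ ^ 2 := mul_le_mul_of_nonneg_left h5 (by positivity)
      _ = K * δ ^ 2 * δ := by ring
  have := norm_sub_le (((χ ((a + b) / 2) - (χ a + L ((a + b) / 2 - a)) : ℝ) : ℂ) * (b - a) +
      ((χ ((b + c) / 2) - (χ a + L ((b + c) / 2 - a)) : ℝ) : ℂ) * (c - b) +
      ((χ ((c + a) / 2) - (χ a + L ((c + a) / 2 - a)) : ℝ) : ℂ) * (a - c))
      (Complex.I * ((∫ w in Tr a b c, dbar χ w) - ((crs a b c / 2 : ℝ) : ℂ) * dbar χ a))
  have := norm_add₃_le (a := ((χ ((a + b) / 2) - (χ a + L ((a + b) / 2 - a)) : ℝ) : ℂ) * (b - a))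
      (b := ((χ ((b + c) / 2) - (χ a + L ((b + c) / 2 - a)) : ℝ) : ℂ) * (c - b))
      (c := ((χ ((c + a) / 2) - (χ a + L ((c + a) / 2 - a)) : ℝ) : ℂ) * (a - c))
  have e : 4 * K * δ ^ 3 = K * δ ^ 2 * δ + K * δ ^ 2 * δ + K * δ ^ 2 * δ + K * δ ^ 2 * δ := by ring
  rw [e]
  linarith

end Vale.Agent.P148.R2.H219
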