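import Vale.Agent.P148.R2.H219.St1
import Vale.Agent.P148.R2.H592.Del7

/-!
# The Delaunay triangles tile the hull triangle (P148, module S)
-/

open Set Metric Filter Topology MeasureTheory Function

namespace Vale.Agent.P148.R2.H219

open Vale.Agent.P148.R2.H592

theorem z3_all : ∀ j : ZMod 3, j = 0 ∨ j = 1 ∨ j = 2 := by decide

theorem crs_eq_cr (u v w : ℂ) : crs u v w = cr u v w := rfl

theorem mem_Tr_iff {u v w p : ℂ} (hc : 0 < cr u v w) :
    p ∈ Tr u v w ↔ 0 ≤ cr u v p ∧ 0 ≤ cr v w p ∧ 0 ≤ cr w u p := by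
  rw [mem_Tr]
  constructor
  · rintro ⟨s, t, hs, ht, hst, rfl⟩
    have e1 : cr u v (u + (s * (v - u) + t * (w - u))) = t * cr u v w := by
      simp only [cr, Complex.add_re, Complex.add_im, Complex.mul_re, Complex.mul_im,
        Complex.ofReal_re, Complex.ofReal_im, Complex.sub_re, Complex.sub_im]
      ring
    have e2 : cr v w (u + (s * (v - u) + t * (w - u))) = (1 - s - t) * cr u v w := by
      simp only [cr, Complex.add_re, Complex.add_im, Complex.mul_re, Complex.mul_im,
        Complex.ofReal_re, Complex.ofReal_im, Complex.sub_re, Complex.sub_im]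
      ring
    have e3 : cr w u (u + (s * (v - u) + t * (w - u))) = s * cr u v w := by
      simp only [cr, Complex.add_re, Complex.add_im, Complex.mul_re, Complex.mul_im,
        Complex.ofReal_re, Complex.ofReal_im, Complex.sub_re, Complex.sub_im]
      ring
    rw [e1, e2, e3]
    exact ⟨by positivity, mul_nonneg (by linarith) hc.le, by positivity⟩
  · rintro ⟨h1, h2, h3⟩
    have hsum : cr u v p + cr v w p + cr w u p = cr u v w := by unfold cr; ring
    refine ⟨cr w u p / cr u v w, cr u v p / cr u v w, by positivity, by positivity, ?_, ?_⟩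
    · rw [← add_div, div_le_one hc]; linarith
    · have hne : (cr u v w : ℝ) ≠ 0 := hc.ne'
      apply Complex.ext
      · simp only [Complex.add_re, Complex.mul_re, Complex.ofReal_re, Complex.ofReal_im,
          Complex.sub_re, Complex.sub_im, zero_mul, sub_zero]
        field_simp
        unfold cr; ring
      · simp only [Complex.add_im, Complex.mul_im, Complex.ofReal_re, Complex.ofReal_im,
          Complex.sub_re, Complex.sub_im, zero_mul, add_zero]
        field_simp
        unfold cr; ring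

theorem Tr_rot {u v w : ℂ} (hc : 0 < cr u v w) : Tr v w u = Tr u v w := by
  ext p
  rw [mem_Tr_iff (by rw [cr_rot]; exact hc), mem_Tr_iff hc]
  tauto

/-- The difference of two powers is affine. -/
theorem power_convex (u v w a a' z z' : ℂ) (s t : ℝ) :
    pw a (u + (s * (v - u) + t * (w - u))) z - pw a' (u + (s * (v - u) + t * (w - u))) z' =
      (1 - s - t) * (pw a u z - pw a' u z') + s * (pw a v z - pw a' v z') +
        t * (pw a w z - pw a' w z') := by
  simp only [pw, Complex.normSq_apply, Complex.add_re, Complex.add_im, Complex.mul_re,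
    Complex.mul_im, Complex.ofReal_re, Complex.ofReal_im, Complex.sub_re, Complex.sub_im]
  ring

/-- Inside a Delaunay triangle its power is minimal. -/
theorem power_min {X : Set ℂ} {u v w u' z z' p : ℂ} (hu : u ∈ X) (hv : v ∈ X) (hw : w ∈ X)
    (hzu : z ∈ vcell X u) (hzv : z ∈ vcell X v) (hzw : z ∈ vcell X w) (hz' : z' ∈ vcell X u')
    (hp : p ∈ Tr u v w) : pw u p z ≤ pw u' p z' := by
  obtain ⟨s, t, hs, ht, hst, rfl⟩ := mem_Tr.1 hp
  have e := power_convex u v w u u' z z' s t
  have e1 : pw u u z = 0 := pw_self u z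
  have e2 : pw u v z = 0 := pw_zero_of_mem hu hv hzu hzv
  have e3 : pw u w z = 0 := pw_zero_of_mem hu hw hzu hzw
  have f := mem_vcell.1 hz'
  rw [e1, e2, e3] at e
  have g1 := mul_nonneg (show 0 ≤ 1 - s - t by linarith) (f u hu)
  have g2 := mul_nonneg hs (f v hv)
  have g3 := mul_nonneg ht (f w hw)
  nlinarith

theorem volume_line {c : ℂ} (hc : c ≠ 0) (k : ℝ) :
    volume {p : ℂ | c.re * p.re + c.im * p.im = k} = 0 := by
  set L : ℂ →ₗ[ℝ] ℝ := c.re • Complex.reLm + c.im • Complex.imLm with hL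
  have hLp : ∀ p : ℂ, L p = c.re * p.re + c.im * p.im := fun p => rfl
  rcases eq_empty_or_nonempty {p : ℂ | c.re * p.re + c.im * p.im = k} with h | ⟨p0, hp0⟩
  · rw [h, measure_empty]
  · have hne : LinearMap.ker L ≠ ⊤ := by
      intro htop
      have h1 : c ∈ LinearMap.ker L := by rw [htop]; exact Submodule.mem_top
      rw [LinearMap.mem_ker, hLp] at h1
      apply hc
      have h2 : c.re = 0 := by nlinarith [mul_self_nonneg c.re, mul_self_nonneg c.im]
      have h3 : c.im = 0 := by nlinarith [mul_self_nonneg c.re, mul_self_nonneg c.im]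
      exact Complex.ext h2 h3
    have h0 := Measure.addHaar_submodule (volume : Measure ℂ) (LinearMap.ker L) hne
    have e : {p : ℂ | c.re * p.re + c.im * p.im = k} =
        (fun p => -p0 + p) ⁻¹' (LinearMap.ker L : Set ℂ) := by
      ext p
      rw [mem_preimage, SetLike.mem_coe, LinearMap.mem_ker, map_add, map_neg, hLp, hLp]
      have hp0' : c.re * p0.re + c.im * p0.im = k := hp0
      rw [mem_ofPred_eq, hp0']
      constructor <;> intro h <;> linarith
    rw [e, measure_preimage_add]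
    exact h0

/-- The closed triangle of a face. -/
def TF {X : Set ℂ} {b : ZMod 3 → ℂ} (t : Fc X b) : Set ℂ := Tr (vc t 0) (vc t 1) (vc t 2)

/-- The inner faces. -/
def Inner {X : Set ℂ} {b : ZMod 3 → ℂ} (t : Fc X b) : Prop := face X (vc t 0) (vc t 1) (vc t 2)

theorem inner_rot {X : Set ℂ} {b : ZMod 3 → ℂ} {t : Fc X b} (ht : Inner t) (j : ZMod 3) :
    face X (vc t j) (vc t (j + 1)) (vc t (j + 2)) ∧ Tr (vc t j) (vc t (j + 1)) (vc t (j + 2)) = TF t := by
  have h3 := z3_all j
  have e1 : (1 : ZMod 3) + 1 = 2 := by decide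
  have e2 : (1 : ZMod 3) + 2 = 0 := by decide
  have e3 : (2 : ZMod 3) + 1 = 0 := by decide
  have e4 : (2 : ZMod 3) + 2 = 1 := by decide
  rcases h3 with rfl | rfl | rfl
  · rw [zero_add, zero_add]; exact ⟨ht, rfl⟩
  · rw [e1, e2]; exact ⟨face_rot ht, Tr_rot ht.2⟩
  · rw [e3, e4]
    exact ⟨face_rot (face_rot ht), (Tr_rot (face_rot ht).2).trans (Tr_rot ht.2)⟩

namespace HT

variable {X : Set ℂ} {b : ZMod 3 → ℂ} (h : HullTri X b)
include h

/-- Two inner faces with the same circumcentre agree. -/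
theorem same_center {t t' : Fc X b} (ht : Inner t) (ht' : Inner t') {z : ℂ}
    (hz : ∀ j, z ∈ vcell X (vc t j)) (hz' : ∀ j, z ∈ vcell X (vc t' j)) : t = t' := by
  obtain ⟨⟨hu, hv, hw, huv, hvw, hwu, -⟩, hcr⟩ := ht
  obtain ⟨⟨hu', hv', hw', huv', hvw', hwu', -⟩, hcr'⟩ := ht'
  have a1 := h.three z _ _ _ _ hu hv hw hu' (hz 0) (hz 1) (hz 2) (hz' 0) huv hvw hwu
  have a2 := h.three z _ _ _ _ hu hv hw hv' (hz 0) (hz 1) (hz 2) (hz' 1) huv hvw hwu
  have a3 := h.three z _ _ _ _ hu hv hw hw' (hz 0) (hz 1) (hz 2) (hz' 2) huv hvw hwu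
  obtain ⟨⟨u, v, w⟩, hT, hc1, hc2⟩ := t
  obtain ⟨⟨u', v', w'⟩, hT', hc1', hc2'⟩ := t'
  simp only [vc] at *
  have key : (u, v, w) = (u', v', w') := by
    rcases a1 with rfl | rfl | rfl <;> rcases a2 with rfl | rfl | rfl <;>
      rcases a3 with rfl | rfl | rfl <;> first
        | rfl
        | exact absurd rfl huv'
        | exact absurd rfl hvw'
        | exact absurd rfl hwu'
        | (exfalso; exact lt_asymm hc1 hc2')
        | (exfalso; exact lt_asymm hc2 hc1')
        | (exfalso; unfold cr at hcr hcr'; linarith)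
  exact Subtype.ext key

theorem overlap {t t' : Fc X b} (ht : Inner t) (ht' : Inner t') (hne : t ≠ t') :
    volume (TF t ∩ TF t') = 0 := by
  have ht0 := ht
  have ht0' := ht'
  obtain ⟨⟨hu, hv, hw, huv, hvw, hwu, z, ⟨hz1, hz2⟩, hz3⟩, hcr⟩ := ht
  obtain ⟨⟨hu', hv', hw', huv', hvw', hwu', z', ⟨hz1', hz2'⟩, hz3'⟩, hcr'⟩ := ht'
  have hzz : z ≠ z' := by
    rintro rfl
    refine hne (same_center h ht0 ht0' (z := z) ?_ ?_)
    · intro j
      have h3 := z3_all j
      rcases h3 with rfl | rfl | rfl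
      · exact hz1
      · exact hz2
      · exact hz3
    · intro j
      have h3 := z3_all j
      rcases h3 with rfl | rfl | rfl
      · exact hz1'
      · exact hz2'
      · exact hz3'
  have hc : z' - z ≠ 0 := sub_ne_zero.2 hzz.symm
  refine measure_mono_null ?_ (volume_line hc
    (((Complex.normSq z' - Complex.normSq z) + (Complex.normSq (z - vc t 0) -
      Complex.normSq (z' - vc t' 0))) / 2))
  rintro p ⟨hp, hp'⟩
  have e1 := power_min hu hv hw hz1 hz2 hz3 hz1' hp
  have e2 := power_min hu' hv' hw' hz1' hz2' hz3' hz1 hp'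
  have e3 : pw (vc t 0) p z = pw (vc t' 0) p z' := le_antisymm e1 e2
  rw [mem_ofPred_eq]
  simp only [pw] at e3
  simp only [Complex.normSq_apply, Complex.sub_re, Complex.sub_im] at e3 ⊢
  linarith

theorem cover {p : ℂ} (hp : p ∈ Tr (b 0) (b 1) (b 2)) : ∃ t : Fc X b, Inner t ∧ p ∈ TF t := by
  classical
  set T : Set (ℂ × ℂ × ℂ) := {q | face X q.1 q.2.1 q.2.2} with hT
  have hTf : T.Finite := (h.fin.prod (h.fin.prod h.fin)).subset fun q hq =>
    ⟨hq.1.1, hq.1.2.1, hq.1.2.2.1⟩
  have hTn : T.Nonempty := by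
    have e2 : (0 : ZMod 3) + 1 = 1 := by decide
    have h1 : nbr X (b 0) (b 1) := by
      have := nbr_symm (h.nbr_hull 0)
      rwa [e2] at this
    obtain ⟨w, hw⟩ := exists_face h.fin h1 ⟨b 2, h.mem 2, h.ccw⟩
    exact ⟨(b 0, b 1, w), hw⟩
  have hex : ∀ q ∈ T, ∃ z, z ∈ vcell X q.1 ∧ z ∈ vcell X q.2.1 ∧ z ∈ vcell X q.2.2 := by
    rintro q ⟨⟨-, -, -, -, -, -, z, ⟨hz1, hz2⟩, hz3⟩, -⟩
    exact ⟨z, hz1, hz2, hz3⟩
  choose! ce hce using hex
  obtain ⟨q, hq, hmin⟩ := hTf.exists_minimalFor (fun q => pw q.1 p (ce q)) T hTn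
  have hmin' : ∀ r ∈ T, pw q.1 p (ce q) ≤ pw r.1 p (ce r) := fun r hr => by
    rcases le_total (pw q.1 p (ce q)) (pw r.1 p (ce r)) with h | h
    · exact h
    · exact hmin hr h
  -- the main step
  have main : ∀ u v w z : ℂ, face X u v w → z ∈ vcell X u → z ∈ vcell X v → z ∈ vcell X w →
      (∀ r ∈ T, pw u p z ≤ pw r.1 p (ce r)) → 0 ≤ cr u v p := by
    intro u v w z hf hzu hzv hzw hm
    by_contra hneg
    push Not at hneg
    obtain ⟨⟨hu, hv, hw, huv, hvw, hwu, -⟩, hcr⟩ := hf
    by_cases hhull : ∃ j, v = b (j + 1) ∧ u = b j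
    · obtain ⟨j, hvj, huj⟩ := hhull
      have hb := (mem_Tr_iff h.ccw).1 hp
      rw [hvj, huj] at hneg
      have h3 := z3_all j
      have e1 : (1 : ZMod 3) + 1 = 2 := by decide
      have e3 : (2 : ZMod 3) + 1 = 0 := by decide
      rcases h3 with rfl | rfl | rfl
      · rw [zero_add] at hneg; linarith [hb.1]
      · rw [e1] at hneg; linarith [hb.2.1]
      · rw [e3] at hneg; linarith [hb.2.2]
    · push Not at hhull
      have hnb : nbr X v u := ⟨hv, hu, huv.symm, z, hzv, hzu⟩
      obtain ⟨c, hc, hcc⟩ := h.exists_left hnb fun j hj => hhull j hj.1 hj.2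
      obtain ⟨c, hfc⟩ := exists_face h.fin hnb ⟨c, hc, hcc⟩
      have hr : (v, u, c) ∈ T := hfc
      obtain ⟨hz1, hz2, hz3⟩ := hce _ hr
      set z' := ce (v, u, c) with hz'
      simp only at hz1 hz2 hz3
      have hm' := hm _ hr
      simp only at hm'
      rw [← hz'] at hm'
      -- both centres are on the bisector of `u v`
      obtain ⟨s, hs⟩ := exists_bis huv (pw_zero_of_mem hu hv hzu hzv)
      obtain ⟨s', hs'⟩ := exists_bis huv (pw_zero_of_mem hu hv hz2 hz1)
      have hcX : c ∈ X := hfc.1.2.2.1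
      have hcneg : cr u v c < 0 := by
        have := hfc.2
        rw [cr_swap] at this
        linarith
      have a1 : 0 ≤ pw u c z := mem_vcell.1 hzu c hcX
      have a2 : pw u c z' = 0 := pw_zero_of_mem hu hcX hz2 hz3
      have a3 : pw v p z' = pw u p z' := by
        have := pw_zero_of_mem hu hv hz2 hz1
        unfold pw at this ⊢
        linarith
      rw [a3] at hm'
      have b1 : pw u p z = pw u p (bis u v 0) - 2 * s * cr u v p := by rw [hs, pw_bis]
      have b2 : pw u p z' = pw u p (bis u v 0) - 2 * s' * cr u v p := by rw [hs', pw_bis]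
      rw [b1, b2] at hm'
      rw [hs, pw_bis] at a1
      rw [hs', pw_bis] at a2
      have hle : s' ≤ s := by
        by_contra hlt
        push Not at hlt
        nlinarith
      have hge : s ≤ s' := by
        by_contra hlt
        push Not at hlt
        nlinarith
      have hss : s = s' := le_antisymm hge hle
      -- same centre: four cocircular points
      have hzz : z = z' := by rw [hs, hs', hss]
      rcases h.three z u v w c hu hv hw hcX hzu hzv hzw (hzz ▸ hz3) huv hvw hwu with h6 | h6 | h6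
      · rw [h6] at hcneg
        have : cr u v u = 0 := by unfold cr; ring
        linarith
      · rw [h6] at hcneg
        have : cr u v v = 0 := by unfold cr; ring
        linarith
      · rw [h6] at hcneg
        linarith
  obtain ⟨hz1, hz2, hz3⟩ := hce q hq
  have hq' : face X q.1 q.2.1 q.2.2 := hq
  obtain ⟨⟨hu, hv, hw, huv, hvw, hwu, -⟩, hcr⟩ := hq'
  have hpw1 : pw q.2.1 p (ce q) = pw q.1 p (ce q) := by
    have := pw_zero_of_mem hu hv hz1 hz2
    unfold pw at this ⊢
    linarith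
  have hpw2 : pw q.2.2 p (ce q) = pw q.1 p (ce q) := by
    have := pw_zero_of_mem hu hw hz1 hz3
    unfold pw at this ⊢
    linarith
  have c1 := main q.1 q.2.1 q.2.2 (ce q) hq hz1 hz2 hz3 hmin'
  have c2 := main q.2.1 q.2.2 q.1 (ce q) (face_rot hq) hz2 hz3 hz1 (by rw [hpw1]; exact hmin')
  have c3 := main q.2.2 q.1 q.2.1 (ce q) (face_rot (face_rot hq)) hz3 hz1 hz2
    (by rw [hpw2]; exact hmin')
  have hpin : p ∈ Tr q.1 q.2.1 q.2.2 := (mem_Tr_iff hcr).2 ⟨c1, c2, c3⟩
  obtain ⟨r, hr1, hr2, hr3⟩ := h.exists_face_of_Tl (Or.inl hq : Tl X b q.1 q.2.1 q.2.2)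
  have hf : face X q.1 q.2.1 q.2.2 := hq
  rw [← hr1, ← hr2, ← hr3] at hf hpin
  obtain ⟨t, j⟩ := r
  simp only [tail, head] at hf hpin
  have e1 : (1 : ZMod 3) + 1 = 2 := by decide
  have e2 : (1 : ZMod 3) + 2 = 0 := by decide
  have e3 : (2 : ZMod 3) + 1 = 0 := by decide
  have e4 : (2 : ZMod 3) + 2 = 1 := by decide
  rcases z3_all j with rfl | rfl | rfl
  · rw [zero_add, zero_add] at hf hpin
    have hi : Inner t := face_rot (face_rot hf)
    exact ⟨t, hi, by rw [TF, ← Tr_rot hi.2]; exact hpin⟩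
  · rw [e1, e2] at hf hpin
    have hi : Inner t := face_rot hf
    refine ⟨t, hi, ?_⟩
    rw [TF, ← Tr_rot hi.2, ← Tr_rot (face_rot hi).2]; exact hpin
  · rw [e3, e4] at hf hpin
    exact ⟨t, hf, hpin⟩

end HT

end Vale.Agent.P148.R2.H219
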