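import Vale.Agent.P148.R2.H219.St2

/-!
# Stokes' formula on the Delaunay triangulation (P148, module S)
-/

open Set Metric Filter Topology MeasureTheory Function
open scoped ComplexConjugate

namespace Vale.Agent.P148.R2.H219

open Vale.Agent.P148.R2.H592

/-- Length of the sides of a face is at most `δ`. -/
def SideLe {X : Set ℂ} {b : ZMod 3 → ℂ} (t : Fc X b) (δ : ℝ) : Prop :=
  ∀ j, ‖head (t, j) - tail (t, j)‖ ≤ δ

/-- Midpoint of a dart. -/
noncomputable def mid {X : Set ℂ} {b : ZMod 3 → ℂ} (q : Fc X b × ZMod 3) : ℂ :=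
  (tail q + head q) / 2

/-- The two forms `dx` and `d x̄`. -/
structure Form (χ : ℂ → ℝ) where
  ℓ : ℂ →+ ℂ
  k : ℂ → ℂ
  cI : ℂ
  norm_l : ∀ z, ‖ℓ z‖ = ‖z‖
  real_l : ∀ (r : ℝ) z, ℓ (r * z) = r * ℓ z
  norm_k : ∀ z, ‖k z‖ = ‖dbar χ z‖
  cont_k : Continuous k
  norm_c : ‖cI‖ = 1
  int_k : ∀ T : Set ℂ, ℓ (Complex.I * ∫ w in T, dbar χ w) = cI * ∫ w in T, k w

/-- The form `dx`. -/
noncomputable def formId {D : Set ℂ} {χ : ℂ → ℝ} (h : IsTest D χ) : Form χ where
  ℓ := AddMonoidHom.id ℂ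
  k := dbar χ
  cI := Complex.I
  norm_l _ := rfl
  real_l _ _ := rfl
  norm_k _ := rfl
  cont_k := h.continuous_dbar
  norm_c := Complex.norm_I
  int_k _ := rfl

/-- The form `d x̄`. -/
noncomputable def formConj {D : Set ℂ} {χ : ℂ → ℝ} (h : IsTest D χ) : Form χ where
  ℓ := (starRingEnd ℂ).toAddMonoidHom
  k := ddd χ
  cI := -Complex.I
  norm_l z := by simp
  real_l r z := by simp
  norm_k z := norm_ddd χ z
  cont_k := by
    have : ddd χ = fun z => conj (dbar χ z) := by funext z; rw [conj_dbar]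
    rw [this]
    exact Complex.continuous_conj.comp h.continuous_dbar
  norm_c := by rw [norm_neg, Complex.norm_I]
  int_k T := by
    show conj (Complex.I * ∫ w in T, dbar χ w) = _
    rw [map_mul, Complex.conj_I, ← integral_conj]
    congr 1
    exact integral_congr_ae (Eventually.of_forall fun z => conj_dbar χ z)

namespace HT

variable {X : Set ℂ} {b : ZMod 3 → ℂ} (h : HullTri X b)
include h

omit h in
theorem sum_z3 {A : Type*} [AddCommMonoid A] (f : ZMod 3 → A) : ∑ j, f j = f 0 + f 1 + f 2 :=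
  Fin.sum_univ_three f

/-- Summation by parts. -/
theorem parts [Fintype (Fc X b)] (χ : ℂ → ℝ) (ℓ : ℂ →+ ℂ) (M : Fc X b × ZMod 3 → ℂ)
    (hM : ∀ q, M (h.rv q) = M q) :
    ∑ t, ∑ j, M (t, j) * ((χ (mid (t, j)) : ℂ) * ℓ (head (t, j) - tail (t, j))) = 0 := by
  rw [← Fintype.sum_prod_type' (f := fun (t : Fc X b) (j : ZMod 3) =>
    M (t, j) * ((χ (mid (t, j)) : ℂ) * ℓ (head (t, j) - tail (t, j))))]
  set f : Fc X b × ZMod 3 → ℂ := fun q => M q * ((χ (mid q) : ℂ) * ℓ (head q - tail q)) with hf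
  have h1 : ∑ q, f q = ∑ q, f (h.rvPerm q) := (Equiv.sum_comp h.rvPerm f).symm
  have h2 : ∀ q, f (h.rvPerm q) = - f q := by
    intro q
    have e1 : h.rvPerm q = h.rv q := rfl
    have e2 : mid (h.rv q) = mid q := by
      unfold mid; rw [h.tail_rv, h.head_rv, add_comm]
    have e3 : head (h.rv q) - tail (h.rv q) = -(head q - tail q) := by
      rw [h.tail_rv, h.head_rv, neg_sub]
    rw [e1]
    simp only [hf]
    rw [hM, e2, e3, map_neg]
    ring
  have h3 : ∑ q, f q = - ∑ q, f q := by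
    conv_lhs => rw [h1]
    rw [← Finset.sum_neg_distrib]
    exact Finset.sum_congr rfl fun q _ => h2 q
  have h4 : (2 : ℂ) * ∑ q, f q = 0 := by linear_combination h3
  exact (mul_eq_zero.1 h4).resolve_left two_ne_zero

/-- Almost every point is in at most one face. -/
theorem ae_unique : ∀ᵐ w : ℂ, ∀ t t' : Fc X b, Inner t → Inner t' → w ∈ TF t → w ∈ TF t' →
    t = t' := by
  have := h.finite_Fc
  rw [ae_all_iff]
  intro t
  rw [ae_all_iff]
  intro t'
  by_cases hne : t = t'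
  · exact Eventually.of_forall fun w _ _ _ _ => hne
  · by_cases ht : Inner t
    · by_cases ht' : Inner t'
      · have h0 := overlap h ht ht' hne
        have h1 : ∀ᵐ w : ℂ, w ∉ TF t ∩ TF t' := measure_eq_zero_iff_ae_notMem.1 h0
        filter_upwards [h1] with w hw _ _ h2 h3
        exact absurd ⟨h2, h3⟩ hw
      · exact Eventually.of_forall fun w _ h1 _ _ => absurd h1 ht'
    · exact Eventually.of_forall fun w h1 _ _ _ => absurd h1 ht

/-- **Stokes' formula on the Delaunay triangulation.** -/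
theorem stokes [Fintype (Fc X b)] {χ : ℂ → ℝ} {K : ℝ} (hK : TB χ K) (hcs : HasCompactSupport χ)
    (hcd : Continuous (dbar χ)) (Φ : Form χ)
    (hull : tsupport χ ⊆ Tr (b 0) (b 1) (b 2))
    -- the function on the darts
    {M : Fc X b × ZMod 3 → ℂ} (hM : ∀ q, M (h.rv q) = M q) {H U : Fc X b → ℂ} {ω : ZMod 3 → ℂ}
    (hω : ∀ j, ‖ω j‖ ≤ 1) {CH : ℝ}
    -- the relevant faces
    (N : Finset (Fc X b)) (hNi : ∀ t ∈ N, Inner t)
    (hMU : ∀ t ∈ N, ∀ j, M (t, j) = H t + ω j * U t) (hH : ∀ t ∈ N, ‖H t‖ ≤ CH) {χ' : Fc X b → ℝ} {δ : Fc X b → ℝ}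
    (hδ : ∀ t ∈ N, SideLe t (δ t))
    (hχ' : ∀ t ∈ N, ∀ j, |χ' t - χ (mid (t, j))| ≤ K * δ t)
    (hN1 : ∀ t ∉ N, χ' t = 0) (hN2 : ∀ t ∉ N, ∀ j, χ (mid (t, j)) = 0)
    (hN3 : ∀ t, Inner t → t ∉ N → ∀ w ∈ TF t, dbar χ w = 0)
    -- the grid
    {G : Type*} [Fintype G] {Q : G → Set ℂ} (hQm : ∀ g, MeasurableSet (Q g))
    (hQd : Pairwise fun g g' => Disjoint (Q g) (Q g')) (hQf : ∀ g, volume (Q g) ≠ ⊤)
    (hQc : ∀ w, dbar χ w ≠ 0 → ∃ g, w ∈ Q g) {hg : G → ℂ} {osc : G → ℝ}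
    (hosc : ∀ g, ∀ t ∈ N, (TF t ∩ Q g).Nonempty → ‖H t - hg g‖ ≤ osc g)
    (hosc0 : ∀ g, 0 ≤ osc g) :
    ‖(∑ t, (χ' t : ℂ) * ∑ j, M (t, j) * Φ.ℓ (head (t, j) - tail (t, j))) +
      ∑ g, hg g * (Φ.cI * ∫ w in Q g, Φ.k w)‖ ≤
      4 * K * CH * ∑ t ∈ N, δ t ^ 3 + 3 * K * ∑ t ∈ N, ‖U t‖ * δ t ^ 2 +
        K * ∑ g, osc g * (volume (Q g)).toReal := by
  classical
  have hK0 := hK.nonneg
  have hδ0 : ∀ t ∈ N, 0 ≤ δ t := fun t ht => (norm_nonneg _).trans (hδ t ht 0)
  set ℓ := Φ.ℓ with hℓ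
  set e : Fc X b → ZMod 3 → ℂ := fun t j => ℓ (head (t, j) - tail (t, j)) with he
  have he0 : ∀ t, ∑ j, e t j = 0 := by
    intro t
    rw [he, ← map_sum]
    have : ∑ j : ZMod 3, (head (t, j) - tail (t, j)) = 0 := by
      rw [sum_z3]
      simp only [head, tail]
      have a1 : (1 : ZMod 3) + 1 = 2 := by decide
      have a2 : (1 : ZMod 3) + 2 = 0 := by decide
      have a3 : (2 : ZMod 3) + 1 = 0 := by decide
      have a4 : (2 : ZMod 3) + 2 = 1 := by decide
      rw [zero_add, zero_add, a1, a2, a3, a4]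
      ring
    rw [this, map_zero]
  have hne : ∀ t ∈ N, ∀ j, ‖e t j‖ ≤ δ t := fun t ht j => by
    simp only [he, hℓ]; rw [Φ.norm_l]; exact hδ t ht j
  -- boundary sums
  set B : Fc X b → ℂ := fun t => ∑ j, (χ (mid (t, j)) : ℂ) * e t j with hB
  have hkc : HasCompactSupport (dbar χ) := HasCompactSupport.intro hcs fun _ hz => dbar_eq_zero hz
  have hki : Integrable Φ.k := by
    refine Φ.cont_k.integrable_of_hasCompactSupport ?_
    refine HasCompactSupport.intro hcs fun z hz => ?_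
    have := Φ.norm_k z
    rw [dbar_eq_zero hz, norm_zero, norm_eq_zero] at this
    exact this
  have hBs : ∀ t ∈ N, ‖B t - Φ.cI * ∫ w in TF t, Φ.k w‖ ≤ 4 * K * δ t ^ 3 := by
    intro t ht
    have hi := hNi t ht
    have a1 : (1 : ZMod 3) + 1 = 2 := by decide
    have a2 : (1 : ZMod 3) + 2 = 0 := by decide
    have a3 : (2 : ZMod 3) + 1 = 0 := by decide
    have a4 : (2 : ZMod 3) + 2 = 1 := by decide
    have s0 := hδ t ht 0
    have s1 := hδ t ht 1
    have s2 := hδ t ht 2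
    simp only [head, tail] at s0 s1 s2
    rw [zero_add, zero_add] at s0
    rw [a1, a2] at s1
    rw [a3, a4] at s2
    have hst := stokes_tri hK hcd (a := vc t 0) (b := vc t 1) (c := vc t 2) s2
      (by rw [← norm_neg, neg_sub]; exact s1) s0 hi.2.le
    have hBl : B t = ℓ (bsum χ (vc t 0) (vc t 1) (vc t 2)) := by
      simp only [hB, he, hℓ]
      simp_rw [← Φ.real_l]
      rw [← map_sum, sum_z3]
      congr 1
      simp only [mid, head, tail, bsum]
      rw [zero_add, zero_add, a1, a2, a3, a4]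
      ring
    rw [hBl, ← Φ.int_k, ← map_sub, Φ.norm_l]
    exact hst
  -- the algebra
  have hS : (∑ t, (χ' t : ℂ) * ∑ j, M (t, j) * e t j) =
      -(∑ t ∈ N, H t * B t) - ∑ t ∈ N, U t * ∑ j, ω j * (((χ (mid (t, j)) - χ' t : ℝ) : ℂ) * e t j) := by
    have h0 := parts h χ ℓ M hM
    have h1 : ∀ t ∈ N, (∑ j, M (t, j) * ((χ (mid (t, j)) : ℂ) * e t j)) -
        (χ' t : ℂ) * ∑ j, M (t, j) * e t j =
        H t * B t + U t * ∑ j, ω j * (((χ (mid (t, j)) - χ' t : ℝ) : ℂ) * e t j) := by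
      intro t ht
      have e0 := he0 t
      have hm := hMU t ht
      simp only [hB]
      simp only [sum_z3, hm] at e0 ⊢
      push_cast
      linear_combination (-(χ' t : ℂ) * H t) * e0
    have h2 : ∀ t ∉ N, (∑ j, M (t, j) * ((χ (mid (t, j)) : ℂ) * e t j)) -
        (χ' t : ℂ) * ∑ j, M (t, j) * e t j = 0 := by
      intro t ht
      simp only [hN1 t ht, hN2 t ht, Complex.ofReal_zero, zero_mul, mul_zero,
        Finset.sum_const_zero, sub_zero]
    have h3 : (∑ t, ((∑ j, M (t, j) * ((χ (mid (t, j)) : ℂ) * e t j)) -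
        (χ' t : ℂ) * ∑ j, M (t, j) * e t j)) =
        ∑ t ∈ N, (H t * B t + U t * ∑ j, ω j * (((χ (mid (t, j)) - χ' t : ℝ) : ℂ) * e t j)) := by
      rw [← Finset.sum_subset (Finset.subset_univ N) fun t _ ht => h2 t ht]
      exact Finset.sum_congr rfl fun t ht => h1 t ht
    rw [Finset.sum_sub_distrib, h0, Finset.sum_add_distrib] at h3
    linear_combination -h3
  -- the grid
  have hkb : ∀ w, ‖Φ.k w‖ ≤ K := fun w => by rw [Φ.norm_k]; exact hK.dbd w
  have hk0 : ∀ w, Φ.k w ≠ 0 → dbar χ w ≠ 0 := fun w hw h0 => by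
    have := Φ.norm_k w
    rw [h0, norm_zero, norm_eq_zero] at this
    exact hw this
  have hTm : ∀ t : Fc X b, MeasurableSet (TF t) := fun t => measurableSet_Tr _ _ _
  have hgrid1 : ∀ t : Fc X b, ∫ w in TF t, Φ.k w = ∑ g, ∫ w in TF t ∩ Q g, Φ.k w := by
    intro t
    rw [← integral_indicator (hTm t)]
    have e1 : ∀ g, ∫ w in TF t ∩ Q g, Φ.k w = ∫ w, (TF t ∩ Q g).indicator Φ.k w := fun g =>
      (integral_indicator ((hTm t).inter (hQm g))).symm
    simp_rw [e1]
    rw [← integral_finsetSum _ fun g _ => hki.indicator ((hTm t).inter (hQm g))]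
    congr 1
    funext w
    by_cases hw : w ∈ TF t
    · rw [indicator_of_mem hw]
      by_cases hkw : Φ.k w = 0
      · rw [hkw]
        refine (Finset.sum_eq_zero fun g _ => ?_).symm
        by_cases hg : w ∈ TF t ∩ Q g
        · rw [indicator_of_mem hg, hkw]
        · rw [indicator_of_notMem hg]
      · obtain ⟨g, hg⟩ := hQc w (hk0 w hkw)
        rw [Finset.sum_eq_single g]
        · rw [indicator_of_mem (show w ∈ TF t ∩ Q g from ⟨hw, hg⟩)]
        · intro g' _ hne'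
          refine indicator_of_notMem (fun hh => ?_) _
          exact (hQd hne').le_bot ⟨hh.2, hg⟩
        · intro hh; exact absurd (Finset.mem_univ g) hh
    · rw [indicator_of_notMem hw]
      exact (Finset.sum_eq_zero fun g _ => indicator_of_notMem (fun hh => hw hh.1) _).symm
  have hgrid2 : ∀ g, ∫ w in Q g, Φ.k w = ∑ t ∈ N, ∫ w in TF t ∩ Q g, Φ.k w := by
    intro g
    rw [← integral_indicator (hQm g)]
    have e1 : ∀ t : Fc X b, ∫ w in TF t ∩ Q g, Φ.k w = ∫ w, (TF t ∩ Q g).indicator Φ.k w := fun t =>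
      (integral_indicator ((hTm t).inter (hQm g))).symm
    simp_rw [e1]
    rw [← integral_finsetSum _ fun t _ => hki.indicator ((hTm t).inter (hQm g))]
    refine integral_congr_ae ?_
    filter_upwards [ae_unique h] with w hu
    by_cases hw : w ∈ Q g
    · rw [indicator_of_mem hw]
      by_cases hkw : Φ.k w = 0
      · rw [hkw]
        refine (Finset.sum_eq_zero fun t _ => ?_).symm
        by_cases ht : w ∈ TF t ∩ Q g
        · rw [indicator_of_mem ht, hkw]
        · rw [indicator_of_notMem ht]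
      · have hwt : w ∈ tsupport χ := by
          by_contra hc
          exact hk0 w hkw (dbar_eq_zero hc)
        obtain ⟨t, hti, hwT⟩ := cover h (hull hwt)
        have htN : t ∈ N := by
          by_contra hc
          exact hk0 w hkw (hN3 t hti hc w hwT)
        rw [Finset.sum_eq_single_of_mem t htN]
        · rw [indicator_of_mem (show w ∈ TF t ∩ Q g from ⟨hwT, hw⟩)]
        · intro t' ht' hne'
          refine indicator_of_notMem (fun hh => hne' ?_) _
          exact hu t' t (hNi t' ht') hti hh.1 hwT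
    · rw [indicator_of_notMem hw]
      exact (Finset.sum_eq_zero fun t _ => indicator_of_notMem (fun hh => hw hh.2) _).symm
  have hvol : ∀ g, ∑ t ∈ N, (volume (TF t ∩ Q g)).toReal ≤ (volume (Q g)).toReal := by
    intro g
    have hfin : ∀ t : Fc X b, volume (TF t ∩ Q g) ≠ ⊤ := fun t =>
      ((measure_mono inter_subset_right).trans_lt (hQf g).lt_top).ne
    rw [← ENNReal.toReal_sum fun t _ => hfin t]
    refine ENNReal.toReal_mono (hQf g) ?_
    rw [← measure_biUnion_finset₀]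
    · exact measure_mono (iUnion₂_subset fun t _ => inter_subset_right)
    · intro t ht t' ht' hne'
      have h0 := overlap h (hNi t ht) (hNi t' ht') hne'
      exact measure_mono_null (show (TF t ∩ Q g) ∩ (TF t' ∩ Q g) ⊆ TF t ∩ TF t' from
        fun w hw => ⟨hw.1.1, hw.2.1⟩) h0
    · intro t _
      exact ((hTm t).inter (hQm g)).nullMeasurableSet
  -- the grid error
  have hE : ‖(∑ t ∈ N, H t * (Φ.cI * ∫ w in TF t, Φ.k w)) -
      ∑ g, hg g * (Φ.cI * ∫ w in Q g, Φ.k w)‖ ≤ K * ∑ g, osc g * (volume (Q g)).toReal := by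
    have e1 : (∑ t ∈ N, H t * (Φ.cI * ∫ w in TF t, Φ.k w)) -
        ∑ g, hg g * (Φ.cI * ∫ w in Q g, Φ.k w) =
        ∑ g, ∑ t ∈ N, (H t - hg g) * (Φ.cI * ∫ w in TF t ∩ Q g, Φ.k w) := by
      simp_rw [hgrid1, hgrid2, Finset.mul_sum]
      rw [Finset.sum_comm, ← Finset.sum_sub_distrib]
      refine Finset.sum_congr rfl fun g _ => ?_
      rw [← Finset.sum_sub_distrib]
      exact Finset.sum_congr rfl fun t _ => by ring
    rw [e1, Finset.mul_sum]
    refine (norm_sum_le _ _).trans (Finset.sum_le_sum fun g _ => ?_)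
    refine (norm_sum_le _ _).trans ?_
    calc ∑ t ∈ N, ‖(H t - hg g) * (Φ.cI * ∫ w in TF t ∩ Q g, Φ.k w)‖
        ≤ ∑ t ∈ N, osc g * (K * (volume (TF t ∩ Q g)).toReal) := by
          refine Finset.sum_le_sum fun t ht => ?_
          rw [norm_mul, norm_mul, Φ.norm_c, one_mul]
          rcases eq_empty_or_nonempty (TF t ∩ Q g) with hem | hem
          · rw [hem]
            simp only [Measure.restrict_empty, integral_zero_measure, norm_zero, mul_zero,
              measure_empty, ENNReal.toReal_zero, le_refl]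
          · refine mul_le_mul (hosc g t ht hem) ?_ (norm_nonneg _) (hosc0 g)
            have hfin : volume (TF t ∩ Q g) < ⊤ :=
              (measure_mono inter_subset_right).trans_lt (hQf g).lt_top
            have := norm_setIntegral_le_of_norm_le_const (μ := volume) (s := TF t ∩ Q g)
              (f := Φ.k) (C := K) hfin fun w _ => hkb w
            rwa [measureReal_def] at this
      _ = K * (osc g * ∑ t ∈ N, (volume (TF t ∩ Q g)).toReal) := by
          rw [Finset.mul_sum, Finset.mul_sum]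
          exact Finset.sum_congr rfl fun t _ => by ring
      _ ≤ K * (osc g * (volume (Q g)).toReal) :=
          mul_le_mul_of_nonneg_left (mul_le_mul_of_nonneg_left (hvol g) (hosc0 g)) hK0
  -- the error from the triangles
  have hE1 : ‖∑ t ∈ N, H t * (B t - Φ.cI * ∫ w in TF t, Φ.k w)‖ ≤
      4 * K * CH * ∑ t ∈ N, δ t ^ 3 := by
    refine (norm_sum_le _ _).trans ?_
    rw [Finset.mul_sum]
    refine Finset.sum_le_sum fun t ht => ?_
    rw [norm_mul]
    have h1 := hBs t ht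
    have hCH : 0 ≤ CH := (norm_nonneg _).trans (hH t ht)
    calc ‖H t‖ * ‖B t - Φ.cI * ∫ w in TF t, Φ.k w‖ ≤ CH * (4 * K * δ t ^ 3) :=
          mul_le_mul (hH t ht) h1 (norm_nonneg _) hCH
      _ = 4 * K * CH * δ t ^ 3 := by ring
  have hE2 : ‖∑ t ∈ N, U t * ∑ j, ω j * (((χ (mid (t, j)) - χ' t : ℝ) : ℂ) * e t j)‖ ≤
      3 * K * ∑ t ∈ N, ‖U t‖ * δ t ^ 2 := by
    refine (norm_sum_le _ _).trans ?_
    rw [Finset.mul_sum]
    refine Finset.sum_le_sum fun t ht => ?_
    rw [norm_mul]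
    have h1 : ‖∑ j, ω j * (((χ (mid (t, j)) - χ' t : ℝ) : ℂ) * e t j)‖ ≤ 3 * (K * δ t * δ t) := by
      refine (norm_sum_le _ _).trans ?_
      have h2 : ∀ j ∈ (Finset.univ : Finset (ZMod 3)),
          ‖ω j * (((χ (mid (t, j)) - χ' t : ℝ) : ℂ) * e t j)‖ ≤ K * δ t * δ t := by
        intro j _
        rw [norm_mul, norm_mul, Complex.norm_real, Real.norm_eq_abs, abs_sub_comm]
        have h3 : |χ' t - χ (mid (t, j))| * ‖e t j‖ ≤ K * δ t * δ t :=
          mul_le_mul (hχ' t ht j) (hne t ht j) (norm_nonneg _)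
            (mul_nonneg hK0 (hδ0 t ht))
        calc ‖ω j‖ * (|χ' t - χ (mid (t, j))| * ‖e t j‖)
            ≤ 1 * (|χ' t - χ (mid (t, j))| * ‖e t j‖) :=
              mul_le_mul_of_nonneg_right (hω j) (by positivity)
          _ ≤ K * δ t * δ t := by rw [one_mul]; exact h3
      have h4 := Finset.sum_le_card_nsmul _ _ _ h2
      have h5 : (Finset.univ : Finset (ZMod 3)).card = 3 := by decide
      rw [h5, nsmul_eq_mul] at h4
      exact_mod_cast h4
    calc ‖U t‖ * ‖∑ j, ω j * (((χ (mid (t, j)) - χ' t : ℝ) : ℂ) * e t j)‖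
        ≤ ‖U t‖ * (3 * (K * δ t * δ t)) := mul_le_mul_of_nonneg_left h1 (norm_nonneg _)
      _ = 3 * K * (‖U t‖ * δ t ^ 2) := by ring
  have hfin : (∑ t, (χ' t : ℂ) * ∑ j, M (t, j) * e t j) + ∑ g, hg g * (Φ.cI * ∫ w in Q g, Φ.k w) =
      -(∑ t ∈ N, H t * (B t - Φ.cI * ∫ w in TF t, Φ.k w)) -
        (∑ t ∈ N, U t * ∑ j, ω j * (((χ (mid (t, j)) - χ' t : ℝ) : ℂ) * e t j)) -
        ((∑ t ∈ N, H t * (Φ.cI * ∫ w in TF t, Φ.k w)) -
          ∑ g, hg g * (Φ.cI * ∫ w in Q g, Φ.k w)) := by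
    rw [hS]
    simp_rw [mul_sub]
    rw [Finset.sum_sub_distrib]
    ring
  show ‖(∑ t, (χ' t : ℂ) * ∑ j, M (t, j) * e t j) + _‖ ≤ _
  rw [hfin]
  have n1 := norm_sub_le (-(∑ t ∈ N, H t * (B t - Φ.cI * ∫ w in TF t, Φ.k w)) -
        (∑ t ∈ N, U t * ∑ j, ω j * (((χ (mid (t, j)) - χ' t : ℝ) : ℂ) * e t j)))
        ((∑ t ∈ N, H t * (Φ.cI * ∫ w in TF t, Φ.k w)) -
          ∑ g, hg g * (Φ.cI * ∫ w in Q g, Φ.k w))
  have n2 := norm_sub_le (-(∑ t ∈ N, H t * (B t - Φ.cI * ∫ w in TF t, Φ.k w)))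
        (∑ t ∈ N, U t * ∑ j, ω j * (((χ (mid (t, j)) - χ' t : ℝ) : ℂ) * e t j))
  rw [norm_neg] at n2
  linarith

end HT

end Vale.Agent.P148.R2.H219
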