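import Vale.Agent.P148.R2.H219.St3
import Vale.Agent.P148.R2.H258.A10
import Vale.Agent.P148.R2.H592.Del9

/-!
# Stokes' formula for the spin one observable (P148, module S)
-/

open Set Metric Filter Topology MeasureTheory Function
open scoped ComplexConjugate

namespace Vale.Agent.P148.R2.H219

open Vale.Agent.P148.R2.H592 Vale.Agent.P148.R2.H258

section

variable {V D : Type*} {T : H258.Tri V D} [Fintype V]

theorem norm_HH_le {o : D} (ho : T.Good o) (e : D) : ‖T.HH o e‖ ≤ 1 := by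
  classical
  have h1 := T.mi_sum ho
  have h2 : ‖∑ σ : V → Bool, if T.Mi σ o then T.NK σ o e else 0‖ ≤
      ∑ σ : V → Bool, (if T.Mi σ o then (1 : ℝ) else 0) := by
    refine (norm_sum_le _ _).trans (Finset.sum_le_sum fun σ _ => ?_)
    split_ifs with hm
    · unfold Tri.NK
      split_ifs <;> simp
    · simp
  have h3 : ((∑ σ : V → Bool, (if T.Mi σ o then (1 : ℝ) else 0) : ℝ) : ℂ) =
      ∑ σ : V → Bool, if T.Mi σ o then (1 : ℂ) else 0 := by
    push_cast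
    refine Finset.sum_congr rfl fun σ _ => ?_
    split_ifs <;> simp
  have h4 : ‖(4 / 2 ^ Fintype.card V : ℂ)‖ * ∑ σ : V → Bool, (if T.Mi σ o then (1 : ℝ) else 0) = 1 := by
    have h5 := congrArg norm h1
    rw [norm_mul, ← h3, Complex.norm_real, Real.norm_eq_abs, abs_of_nonneg, norm_one] at h5
    · exact h5
    · exact Finset.sum_nonneg fun σ _ => by split_ifs <;> norm_num
  unfold Tri.HH
  rw [norm_mul, ← h4]
  exact mul_le_mul_of_nonneg_left h2 (norm_nonneg _)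

theorem norm_MM_le {τ : ℂ} (hτ : τ ^ 2 + τ + 1 = 0) {o : D} (ho : T.Good o) (e : D) :
    ‖T.MM τ o e‖ ≤ 3 := by
  have hn := Tri.norm_tau hτ
  have h0 := norm_HH_le ho e
  have h1 := norm_HH_le ho.nxt e
  have h2 := norm_HH_le ho.nxt.nxt e
  unfold Tri.MM
  refine (norm_add₃_le).trans ?_
  rw [norm_mul, norm_mul, norm_pow, hn]
  linarith

end

/-- The sequence `τ², τ, 1`. -/
noncomputable def om (τ : ℂ) (j : ZMod 3) : ℂ :=
  match j with
  | 0 => τ ^ 2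
  | 1 => τ
  | 2 => 1

namespace HT

variable {X : Set ℂ} {b : ZMod 3 → ℂ} (h : HullTri X b)
include h

section

variable {V : Type*} [Fintype V] (π : ℂ → V) (hπ : Fib X π)

/-- The spin one observable on the faces which are not the outer one. -/
theorem MM_form {τ : ℂ} (hτ : τ ^ 2 + τ + 1 = 0) {o : Fc X b × ZMod 3}
    (ho : (h.tri258 π hπ).Good o) {t : Fc X b} (ht : t ≠ o.1)
    (hne : ∀ j, π (tail (t, j)) ≠ π (head (t, j))) (j : ZMod 3) :
    (h.tri258 π hπ).MM τ o (t, j) =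
      (h.tri258 π hπ).MF τ o (t, 0) + om τ j * (h.tri258 π hπ).UU τ o (t, 0) := by
  have := h.finite_Fc
  have : Finite (Fc X b × ZMod 3) := inferInstance
  set T := h.tri258 π hπ with hT
  have hP : T.Planar := h.planar258 π hπ
  have hnx : ∀ i : ZMod 3, T.nxt (t, i) = (t, i + 1) := fun i => rfl
  have hsrc : ∀ q, T.src q = π (tail q) := fun q => rfl
  have htgt : ∀ q, T.tgt q = π (head q) := fun q => by
    show π (tail (h.rv q)) = _
    rw [h.tail_rv]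
  have hno : ∀ (i : ZMod 3) (q : Fc X b × ZMod 3), q.1 = o.1 → ((t, i) : Fc X b × ZMod 3) ≠ q := by
    intro i q hq he
    exact ht ((congrArg Prod.fst he).trans hq)
  have hno0 : (T.nxt o).1 = o.1 := rfl
  have hno1 : (T.nxt (T.nxt o)).1 = o.1 := rfl
  have hU : ∀ i : ZMod 3, T.UU τ o (T.nxt (t, i)) = τ ^ 2 * T.UU τ o (t, i) := fun i =>
    T.UU_nxt hP hτ (hno i o rfl) (hno i _ hno0) (hno i _ hno1)
  have h3 := Tri.tau_pow_three hτ
  have e := T.MM_eq hP ho (τ := τ) (e := (t, j)) (hne := by rw [hsrc, htgt]; exact hne j)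
  rw [e]
  have hF : ∀ i : ZMod 3, T.MF τ o (t, i) = T.MF τ o (t, 0) := by
    intro i
    have f0 := T.MF_nxt hP ho (τ := τ) (t, 0)
    have f1 := T.MF_nxt hP ho (τ := τ) (t, 1)
    rw [hnx] at f0 f1
    have a1 : (1 : ZMod 3) + 1 = 2 := by decide
    rw [zero_add] at f0
    rw [a1] at f1
    rcases z3_all i with rfl | rfl | rfl
    · rfl
    · exact f0
    · exact f1.trans f0
  have hU1 : T.UU τ o (t, 1) = τ ^ 2 * T.UU τ o (t, 0) := by
    have := hU 0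
    rwa [hnx, zero_add] at this
  have hU2 : T.UU τ o (t, 2) = τ * T.UU τ o (t, 0) := by
    have := hU 1
    have a1 : (1 : ZMod 3) + 1 = 2 := by decide
    rw [hnx, a1, hU1] at this
    rw [this]
    linear_combination (τ * T.UU τ o (t, 0)) * h3
  rw [hF, hnx]
  congr 1
  rcases z3_all j with rfl | rfl | rfl
  · rw [zero_add, hU1]; rfl
  · have a1 : (1 : ZMod 3) + 1 = 2 := by decide
    rw [a1, hU2]; rfl
  · have a1 : (2 : ZMod 3) + 1 = 0 := by decide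
    rw [a1]
    show _ = (1 : ℂ) * _
    rw [one_mul]

/-- **Stokes' formula for the spin one observable**: quenched inequality. -/
theorem stokes_MM [Fintype (Fc X b)] {τ : ℂ} (hτ : τ ^ 2 + τ + 1 = 0) {o : Fc X b × ZMod 3}
    (ho : (h.tri258 π hπ).Good o)
    {χ : ℂ → ℝ} {K : ℝ} (hK : TB χ K) (hcs : HasCompactSupport χ)
    (hcd : Continuous (dbar χ)) (Φ : Form χ) (hull : tsupport χ ⊆ Tr (b 0) (b 1) (b 2))
    -- the relevant faces
    (N : Finset (Fc X b)) (hNi : ∀ t ∈ N, Inner t) (hNo : ∀ t ∈ N, t ≠ o.1)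
    (hNl : ∀ t ∈ N, ∀ j, π (tail (t, j)) ≠ π (head (t, j)))
    {χ' : Fc X b → ℝ} {δ : Fc X b → ℝ}
    (hδ : ∀ t ∈ N, SideLe t (δ t))
    (hχ' : ∀ t ∈ N, ∀ j, |χ' t - χ (mid (t, j))| ≤ K * δ t)
    (hN1 : ∀ t ∉ N, χ' t = 0) (hN2 : ∀ t ∉ N, ∀ j, χ (mid (t, j)) = 0)
    (hN3 : ∀ t, Inner t → t ∉ N → ∀ w ∈ TF t, dbar χ w = 0)
    -- the grid
    {G : Type*} [Fintype G] {Q : G → Set ℂ} (hQm : ∀ g, MeasurableSet (Q g))
    (hQd : Pairwise fun g g' => Disjoint (Q g) (Q g')) (hQf : ∀ g, volume (Q g) ≠ ⊤)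
    (hQc : ∀ w, dbar χ w ≠ 0 → ∃ g, w ∈ Q g) {hg : G → ℂ} {osc : G → ℝ}
    (hosc : ∀ g, ∀ t ∈ N, (TF t ∩ Q g).Nonempty → ∀ j,
      ‖(h.tri258 π hπ).MM τ o (t, j) - hg g‖ ≤ osc g)
    (hosc0 : ∀ g, 0 ≤ osc g) :
    ‖(∑ t, (χ' t : ℂ) * ∑ j, (h.tri258 π hπ).MM τ o (t, j) *
        Φ.ℓ (head (t, j) - tail (t, j))) + ∑ g, hg g * (Φ.cI * ∫ w in Q g, Φ.k w)‖ ≤
      12 * K * ∑ t ∈ N, δ t ^ 3 + 3 * K * √(∑ t ∈ N, δ t ^ 4) +
        K * ∑ g, osc g * (volume (Q g)).toReal := by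
  classical
  set T := h.tri258 π hπ with hT
  have hP : T.Planar := h.planar258 π hπ
  have hform := fun (t : Fc X b) (ht : t ∈ N) (j : ZMod 3) =>
    MM_form h π hπ hτ ho (hNo t ht) (hNl t ht) j
  have hn := Tri.norm_tau hτ
  have h3 := Tri.tau_pow_three hτ
  have hω : ∀ j, ‖om τ j‖ ≤ 1 := by
    intro j
    rcases z3_all j with rfl | rfl | rfl
    · show ‖τ ^ 2‖ ≤ 1
      rw [norm_pow, hn]; norm_num
    · show ‖τ‖ ≤ 1
      rw [hn]
    · show ‖(1 : ℂ)‖ ≤ 1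
      rw [norm_one]
  have havg : ∀ t ∈ N, T.MF τ o (t, 0) = (T.MM τ o (t, 0) + T.MM τ o (t, 1) + T.MM τ o (t, 2)) / 3 := by
    intro t ht
    rw [hform t ht 0, hform t ht 1, hform t ht 2]
    show _ = (T.MF τ o (t, 0) + τ ^ 2 * _ + (T.MF τ o (t, 0) + τ * _) +
      (T.MF τ o (t, 0) + 1 * _)) / 3
    linear_combination (-T.UU τ o (t, 0) / 3) * hτ
  have hHb : ∀ t ∈ N, ‖T.MF τ o (t, 0)‖ ≤ 3 := by
    intro t ht
    rw [havg t ht, norm_div, Complex.norm_ofNat, div_le_iff₀ (by norm_num)]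
    refine (norm_add₃_le).trans ?_
    have := norm_MM_le hτ ho (t, (0 : ZMod 3))
    have := norm_MM_le hτ ho (t, (1 : ZMod 3))
    have := norm_MM_le hτ ho (t, (2 : ZMod 3))
    linarith
  have hHo : ∀ g, ∀ t ∈ N, (TF t ∩ Q g).Nonempty → ‖T.MF τ o (t, 0) - hg g‖ ≤ osc g := by
    intro g t ht hne
    have e : T.MF τ o (t, 0) - hg g = ((T.MM τ o (t, 0) - hg g) + (T.MM τ o (t, 1) - hg g) +
        (T.MM τ o (t, 2) - hg g)) / 3 := by rw [havg t ht]; ring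
    rw [e, norm_div, Complex.norm_ofNat, div_le_iff₀ (by norm_num)]
    refine (norm_add₃_le).trans ?_
    have := hosc g t ht hne 0
    have := hosc g t ht hne 1
    have := hosc g t ht hne 2
    linarith
  have hMrev : ∀ q, T.MM τ o (h.rv q) = T.MM τ o q := fun q => T.MM_rev τ o q
  have key := stokes h hK hcs hcd Φ hull hMrev (H := fun t => T.MF τ o (t, 0))
    (U := fun t => T.UU τ o (t, 0)) hω (CH := 3) N hNi hform hHb hδ hχ' hN1 hN2 hN3 hQm hQd
    hQf hQc hHo hosc0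
  -- Bessel and Cauchy-Schwarz
  have hδ0 : ∀ t ∈ N, 0 ≤ δ t := fun t ht => (norm_nonneg _).trans (hδ t ht 0)
  have hB := T.bessel hP hτ ho
  have hUn : ∀ t ∈ N, ∀ j : ZMod 3, ‖T.UU τ o (t, j)‖ = ‖T.UU τ o (t, 0)‖ := by
    intro t ht j
    have hno : ∀ (i : ZMod 3) (q : Fc X b × ZMod 3), q.1 = o.1 →
        ((t, i) : Fc X b × ZMod 3) ≠ q := by
      intro i q hq he
      exact hNo t ht ((congrArg Prod.fst he).trans hq)
    have hnx : ∀ i : ZMod 3, T.nxt (t, i) = (t, i + 1) := fun i => rfl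
    have hU : ∀ i : ZMod 3, ‖T.UU τ o (t, i + 1)‖ = ‖T.UU τ o (t, i)‖ := fun i => by
      have := T.UU_nxt hP hτ (hno i o rfl) (hno i (T.nxt o) rfl) (hno i (T.nxt (T.nxt o)) rfl)
      rw [hnx] at this
      rw [this, norm_mul, norm_pow, hn]; norm_num
    rcases z3_all j with rfl | rfl | rfl
    · rfl
    · have := hU 0
      rwa [zero_add] at this
    · have a1 : (1 : ZMod 3) + 1 = 2 := by decide
      have h1 := hU 1
      have h0 := hU 0
      rw [a1] at h1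
      rw [zero_add] at h0
      rw [h1, h0]
  have hB1 : ∑ t ∈ N, ‖T.UU τ o (t, 0)‖ ^ 2 ≤ 1 := by
    have e1 : ∑ t ∈ N, 3 * ‖T.UU τ o (t, 0)‖ ^ 2 ≤ 3 := by
      refine le_trans ?_ hB
      rw [Fintype.sum_prod_type]
      refine le_trans (Finset.sum_le_sum (fun t ht => ?_))
        (Finset.sum_le_sum_of_subset_of_nonneg (Finset.subset_univ N) fun t _ _ =>
          Finset.sum_nonneg fun j _ => by split_ifs <;> positivity)
      rw [sum_z3]
      have hni : ∀ j : ZMod 3, ¬ T.InFace o (t, j) := by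
        intro j hh
        rcases hh with hh | hh | hh
        · exact hNo t ht (congrArg Prod.fst hh)
        · exact hNo t ht (congrArg Prod.fst hh)
        · exact hNo t ht (congrArg Prod.fst hh)
      rw [if_neg (hni 0), if_neg (hni 1), if_neg (hni 2), hUn t ht 1, hUn t ht 2]
      apply le_of_eq; ring
    rw [← Finset.mul_sum] at e1
    linarith
  have hCS : ∑ t ∈ N, ‖T.UU τ o (t, 0)‖ * δ t ^ 2 ≤ √(∑ t ∈ N, δ t ^ 4) := by
    refine Real.le_sqrt_of_sq_le ?_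
    refine (Finset.sum_mul_sq_le_sq_mul_sq N _ _).trans ?_
    have e2 : ∑ t ∈ N, (δ t ^ 2) ^ 2 = ∑ t ∈ N, δ t ^ 4 :=
      Finset.sum_congr rfl fun t _ => by ring
    rw [e2]
    have e3 : 0 ≤ ∑ t ∈ N, δ t ^ 4 := Finset.sum_nonneg fun t ht => by
      have := hδ0 t ht; positivity
    nlinarith
  have hK0 := hK.nonneg
  refine key.trans ?_
  have e4 : 3 * K * ∑ t ∈ N, ‖T.UU τ o (t, 0)‖ * δ t ^ 2 ≤ 3 * K * √(∑ t ∈ N, δ t ^ 4) :=
    mul_le_mul_of_nonneg_left hCS (by positivity)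
  have e5 : 4 * K * 3 * ∑ t ∈ N, δ t ^ 3 = 12 * K * ∑ t ∈ N, δ t ^ 3 := by ring
  linarith

end

end HT

end Vale.Agent.P148.R2.H219
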