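import Vale.Agent.P148.R2.H219.End5

/-!
# From grids to the weak condition of module E (P148, module S)
-/

open Set Metric Filter Topology MeasureTheory Function
open scoped ComplexConjugate

namespace Vale.Agent.P148.R2.H219

variable {ι : Type*}

/-- A deterministic grid of a compact set. -/
structure IsGrid (K : Set ℂ) (δ : ℝ) {n : ℕ} (Q : Fin n → Set ℂ) (z : Fin n → ℂ) : Prop where
  meas : ∀ g, MeasurableSet (Q g)
  disj : Pairwise fun g g' => Disjoint (Q g) (Q g')
  fin : ∀ g, volume (Q g) ≠ ⊤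
  cover : K ⊆ ⋃ g, Q g
  mem : ∀ g, z g ∈ K
  near : ∀ g, ∀ w ∈ Q g, dist w (z g) < δ

theorem exists_grid {K : Set ℂ} (hK : IsCompact K) {δ : ℝ} (hδ : 0 < δ) :
    ∃ (n : ℕ) (Q : Fin n → Set ℂ) (z : Fin n → ℂ), IsGrid K δ Q z := by
  classical
  obtain ⟨t, ht, hcov⟩ := hK.elim_nhds_subcover (fun x => ball x δ) fun x _ => ball_mem_nhds x hδ
  set n := t.card with hn
  set e := t.equivFin with he
  set z : Fin n → ℂ := fun g => (e.symm g : ℂ) with hz
  set B : Fin n → Set ℂ := fun g => ball (z g) δ with hB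
  set Q : Fin n → Set ℂ := fun g => B g \ ⋃ g' ∈ {g' : Fin n | g' < g}, B g' with hQ
  refine ⟨n, Q, z, ?_, ?_, ?_, ?_, ?_, ?_⟩
  · intro g
    exact measurableSet_ball.diff (MeasurableSet.biUnion (to_countable _) fun _ _ =>
      measurableSet_ball)
  · intro g g' hne
    rw [Set.disjoint_left]
    intro w hw hw'
    rcases lt_or_gt_of_ne hne with h | h
    · exact hw'.2 (mem_iUnion₂.2 ⟨g, h, hw.1⟩)
    · exact hw.2 (mem_iUnion₂.2 ⟨g', h, hw'.1⟩)
  · intro g
    exact ((measure_mono (show Q g ⊆ ball (z g) δ from fun w hw => hw.1)).trans_lt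
      measure_ball_lt_top).ne
  · intro w hw
    obtain ⟨x, hx, hwx⟩ := mem_iUnion₂.1 (hcov hw)
    have hex : ∃ g : Fin n, w ∈ B g := ⟨e ⟨x, hx⟩, by
      simp only [hB, hz, Equiv.symm_apply_apply]; exact hwx⟩
    -- the smallest index
    obtain ⟨g, hg, hmin⟩ := exists_minimal_of_wellFoundedLT (fun g : Fin n => w ∈ B g) hex
    refine mem_iUnion.2 ⟨g, hg, fun hh => ?_⟩
    obtain ⟨g', hg', hwg'⟩ := mem_iUnion₂.1 hh
    exact absurd (hmin hwg' (le_of_lt hg')) (not_le.2 hg')
  · intro g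
    exact ht _ (e.symm g).2
  · intro g w hw
    exact hw.1

/-- **The weak condition from deterministic grids.** -/
theorem weakSmallC_of_grid {l : Filter ι} {c : ι → ℂ} {F : ι → ℂ → ℂ} {k : ℂ → ℂ}
    (hki : Integrable k) (hkc : HasCompactSupport k)
    (heq : ∀ η > 0, ∃ δ > 0, ∀ᶠ i in l, ∀ z ∈ tsupport k, ∀ w ∈ tsupport k, dist z w < δ →
      ‖F i z - F i w‖ ≤ η)
    (hgrid : ∀ η > 0, ∃ δ > 0, ∀ (n : ℕ) (Q : Fin n → Set ℂ) (z : Fin n → ℂ),
      IsGrid (tsupport k) δ Q z → ∀ᶠ i in l, ‖c i * ∑ g, F i (z g) * ∫ w in Q g, k w‖ ≤ η) :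
    WeakSmallC l c F k := by
  classical
  intro η hη
  obtain ⟨δ1, hδ1, h1⟩ := heq η hη
  obtain ⟨δ2, hδ2, h2⟩ := hgrid η hη
  obtain ⟨n, Q, z, hQ⟩ := exists_grid hkc.isCompact (lt_min hδ1 hδ2)
  have hQ2 : IsGrid (tsupport k) δ2 Q z :=
    ⟨hQ.meas, hQ.disj, hQ.fin, hQ.cover, hQ.mem, fun g w hw =>
      (hQ.near g w hw).trans_le (min_le_right _ _)⟩
  filter_upwards [h1, h2 n Q z hQ2] with i h3 h4
  refine ⟨fun w => ∑ g, (Q g).indicator (fun _ => F i (z g)) w, ?_, ?_, ?_⟩
  · have e : (fun w => k w * ∑ g, (Q g).indicator (fun _ => F i (z g)) w) =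
        fun w => ∑ g, (Q g).indicator (fun w => F i (z g) * k w) w := by
      funext w
      rw [Finset.mul_sum]
      refine Finset.sum_congr rfl fun g _ => ?_
      by_cases hw : w ∈ Q g
      · rw [indicator_of_mem hw, indicator_of_mem hw, mul_comm]
      · rw [indicator_of_notMem hw, indicator_of_notMem hw, mul_zero]
    rw [e]
    exact integrable_finsetSum _ fun g _ => (hki.const_mul _).indicator (hQ.meas g)
  · intro w hw
    obtain ⟨g, hg⟩ := mem_iUnion.1 (hQ.cover hw)
    have e : ∑ g, (Q g).indicator (fun _ => F i (z g)) w = F i (z g) := by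
      rw [Finset.sum_eq_single g]
      · rw [indicator_of_mem hg]
      · intro g' _ hne
        exact indicator_of_notMem (fun hh => Set.disjoint_left.1 (hQ.disj hne) hh hg) _
      · intro hh; exact absurd (Finset.mem_univ g) hh
    show ‖∑ g, (Q g).indicator (fun _ => F i (z g)) w - F i w‖ ≤ η
    rw [e]
    refine h3 (z g) (hQ.mem g) w hw ?_
    rw [dist_comm]
    exact (hQ.near g w hg).trans_le (min_le_left _ _)
  · have e : ∫ w, k w * ∑ g, (Q g).indicator (fun _ => F i (z g)) w =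
        ∑ g, F i (z g) * ∫ w in Q g, k w := by
      have e1 : (fun w => k w * ∑ g, (Q g).indicator (fun _ => F i (z g)) w) =
          fun w => ∑ g, (Q g).indicator (fun w => F i (z g) * k w) w := by
        funext w
        rw [Finset.mul_sum]
        refine Finset.sum_congr rfl fun g _ => ?_
        by_cases hw : w ∈ Q g
        · rw [indicator_of_mem hw, indicator_of_mem hw, mul_comm]
        · rw [indicator_of_notMem hw, indicator_of_notMem hw, mul_zero]
      rw [e1, integral_finsetSum _ fun g _ => (hki.const_mul _).indicator (hQ.meas g)]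
      refine Finset.sum_congr rfl fun g _ => ?_
      rw [integral_indicator (hQ.meas g), integral_const_mul]
    show ‖c i * ∫ w, k w * ∑ g, (Q g).indicator (fun _ => F i (z g)) w‖ ≤ η
    rw [e]
    exact h4

/-- The equicontinuity needed above follows from the local one. -/
theorem unif_of_AEqui {l : Filter ι} {D : Set ℂ} {F : ι → ℂ → ℂ} (hF : AEqui l D F) {K : Set ℂ}
    (hK : IsCompact K) (hKD : K ⊆ D) {η : ℝ} (hη : 0 < η) :
    ∃ δ > 0, ∀ᶠ i in l, ∀ z ∈ K, ∀ w ∈ K, dist z w < δ → ‖F i z - F i w‖ ≤ η := by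
  classical
  choose! r hr hF' using fun p (hp : p ∈ closure D) => hF p hp η hη
  obtain ⟨t, ht, hcov⟩ := hK.elim_nhds_subcover (fun x => ball x (r x / 2)) fun x hx =>
    ball_mem_nhds x (by have := hr x (subset_closure (hKD hx)); positivity)
  rcases t.eq_empty_or_nonempty with hte | htn
  · refine ⟨1, one_pos, Eventually.of_forall fun i z hz => ?_⟩
    have := hcov hz
    simp [hte] at this
  · have hpos : ∀ x ∈ t, 0 < r x / 2 := fun x hx => by
      have := hr x (subset_closure (hKD (ht x hx))); positivity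
    refine ⟨t.inf' htn (fun x => r x / 2), (Finset.lt_inf'_iff htn).2 hpos, ?_⟩
    have h2 : ∀ᶠ i in l, ∀ x ∈ t, ∀ z ∈ D, ∀ w ∈ D, dist z x < r x → dist w x < r x →
        dist (F i z) (F i w) ≤ η :=
      (Filter.eventually_all_finset t).2 fun x hx => hF' x (subset_closure (hKD (ht x hx)))
    filter_upwards [h2] with i hi z hz w hw hzw
    obtain ⟨x, hx, hzx⟩ := mem_iUnion₂.1 (hcov hz)
    have h3 : dist z w < r x / 2 := hzw.trans_le (Finset.inf'_le _ hx)
    have h4 : dist z x < r x / 2 := hzx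
    rw [← dist_eq_norm]
    refine hi x hx z (hKD hz) w (hKD hw) (by linarith [hpos x hx]) ?_
    have := dist_triangle_left w x z
    linarith

/-- Expectation of a quenched inequality. -/
theorem annealed {Ω : Type*} [MeasurableSpace Ω] {P : Measure Ω} {S : Ω → ℂ} {n : ℕ}
    {f : Fin n → Ω → ℂ} {a : Fin n → ℂ} {err : Ω → ℝ} (hS : Integrable S P)
    (hf : ∀ g, Integrable (f g) P) (he : Integrable err P)
    (h : ∀ᵐ ω ∂P, ‖S ω + ∑ g, f g ω * a g‖ ≤ err ω) :
    ‖(∫ ω, S ω ∂P) + ∑ g, (∫ ω, f g ω ∂P) * a g‖ ≤ ∫ ω, err ω ∂P := by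
  have e : (∫ ω, S ω ∂P) + ∑ g, (∫ ω, f g ω ∂P) * a g = ∫ ω, (S ω + ∑ g, f g ω * a g) ∂P := by
    rw [integral_add hS (integrable_finsetSum _ fun g _ => (hf g).mul_const _),
      integral_finsetSum _ fun g _ => (hf g).mul_const _]
    congr 1
    exact Finset.sum_congr rfl fun g _ => (integral_mul_const _ _).symm
  rw [e]
  exact norm_integral_le_of_norm_le he h

end Vale.Agent.P148.R2.H219
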