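import Vale.Agent.P148.R2.H219.St7

/-!
# The limit theorem on the level of the darts, final form (P148, modules S and E together)
-/

open Set Metric Filter Topology MeasureTheory Function
open scoped ComplexConjugate

namespace Vale.Agent.P148.R2.H219

open _root_.P148 _root_.P148.Half
open Vale.Agent.P148.R2.H592 Vale.Agent.P148.R2.H258

variable {ι : Type*}

/-- The main limit theorem of module E, from `ArcLimit`. -/
theorem ArcLimit.limit {Q : Quad} {φ : ℂ → ℂ} {x : ℝ} (h : Q.IsUniformizer φ x) {l : Filter ι}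
    {H : ι → Fin 3 → ℂ → ℝ} (hH : ArcLimit Q l H) {c : ι → ℂ} {s : ℂ} (hs : s ≠ 0)
    (hw1 : ∀ χ : ℂ → ℝ, IsTest Q.D χ →
      WeakSmallC l (fun i => c i - s) (fun i => vec (H i)) (dbar χ))
    (hw2 : ∀ χ : ℂ → ℝ, IsTest Q.D χ →
      WeakSmallC l (fun i => c i + s) (fun i => vec (H i)) (ddd χ)) :
    ∀ p ∈ closure Q.D, LimAt l Q.D (fun i => tri (H i)) (cmap Q φ) p := by
  have hs0 : 0 < ‖s‖ := norm_pos_iff.2 hs
  set A : Set ι := {i | ‖s‖ ≤ ‖c i - s‖} with hA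
  have h1 : ∀ᶠ i in l ⊓ 𝓟 A, ‖s‖ ≤ ‖c i - s‖ :=
    (eventually_principal.2 fun i hi => hi).filter_mono inf_le_right
  have h2 : ∀ᶠ i in l ⊓ 𝓟 Aᶜ, ‖s‖ ≤ ‖c i + s‖ := by
    refine Filter.Eventually.filter_mono inf_le_right (eventually_principal.2 fun i hi => ?_)
    have hi' : ‖c i - s‖ < ‖s‖ := not_le.1 hi
    have e : s + s = (c i + s) - (c i - s) := by ring
    have h3 : ‖s + s‖ = ‖s‖ + ‖s‖ := by rw [← two_mul, norm_mul]; simp [two_mul]
    have h4 := norm_sub_le (c i + s) (c i - s)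
    rw [← e, h3] at h4
    linarith
  exact hH.limit_tri h (fun χ hχ => ((hw1 χ hχ).mono inf_le_left).weakSmall hs0 h1)
    (fun χ hχ => ((hw2 χ hχ).mono inf_le_left).weakSmall hs0 h2)

theorem pair_dist (a b c d : ℝ) :
    dist ((a : ℂ) + v3 * (b : ℂ)) ((c : ℂ) + v3 * (d : ℂ)) ≤ |a - c| + |b - d| := by
  rw [dist_eq_norm]
  have e : ((a : ℂ) + v3 * (b : ℂ)) - ((c : ℂ) + v3 * (d : ℂ)) =
      ((a - c : ℝ) : ℂ) + v3 * ((b - d : ℝ) : ℂ) := by push_cast; ring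
  rw [e]
  refine (norm_add_le _ _).trans ?_
  rw [norm_mul, norm_v3, one_mul, Complex.norm_real, Complex.norm_real, Real.norm_eq_abs,
    Real.norm_eq_abs]

namespace DartLimit

variable {Q : Quad} {l : Filter ι} {S : ι → Cfg} {A : ∀ i, Set (Fc (S i).X (S i).b × ZMod 3)}
  (h : DartLimit Q l S A)
include h

theorem fine' {χ : ℂ → ℝ} (hχ : IsTest Q.D χ) : ∃ C, ∀ᶠ i in l, (S i).Fine (tsupport χ) C 1 := by
  obtain ⟨C, hC⟩ := h.fine (tsupport χ) hχ.compact hχ.supp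
  exact ⟨C, hC 1 one_pos⟩

/-- **The limit of the observables on the darts**, general form. -/
theorem limit {φ : ℂ → ℂ} {x : ℝ} (hU : Q.IsUniformizer φ x) {c : ι → ℂ} {s : ℂ} (hs : s ≠ 0)
    {C0 : ℝ} (hc : ∀ᶠ i in l, ‖c i‖ ≤ C0)
    (hW1 : ∀ χ : ℂ → ℝ, IsTest Q.D χ → ∀ η > 0, ∀ᶠ i in l,
      ‖c i - s‖ * ‖(S i).mean χ tau‖ ≤ η)
    (hW2 : ∀ χ : ℂ → ℝ, IsTest Q.D χ → ∀ η > 0, ∀ᶠ i in l,
      ‖c i + s‖ * ‖(S i).mean χ (tau ^ 2)‖ ≤ η) :
    ∀ p ∈ closure Q.D, ∀ η > 0, ∃ δ > 0, ∀ᶠ i in l, ∀ d ∈ A i, dist (tail d) p < δ →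
      dist (((S i).H 2 d : ℂ) + v3 * ((S i).H 0 d : ℂ)) (cmap Q φ p) ≤ η := by
  have e4 : (tau ^ 2) ^ 2 = tau := by
    have := Tri.tau_pow_three Cfg.tau_root
    linear_combination tau * this
  have hlim := h.arcLimit.limit hU (c := c) hs (fun χ hχ => ?_) (fun χ hχ => ?_)
  · intro p hp η hη
    obtain ⟨δ1, hδ1, h1⟩ := hlim p hp (η / 3) (by positivity)
    obtain ⟨δ2, hδ2, h2⟩ := h.equi 2 p hp (η / 3) (by positivity)
    obtain ⟨δ0, hδ0, h0⟩ := h.equi 0 p hp (η / 3) (by positivity)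
    set δ := min δ1 (min δ0 δ2) / 2 with hδ
    have hδp : 0 < δ := by positivity
    obtain ⟨z, hz, hzp⟩ := Metric.mem_closure_iff.1 hp δ hδp
    have m1 : δ ≤ δ1 / 2 := by
      have := min_le_left δ1 (min δ0 δ2); rw [hδ]; linarith
    have m0 : δ ≤ δ0 / 2 := by
      have := (min_le_right δ1 (min δ0 δ2)).trans (min_le_left _ _); rw [hδ]; linarith
    have m2 : δ ≤ δ2 / 2 := by
      have := (min_le_right δ1 (min δ0 δ2)).trans (min_le_right _ _); rw [hδ]; linarith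
    refine ⟨δ, hδp, ?_⟩
    filter_upwards [h1, h2, h0, h.near_dart hδp] with i i1 i2 i0 hn d hd hdp
    obtain ⟨z1, z2⟩ := hn z hz
    rw [dist_comm] at hzp
    have t1 := i1 z hz (by linarith)
    have hnp : dist (tail ((S i).nd (A i) z)) p < 2 * δ := by
      have := dist_triangle (tail ((S i).nd (A i) z)) z p
      linarith
    have t2 := i2 d hd _ z1 (by linarith) (by linarith)
    have t0 := i0 d hd _ z1 (by linarith) (by linarith)
    have key : dist (((S i).H 2 d : ℂ) + v3 * ((S i).H 0 d : ℂ))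
        (tri (fun j z => (S i).H j ((S i).nd (A i) z)) z) ≤ η / 3 + η / 3 := by
      refine (pair_dist ((S i).H 2 d) ((S i).H 0 d) ((S i).H 2 ((S i).nd (A i) z))
        ((S i).H 0 ((S i).nd (A i) z))).trans ?_
      linarith
    have := dist_triangle (((S i).H 2 d : ℂ) + v3 * ((S i).H 0 d : ℂ))
      (tri (fun j z => (S i).H j ((S i).nd (A i) z)) z) (cmap Q φ p)
    linarith
  · -- the form `dx`
    obtain ⟨C, hC⟩ := h.fine' hχ
    refine h.weak hχ (formId hχ) (C0 := C0 + ‖s‖) ?_ ?_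
    · filter_upwards [hc] with i hi
      exact (norm_sub_le _ _).trans (by linarith)
    · intro η hη
      filter_upwards [hC, hW1 χ hχ (η / 3) (by positivity)] with i h1 h2
      have h3 := h1.norm_sum_id Cfg.tau_root'
      rw [e4] at h3
      have h4 : ‖∑ t, (χ (vc t 0) : ℂ) * ∑ j, (S i).M (t, j) *
          (formId hχ).ℓ (head (t, j) - tail (t, j))‖ ≤ 3 * ‖(S i).mean χ tau‖ := h3
      have h5 := mul_le_mul_of_nonneg_left h4 (norm_nonneg (c i - s))
      linarith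
  · -- the form `d x̄`
    obtain ⟨C, hC⟩ := h.fine' hχ
    refine h.weak hχ (formConj hχ) (C0 := C0 + ‖s‖) ?_ ?_
    · filter_upwards [hc] with i hi
      exact (norm_add_le _ _).trans (by linarith)
    · intro η hη
      filter_upwards [hC, hW2 χ hχ (η / 3) (by positivity)] with i h1 h2
      have h3 := h1.norm_sum_conj Cfg.tau_root'
      have h4 : ‖∑ t, (χ (vc t 0) : ℂ) * ∑ j, (S i).M (t, j) *
          (formConj hχ).ℓ (head (t, j) - tail (t, j))‖ ≤ 3 * ‖(S i).mean χ (tau ^ 2)‖ := h3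
      have h5 := mul_le_mul_of_nonneg_left h4 (norm_nonneg (c i + s))
      linarith

/-- **The limit of the observables on the darts**, simple form: the mean weight of the class of the
outer face tends to zero. -/
theorem limit' {φ : ℂ → ℂ} {x : ℝ} (hU : Q.IsUniformizer φ x)
    (hW : ∀ χ : ℂ → ℝ, IsTest Q.D χ → ∀ η > 0, ∀ᶠ i in l, ‖(S i).mean χ tau‖ ≤ η) :
    ∀ p ∈ closure Q.D, ∀ η > 0, ∃ δ > 0, ∀ᶠ i in l, ∀ d ∈ A i, dist (tail d) p < δ →
      dist (((S i).H 2 d : ℂ) + v3 * ((S i).H 0 d : ℂ)) (cmap Q φ p) ≤ η := by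
  refine h.limit hU (c := fun _ => -1) (s := 1) one_ne_zero (C0 := 1)
    (Eventually.of_forall fun _ => by simp) (fun χ hχ η hη => ?_) (fun χ hχ η hη => ?_)
  · filter_upwards [hW χ hχ (η / 2) (by positivity)] with i hi
    have e : ‖(-1 : ℂ) - 1‖ = 2 := by norm_num
    rw [e]; linarith
  · refine Eventually.of_forall fun i => ?_
    have e : ‖(-1 : ℂ) + 1‖ = 0 := by norm_num
    rw [e, zero_mul]; exact hη.le

/-- **Cardy's number at the fourth marked point**: `H 2` tends to `cardy x`, `H 1` to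
`1 - cardy x`. -/
theorem limit_cardy {φ : ℂ → ℂ} {x : ℝ} (hU : Q.IsUniformizer φ x)
    (hlim : ∀ p ∈ closure Q.D, ∀ η > 0, ∃ δ > 0, ∀ᶠ i in l, ∀ d ∈ A i, dist (tail d) p < δ →
      dist (((S i).H 2 d : ℂ) + v3 * ((S i).H 0 d : ℂ)) (cmap Q φ p) ≤ η) :
    ∀ η > 0, ∃ δ > 0, ∀ᶠ i in l, ∀ d ∈ A i, dist (tail d) (Q.mark 1) < δ →
      |(S i).H 2 d - cardy x| ≤ η ∧ |(S i).H 1 d - (1 - cardy x)| ≤ η := by
  intro η hη
  have hm := mark_mem_closure Q 1
  obtain ⟨δ, hδ, h1⟩ := hlim _ hm (η / 4) (by positivity)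
  obtain ⟨δ', hδ', h2⟩ := h.bd0 _ (Or.inl (show Q.mark 1 ∈ Q.arc 0 from mark_mem_arc' Q 0))
    (η / 4) (by positivity)
  obtain ⟨δ'', hδ'', h6⟩ := h.tot _ hm (η / 4) (by positivity)
  refine ⟨min δ (min δ' δ''), lt_min hδ (lt_min hδ' hδ''), ?_⟩
  filter_upwards [h1, h2, h6] with i h3 h4 h7 d hd hdb
  have e3 := h3 d hd (hdb.trans_le (min_le_left _ _))
  have e4 := h4 d hd (hdb.trans_le ((min_le_right _ _).trans (min_le_left _ _)))
  have e7 := h7 d hd (hdb.trans_le ((min_le_right _ _).trans (min_le_right _ _)))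
  have e5 := (S i).H_nonneg 0 d
  rw [cmap_mark1 hU, dist_eq_norm] at e3
  have e6 := (Complex.abs_re_le_norm _).trans e3
  have hre : (((S i).H 2 d : ℂ) + v3 * ((S i).H 0 d : ℂ) - (cardy x : ℂ)).re =
      (S i).H 2 d + (S i).H 0 d / 2 - cardy x := by
    simp only [v3, Complex.sub_re, Complex.add_re, Complex.mul_re, Complex.ofReal_re,
      Complex.ofReal_im]
    ring
  rw [hre] at e6
  rw [abs_le] at e6 e7 ⊢
  refine ⟨⟨by linarith, by linarith⟩, ?_⟩
  rw [abs_le]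
  constructor <;> linarith

end DartLimit

end Vale.Agent.P148.R2.H219
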